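import Vale.Agent.P309.Defs

open MeasureTheory ProbabilityTheory Metric Module
open scoped RealInnerProductSpace ENNReal

namespace P309

theorem sum_Icc_half (a : ℤ) (B : ℕ) :
    ∑ k ∈ Finset.Icc (a - B) (a + B), ((1 : ℝ) / 2) ^ ((k - a).natAbs) ≤ 3 := by
  classical
  have hgeo : ∀ n : ℕ, ∑ i ∈ Finset.range n, ((1 : ℝ) / 2) ^ i ≤ 2 := by
    intro n
    have := (summable_geometric_two).sum_le_tsum (Finset.range n) (fun i _ => by positivity)
    rwa [tsum_geometric_two] at this
  have hsub : Finset.Icc (a - B) (a + B) ⊆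
      (Finset.range (B + 1)).image (fun i : ℕ => a + i) ∪
      (Finset.range (B + 1)).image (fun i : ℕ => a - 1 - i) := by
    intro k hk
    rw [Finset.mem_Icc] at hk
    rw [Finset.mem_union, Finset.mem_image, Finset.mem_image]
    rcases le_or_gt a k with h | h
    · left
      refine ⟨(k - a).toNat, ?_, ?_⟩
      · rw [Finset.mem_range]; omega
      · omega
    · right
      refine ⟨(a - 1 - k).toNat, ?_, ?_⟩
      · rw [Finset.mem_range]; omega
      · omega
  calc ∑ k ∈ Finset.Icc (a - B) (a + B), ((1 : ℝ) / 2) ^ ((k - a).natAbs)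
      ≤ ∑ k ∈ (Finset.range (B + 1)).image (fun i : ℕ => a + i) ∪
        (Finset.range (B + 1)).image (fun i : ℕ => a - 1 - i), ((1 : ℝ) / 2) ^ ((k - a).natAbs) :=
        Finset.sum_le_sum_of_subset_of_nonneg hsub (fun _ _ _ => by positivity)
    _ = ∑ k ∈ (Finset.range (B + 1)).image (fun i : ℕ => a + i), ((1 : ℝ) / 2) ^ ((k - a).natAbs) +
        ∑ k ∈ (Finset.range (B + 1)).image (fun i : ℕ => a - 1 - i),
          ((1 : ℝ) / 2) ^ ((k - a).natAbs) := by
        apply Finset.sum_union
        rw [Finset.disjoint_left]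
        intro k hk1 hk2
        rw [Finset.mem_image] at hk1 hk2
        obtain ⟨i, -, rfl⟩ := hk1
        obtain ⟨i', -, hi'⟩ := hk2
        omega
    _ = ∑ i ∈ Finset.range (B + 1), ((1 : ℝ) / 2) ^ i +
        ∑ i ∈ Finset.range (B + 1), ((1 : ℝ) / 2) ^ (i + 1) := by
        rw [Finset.sum_image, Finset.sum_image]
        · congr 1
          · apply Finset.sum_congr rfl
            intro i _
            congr 1
            omega
          · apply Finset.sum_congr rfl
            intro i _
            congr 1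
            omega
        · intro i _ i' _ h
          simp only at h
          omega
        · intro i _ i' _ h
          simp only at h
          omega
    _ ≤ 2 + 2 * (1 / 2) := by
        gcongr
        · exact hgeo _
        · simp_rw [pow_succ]
          rw [← Finset.sum_mul]
          gcongr
          exact hgeo _
    _ = 3 := by norm_num

/-- The finite set of integer vectors at `ℓ¹` distance at most `3 d` from `a`. -/
noncomputable def near (d : ℕ) (a : Fin d → ℤ) : Finset (Fin d → ℤ) :=
  (Fintype.piFinset (fun i => Finset.Icc (a i - (3 * d : ℕ)) (a i + (3 * d : ℕ)))).filter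
    (fun n => ∑ i, (n i - a i).natAbs ≤ 3 * d)

theorem card_near_le (d : ℕ) (a : Fin d → ℤ) : ((near d a).card : ℝ) ≤ 24 ^ d := by
  classical
  have hpt : ∀ n ∈ near d a, (1 : ℝ) ≤ 2 ^ (3 * d) * ∏ i, ((1 : ℝ) / 2) ^ ((n i - a i).natAbs) := by
    intro n hn
    rw [near, Finset.mem_filter] at hn
    rw [Finset.prod_pow_eq_pow_sum]
    have h1 : ((1 : ℝ) / 2) ^ (3 * d) ≤ ((1 : ℝ) / 2) ^ (∑ i, (n i - a i).natAbs) :=
      pow_le_pow_of_le_one (by norm_num) (by norm_num) hn.2
    calc (1 : ℝ) = 2 ^ (3 * d) * ((1 : ℝ) / 2) ^ (3 * d) := by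
          rw [← mul_pow]; norm_num
      _ ≤ _ := by gcongr
  calc ((near d a).card : ℝ) = ∑ n ∈ near d a, (1 : ℝ) := by simp
    _ ≤ ∑ n ∈ near d a, 2 ^ (3 * d) * ∏ i, ((1 : ℝ) / 2) ^ ((n i - a i).natAbs) :=
        Finset.sum_le_sum hpt
    _ ≤ ∑ n ∈ Fintype.piFinset (fun i => Finset.Icc (a i - (3 * d : ℕ)) (a i + (3 * d : ℕ))),
          2 ^ (3 * d) * ∏ i, ((1 : ℝ) / 2) ^ ((n i - a i).natAbs) := by
        apply Finset.sum_le_sum_of_subset_of_nonneg (Finset.filter_subset _ _)
        intros
        positivity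
    _ = 2 ^ (3 * d) * ∏ i, ∑ k ∈ Finset.Icc (a i - (3 * d : ℕ)) (a i + (3 * d : ℕ)),
          ((1 : ℝ) / 2) ^ ((k - a i).natAbs) := by
        rw [← Finset.mul_sum]
        congr 1
        rw [Finset.prod_univ_sum]
    _ ≤ 2 ^ (3 * d) * ∏ _i : Fin d, (3 : ℝ) := by
        gcongr with i _
        · exact sum_Icc_half (a i) (3 * d)
    _ = 24 ^ d := by
        rw [Finset.prod_const, Finset.card_univ, Fintype.card_fin, pow_mul, ← mul_pow]
        norm_num

/-- the index of a point of the ball is near the index of the center -/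
theorem cube_mem_near {d : ℕ} {j : ℕ} (hj : j ≠ 0) {x v : E d}
    (hv : v ∈ closedBall x (2 / 2 ^ j)) : cube d j v ∈ near d (cube d j x) := by
  have hsum : (∑ i, |Real.sqrt d * 2 ^ j * v i - Real.sqrt d * 2 ^ j * x i|) ≤ 2 * d := by
    have h1 : ∀ i, |Real.sqrt d * 2 ^ j * v i - Real.sqrt d * 2 ^ j * x i| =
        Real.sqrt d * 2 ^ j * |(v - x) i| := by
      intro i
      rw [← mul_sub, abs_mul, abs_of_nonneg (by positivity : (0 : ℝ) ≤ Real.sqrt d * 2 ^ j)]
      rfl
    simp_rw [h1]
    rw [← Finset.mul_sum]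
    have hcs : (∑ i, |(v - x) i|) ≤ Real.sqrt d * ‖v - x‖ := by
      rw [EuclideanSpace.norm_eq, ← Real.sqrt_mul (by positivity)]
      apply Real.le_sqrt_of_sq_le
      have h2 := sq_sum_le_card_mul_sum_sq (s := (Finset.univ : Finset (Fin d)))
        (f := fun i => |(v - x) i|)
      rw [Finset.card_univ, Fintype.card_fin] at h2
      simpa [Real.norm_eq_abs] using h2
    have hdist : ‖v - x‖ ≤ 2 / 2 ^ j := by rw [← dist_eq_norm]; exact hv
    calc Real.sqrt d * 2 ^ j * ∑ i, |(v - x) i|
        ≤ Real.sqrt d * 2 ^ j * (Real.sqrt d * (2 / 2 ^ j)) := by gcongr; exact hcs.trans (by gcongr)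
      _ = (Real.sqrt d * Real.sqrt d) * 2 := by field_simp
      _ = 2 * d := by rw [Real.mul_self_sqrt (by positivity)]; ring
  have hnat : ∀ i, (((cube d j v i - cube d j x i).natAbs : ℕ) : ℝ) ≤
      |Real.sqrt d * 2 ^ j * v i - Real.sqrt d * 2 ^ j * x i| + 1 := by
    intro i
    simp only [cube, hj, if_false]
    rw [Nat.cast_natAbs]
    push_cast
    set w := Real.sqrt d * 2 ^ j * v i
    set c := Real.sqrt d * 2 ^ j * x i
    have h1 := Int.floor_le w
    have h2 := Int.lt_floor_add_one w
    have h3 := Int.floor_le c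
    have h4 := Int.lt_floor_add_one c
    rw [abs_le]
    have h5 := le_abs_self (w - c)
    have h6 := neg_abs_le (w - c)
    constructor <;> linarith
  have htot : ∑ i, (cube d j v i - cube d j x i).natAbs ≤ 3 * d := by
    have : ((∑ i, (cube d j v i - cube d j x i).natAbs : ℕ) : ℝ) ≤ ((3 * d : ℕ) : ℝ) := by
      push_cast
      calc _ ≤ ∑ i, (|Real.sqrt d * 2 ^ j * v i - Real.sqrt d * 2 ^ j * x i| + 1) := by
            apply Finset.sum_le_sum
            intro i _
            have := hnat i
            push_cast at this ⊢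
            exact this
        _ = (∑ i, |Real.sqrt d * 2 ^ j * v i - Real.sqrt d * 2 ^ j * x i|) + d := by
            rw [Finset.sum_add_distrib]; simp
        _ ≤ 2 * d + d := by gcongr
        _ = 3 * d := by ring
    exact_mod_cast this
  rw [near, Finset.mem_filter]
  refine ⟨?_, htot⟩
  rw [Fintype.mem_piFinset]
  intro i
  have h1 : (cube d j v i - cube d j x i).natAbs ≤ 3 * d :=
    (Finset.single_le_sum (f := fun i => (cube d j v i - cube d j x i).natAbs)
      (fun _ _ => Nat.zero_le _) (Finset.mem_univ i)).trans htot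
  rw [Finset.mem_Icc]
  constructor <;> omega

theorem ball_le_cell {d : ℕ} (_hd : 1 ≤ d) (j : ℕ) (ν : Measure (E d)) (b : ℝ≥0∞)
    (hb : ∀ v, ν (cell d j v) ≤ b) (x : E d) :
    ν (Metric.closedBall x (2 / 2 ^ j)) ≤ (2 ^ 16) ^ d * b := by
  rcases Nat.eq_zero_or_pos j with rfl | hj
  · have huniv : cell d 0 x = Set.univ := by
      ext v
      simp [cell, cube]
    have h1 : ν (Metric.closedBall x (2 / 2 ^ 0)) ≤ b := by
      calc ν (Metric.closedBall x (2 / 2 ^ 0)) ≤ ν Set.univ := measure_mono (Set.subset_univ _)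
        _ = ν (cell d 0 x) := by rw [huniv]
        _ ≤ b := hb x
    have h2 : (1 : ℝ≥0∞) ≤ (2 ^ 16) ^ d := one_le_pow₀ (one_le_pow₀ (by norm_num))
    calc _ ≤ b := h1
      _ = 1 * b := (one_mul b).symm
      _ ≤ _ := by gcongr
  · have hcover : Metric.closedBall x (2 / 2 ^ j) ⊆
        ⋃ n ∈ near d (cube d j x), {v | cube d j v = n} := by
      intro v hv
      exact Set.mem_iUnion₂.2 ⟨cube d j v, cube_mem_near hj.ne' hv, rfl⟩
    have hcell : ∀ n, ν {v : E d | cube d j v = n} ≤ b := by
      intro n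
      rcases Set.eq_empty_or_nonempty {v : E d | cube d j v = n} with h | ⟨v, hv⟩
      · rw [h, measure_empty]; exact zero_le
      · have : {v' : E d | cube d j v' = n} = cell d j v := by
          ext v'
          simp only [cell, Set.mem_ofPred_eq]
          rw [show cube d j v = n from hv]
        rw [this]
        exact hb v
    calc ν (Metric.closedBall x (2 / 2 ^ j))
        ≤ ν (⋃ n ∈ near d (cube d j x), {v | cube d j v = n}) := measure_mono hcover
      _ ≤ ∑ n ∈ near d (cube d j x), ν {v | cube d j v = n} := measure_biUnion_finset_le _ _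
      _ ≤ ∑ n ∈ near d (cube d j x), b := Finset.sum_le_sum fun n _ => hcell n
      _ = (near d (cube d j x)).card * b := by rw [Finset.sum_const, nsmul_eq_mul]
      _ ≤ (2 ^ 16) ^ d * b := by
          gcongr
          have h1 := card_near_le d (cube d j x)
          have h2 : (near d (cube d j x)).card ≤ (2 ^ 16) ^ d := by
            have h3 : (near d (cube d j x)).card ≤ 24 ^ d := by exact_mod_cast h1
            exact h3.trans (Nat.pow_le_pow_left (by norm_num) d)
          exact_mod_cast h2

end P309
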