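import Vale.Agent.P309.Chain
open MeasureTheory ProbabilityTheory Filter
open scoped RealInnerProductSpace ENNReal Topology
namespace P309

/-- one-sample transition rule on a finite state space -/
structure StepRule (d : ℕ) (A : Type) [Fintype A] where
  s : ℕ → A → A → E d × ℝ → ℝ
  meas : ∀ t a b, Measurable (s t a b)
  nonneg : ∀ t a b p, 0 ≤ s t a b p
  sum_one : ∀ t a p, ∑ b, s t a b p = 1

section
set_option linter.unusedSectionVars false
set_option linter.unusedVariables false
variable {d : ℕ} {A : Type} [Fintype A] [DecidableEq A]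

theorem StepRule.le_one (Sr : StepRule d A) (t : ℕ) (a b : A) (p : E d × ℝ) : Sr.s t a b p ≤ 1 := by
  rw [← Sr.sum_one t a p]
  exact Finset.single_le_sum (f := fun b => Sr.s t a b p) (fun b _ => Sr.nonneg t a b p) (Finset.mem_univ b)

/-- transition rule of a block of `k` samples starting at time `t` -/
noncomputable def blk (Sr : StepRule d A) : (k : ℕ) → ℕ → A → A → (Fin k → E d) → (Fin k → ℝ) → ℝ
  | 0, _, a, b, _, _ => if a = b then 1 else 0
  | k + 1, t, a, b, X, y =>
      ∑ c, Sr.s t a c (X 0, y 0) * blk Sr k (t + 1) c b (fun i => X i.succ) (fun i => y i.succ)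

/-- acceptance probability when `k` samples remain, at time `t` -/
noncomputable def vf (Sr : StepRule d A) (f : A → E d → ℝ) : ℕ → ℕ → A → E d → ℝ
  | 0, _, a, v => f a v
  | k + 1, t, a, v => ∫ x, ∑ c, Sr.s t a c (x, ⟪x, v⟫) * vf Sr f k (t + 1) c v ∂(stdGaussian (E d))

theorem blk_meas (Sr : StepRule d A) : ∀ (k t : ℕ) (a b : A),
    Measurable (fun q : (Fin k → E d) × (Fin k → ℝ) => blk Sr k t a b q.1 q.2)
  | 0, t, a, b => by simp only [blk]; exact measurable_const
  | k + 1, t, a, b => by
      simp only [blk]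
      refine Finset.measurable_sum _ (fun c _ => ?_)
      have h1 : Measurable (fun q : (Fin (k + 1) → E d) × (Fin (k + 1) → ℝ) => (q.1 0, q.2 0)) :=
        ((measurable_pi_apply 0).comp measurable_fst).prodMk ((measurable_pi_apply 0).comp measurable_snd)
      have h2 : Measurable (fun q : (Fin (k + 1) → E d) × (Fin (k + 1) → ℝ) =>
          ((fun i : Fin k => q.1 i.succ), (fun i : Fin k => q.2 i.succ))) := by
        refine Measurable.prodMk ?_ ?_
        · exact measurable_pi_lambda _ (fun i => (measurable_pi_apply i.succ).comp measurable_fst)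
        · exact measurable_pi_lambda _ (fun i => (measurable_pi_apply i.succ).comp measurable_snd)
      exact ((Sr.meas t a c).comp h1).mul ((blk_meas Sr k (t + 1) c b).comp h2)

theorem blk_nonneg (Sr : StepRule d A) : ∀ (k t : ℕ) (a b : A) (X : Fin k → E d) (y : Fin k → ℝ),
    0 ≤ blk Sr k t a b X y
  | 0, t, a, b, X, y => by simp only [blk]; split_ifs <;> norm_num
  | k + 1, t, a, b, X, y => by
      simp only [blk]
      exact Finset.sum_nonneg (fun c _ => mul_nonneg (Sr.nonneg _ _ _ _) (blk_nonneg Sr k (t + 1) c b _ _))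

theorem blk_sum (Sr : StepRule d A) : ∀ (k t : ℕ) (a : A) (X : Fin k → E d) (y : Fin k → ℝ),
    ∑ b, blk Sr k t a b X y = 1
  | 0, t, a, X, y => by simp [blk]
  | k + 1, t, a, X, y => by
      simp only [blk]
      rw [Finset.sum_comm]
      simp_rw [← Finset.mul_sum, blk_sum Sr k (t + 1)]
      simp [Sr.sum_one]

theorem step_int (Sr : StepRule d A) (t : ℕ) (a c : A) (v : E d) :
    Integrable (fun x : E d => Sr.s t a c (x, ⟪x, v⟫)) (stdGaussian (E d)) := by
  have h1 : Measurable (fun x : E d => (x, ⟪x, v⟫)) := measurable_id.prodMk (by fun_prop)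
  refine Integrable.mono' (integrable_const (1 : ℝ)) ((Sr.meas t a c).comp h1).aestronglyMeasurable ?_
  refine Eventually.of_forall (fun x => ?_)
  rw [Real.norm_eq_abs, abs_of_nonneg (Sr.nonneg _ _ _ _)]
  exact Sr.le_one _ _ _ _

/-- averaged one-step transition -/
noncomputable def av (Sr : StepRule d A) (t : ℕ) (a c : A) (v : E d) : ℝ :=
  ∫ x, Sr.s t a c (x, ⟪x, v⟫) ∂(stdGaussian (E d))

theorem av_sum (Sr : StepRule d A) (t : ℕ) (a : A) (v : E d) : ∑ c, av Sr t a c v = 1 := by
  unfold av
  rw [← integral_finsetSum _ (fun c _ => step_int Sr t a c v)]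
  simp only [Sr.sum_one]
  simp

theorem av_nonneg (Sr : StepRule d A) (t : ℕ) (a c : A) (v : E d) : 0 ≤ av Sr t a c v :=
  integral_nonneg (fun _ => Sr.nonneg _ _ _ _)

theorem av_meas (Sr : StepRule d A) (t : ℕ) (a c : A) : Measurable (av Sr t a c) := by
  have h1 : Measurable (fun q : E d × E d => (q.1, ⟪q.1, q.2⟫)) :=
    measurable_fst.prodMk (Measurable.inner measurable_fst measurable_snd)
  exact (((Sr.meas t a c).comp h1).stronglyMeasurable.integral_prod_left').measurable

theorem vf_succ (Sr : StepRule d A) (f : A → E d → ℝ) (k t : ℕ) (a : A) (v : E d) :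
    vf Sr f (k + 1) t a v = ∑ c, av Sr t a c v * vf Sr f k (t + 1) c v := by
  simp only [vf]
  rw [integral_finsetSum _ (fun c _ => (step_int Sr t a c v).mul_const _)]
  exact Finset.sum_congr rfl (fun c _ => integral_mul_const _ _)

theorem vf_meas (Sr : StepRule d A) (f : A → E d → ℝ) (hf : ∀ a, Measurable (f a)) :
    ∀ k t a, Measurable (vf Sr f k t a)
  | 0, t, a => hf a
  | k + 1, t, a => by
      have : vf Sr f (k + 1) t a = fun v => ∑ c, av Sr t a c v * vf Sr f k (t + 1) c v := by
        funext v; exact vf_succ Sr f k t a v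
      rw [this]
      exact Finset.measurable_sum _ (fun c _ => (av_meas Sr t a c).mul (vf_meas Sr f hf k (t + 1) c))

theorem vf_nonneg (Sr : StepRule d A) (f : A → E d → ℝ) (hf : ∀ a v, 0 ≤ f a v) :
    ∀ k t a v, 0 ≤ vf Sr f k t a v
  | 0, t, a, v => hf a v
  | k + 1, t, a, v => by
      rw [vf_succ]
      exact Finset.sum_nonneg (fun c _ => mul_nonneg (av_nonneg Sr t a c v) (vf_nonneg Sr f hf k (t + 1) c v))

theorem vf_le_one (Sr : StepRule d A) (f : A → E d → ℝ) (hf : ∀ a v, f a v ≤ 1) :
    ∀ k t a v, vf Sr f k t a v ≤ 1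
  | 0, t, a, v => hf a v
  | k + 1, t, a, v => by
      rw [vf_succ]
      calc ∑ c, av Sr t a c v * vf Sr f k (t + 1) c v ≤ ∑ c, av Sr t a c v * 1 :=
            Finset.sum_le_sum (fun c _ => mul_le_mul_of_nonneg_left (vf_le_one Sr f hf k (t + 1) c v) (av_nonneg Sr t a c v))
        _ = 1 := by simp [av_sum]

theorem rows_succ_mul (k : ℕ) (F : E d → ℝ) (G : (Fin k → E d) → ℝ) :
    ∫ X, F (X 0) * G (fun i => X i.succ) ∂(rows d (k + 1)) =
      (∫ x, F x ∂(stdGaussian (E d))) * ∫ X, G X ∂(rows d k) := by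
  have hmp := measurePreserving_piFinSuccAbove (fun _ : Fin (k + 1) => stdGaussian (E d)) 0
  have h1 := hmp.integral_comp' (fun q : E d × (Fin k → E d) => F q.1 * G q.2)
  rw [integral_prod_mul] at h1
  exact h1

theorem chan_blk_zero (Sr : StepRule d A) (t : ℕ) (a b : A) (v : E d) :
    chan (blk Sr 0 t a b) v = if a = b then 1 else 0 := by
  unfold chan
  simp only [blk]
  simp

theorem chan_blk_succ (Sr : StepRule d A) (k t : ℕ) (a b : A) (v : E d) :
    chan (blk Sr (k + 1) t a b) v = ∑ c, av Sr t a c v * chan (blk Sr k (t + 1) c b) v := by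
  have hdef : chan (blk Sr (k + 1) t a b) v = ∫ X : Fin (k + 1) → E d,
      ∑ c, Sr.s t a c (X 0, ⟪X 0, v⟫) * blk Sr k (t + 1) c b (fun i => X i.succ) (fun i => ⟪X i.succ, v⟫)
      ∂(rows d (k + 1)) := rfl
  rw [hdef, integral_finsetSum]
  · refine Finset.sum_congr rfl (fun c _ => ?_)
    exact rows_succ_mul k (fun x => Sr.s t a c (x, ⟪x, v⟫)) (fun X => blk Sr k (t + 1) c b X (fun i => ⟪X i, v⟫))
  · intro c _
    have hm1 : Measurable (fun X : Fin (k + 1) → E d => (X 0, ⟪X 0, v⟫)) :=
      (measurable_pi_apply 0).prodMk (Measurable.inner (measurable_pi_apply 0) measurable_const)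
    have hm2 : Measurable (fun X : Fin (k + 1) → E d => ((fun i : Fin k => X i.succ), (fun i : Fin k => ⟪X i.succ, v⟫))) := by
      refine Measurable.prodMk ?_ ?_
      · exact measurable_pi_lambda _ (fun i => measurable_pi_apply i.succ)
      · exact measurable_pi_lambda _ (fun i => Measurable.inner (measurable_pi_apply i.succ) measurable_const)
    have hm3 : Measurable (fun X : Fin (k + 1) → E d => Sr.s t a c (X 0, ⟪X 0, v⟫) *
        blk Sr k (t + 1) c b (fun i => X i.succ) (fun i => ⟪X i.succ, v⟫)) :=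
      ((Sr.meas t a c).comp hm1).mul ((blk_meas Sr k (t + 1) c b).comp hm2)
    refine Integrable.mono' (integrable_const (1 : ℝ)) hm3.aestronglyMeasurable ?_
    refine Eventually.of_forall (fun X => ?_)
    have hb1 : blk Sr k (t + 1) c b (fun i => X i.succ) (fun i => ⟪X i.succ, v⟫) ≤ 1 := by
      rw [← blk_sum Sr k (t + 1) c (fun i => X i.succ) (fun i => ⟪X i.succ, v⟫)]
      exact Finset.single_le_sum (f := fun b => blk Sr k (t + 1) c b (fun i => X i.succ) (fun i => ⟪X i.succ, v⟫))
        (fun b _ => blk_nonneg Sr k (t + 1) c b _ _) (Finset.mem_univ b)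
    rw [Real.norm_eq_abs, abs_of_nonneg (mul_nonneg (Sr.nonneg _ _ _ _) (blk_nonneg Sr _ _ _ _ _ _))]
    calc Sr.s t a c (X 0, ⟪X 0, v⟫) * blk Sr k (t + 1) c b (fun i => X i.succ) (fun i => ⟪X i.succ, v⟫) ≤ 1 * 1 :=
          mul_le_mul (Sr.le_one _ _ _ _) hb1 (blk_nonneg Sr _ _ _ _ _ _) zero_le_one
      _ = 1 := by norm_num

theorem vf_blk (Sr : StepRule d A) (f : A → E d → ℝ) (v : E d) :
    ∀ (k r t : ℕ) (a : A), vf Sr f (k + r) t a v = ∑ b, chan (blk Sr k t a b) v * vf Sr f r (t + k) b v
  | 0, r, t, a => by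
      simp only [chan_blk_zero, Nat.zero_add, Nat.add_zero]
      simp
  | k + 1, r, t, a => by
      have e1 : k + 1 + r = (k + r) + 1 := by omega
      have e2 : t + (k + 1) = (t + 1) + k := by omega
      rw [e1, vf_succ, e2]
      simp_rw [vf_blk Sr f v k r (t + 1), chan_blk_succ, Finset.mul_sum, Finset.sum_mul]
      rw [Finset.sum_comm]
      refine Finset.sum_congr rfl (fun b _ => Finset.sum_congr rfl (fun c _ => ?_))
      ring

/-- block rule obtained from `n` blocks of `m` samples -/
noncomputable def toBlock (Sr : StepRule d A) (m n : ℕ) : BlockRule d m A where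
  h r a b := blk Sr m ((n - 1 - r) * m) a b
  meas i a b := blk_meas Sr m _ a b
  nonneg i a b X y := blk_nonneg Sr m _ a b X y
  sum_one i a X y := blk_sum Sr m _ a X y

theorem val_eq_vf (Sr : StepRule d A) (m n : ℕ) (f : A → E d → ℝ) (v : E d) :
    ∀ r, r ≤ n → ∀ a, val (toBlock Sr m n) f r a v = vf Sr f (r * m) ((n - r) * m) a v
  | 0, _, a => by simp [val, vf]
  | r + 1, hr, a => by
      have e0 : val (toBlock Sr m n) f (r + 1) a v =
        ∑ b, chan (blk Sr m ((n - 1 - r) * m) a b) v * val (toBlock Sr m n) f r b v := rfl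
      have e1 : (r + 1) * m = m + r * m := by ring
      have e2 : (n - (r + 1)) * m = (n - 1 - r) * m := by congr 1; omega
      have e3 : (n - 1 - r) * m + m = (n - r) * m := by
        have : n - r = (n - 1 - r) + 1 := by omega
        rw [this]; ring
      rw [e0, e1, vf_blk, e2, e3]
      exact Finset.sum_congr rfl (fun b _ => by rw [val_eq_vf Sr m n f v r (by omega) b])

end
end P309
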