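import Vale.Agent.P309.GibbsTwo
open MeasureTheory ProbabilityTheory
open scoped RealInnerProductSpace ENNReal
namespace P309

theorem cell_info_of_norm {d : ℕ} {p : Measure (E d)} [IsProbabilityMeasure p] {S : Set (E d)}
    {R D δ : ℝ} {m n : ℕ} (hm : 1 ≤ m) (hn : n + 1 = 2 * m) (hp : Frostman p S R D (4 * m)) (hδ : 0 < δ) (hδR : δ ≤ R)
    (hnorm : ∫⁻ s, (stdGaussian (E d) {y | ∀ j, |⟪y, s j - s 0⟫| ≤ δ} * (ENNReal.ofReal (R / δ)) ^ n) ^ (2 * m)
      ∂(Measure.pi (fun _ : Fin (n + 1) => p)) ≤ (ENNReal.ofReal (2 ^ (2 * m + 4 * m + 1) * 3 ^ n * D)) ^ n)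
    {A : Type} [Fintype A] [Nonempty A] (h : A → (Fin m → E d) → E d → ℝ)
    (hmeas : ∀ a, Measurable (fun q : (Fin m → E d) × E d => h a q.1 q.2))
    (η : ℝ) (hη : 0 < η) (hpos : ∀ a X v, η ≤ h a X v)
    (hsum : ∀ X v, ∑ a, h a X v = 1)
    (hcell : ∀ a X v v', (∀ i, ⌊⟪X i, v⟫ / δ⌋ = ⌊⟪X i, v'⟫ / δ⌋) → h a X v = h a X v') :
    info p (fun a v => ∫ X, h a X v ∂(rows d m)) ≤
      Real.log (Fintype.card A) / (2 * m) + 16 * m + Real.log D := by
  have hD : 0 < D := lt_of_lt_of_le one_pos hp.one_le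
  have hlogD : 0 ≤ Real.log D := Real.log_nonneg hp.one_le
  have hC : (0 : ℝ) < 2 ^ (2 * m + 4 * m + 1) * 3 ^ n * D := by positivity
  have g1 := gibbs_one (m := m) (n := n) hp.meas hp.null hp.diam hδ hδR hC hnorm
  have g2 := gibbs_two (m := m) (n := n) hp.meas hp.null hp.diam hδ hδR h hmeas η hη hpos hsum
    (fun a X v v' hvv => hcell a X v v' (fun i => congrFun hvv i))
  set I := info p (fun a v => ∫ X, h a X v ∂(rows d m)) with hI
  set LC := Real.log (2 ^ (2 * m + 4 * m + 1) * 3 ^ n * D) with hLC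
  set LR := Real.log (R / δ) with hLR
  set b := ∫ ω, Real.log (sb n δ ω.2).toReal ∂(repl m n p δ) with hb
  have hm1 : (1 : ℝ) ≤ m := by exact_mod_cast hm
  have hn1 : (n : ℝ) + 1 = 2 * m := by exact_mod_cast hn
  have hn0 : (0 : ℝ) ≤ n := Nat.cast_nonneg n
  have hLCle : LC ≤ 7 * m + Real.log D := by
    rw [hLC, Real.log_mul (by positivity) hD.ne', Real.log_mul (by positivity) (by positivity), Real.log_pow, Real.log_pow]
    have h2 := Real.log_two_lt_d9
    have h2' := Real.log_two_gt_d9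
    have h3 : Real.log 3 ≤ 2 * Real.log 2 := by
      rw [← Real.log_rpow (by norm_num)]
      exact Real.log_le_log (by norm_num) (by norm_num)
    push_cast
    have h4 : (n : ℝ) * Real.log 3 ≤ n * (2 * Real.log 2) := by gcongr
    have h5 : (n : ℝ) * (2 * Real.log 2) ≤ (2 * m - 1) * 1.4 := by
      have : (n : ℝ) = 2 * m - 1 := by linarith
      rw [this]
      have : 0 ≤ 2 * (m : ℝ) - 1 := by linarith
      nlinarith
    have h6 : (2 * (m : ℝ) + 4 * m + 1) * Real.log 2 ≤ (6 * m + 1) * 0.7 := by nlinarith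
    linarith
  have hLC0 : 0 ≤ LC := by
    apply Real.log_nonneg
    have e1 : (1 : ℝ) ≤ 2 ^ (2 * m + 4 * m + 1) := one_le_pow₀ (by norm_num)
    have e2 : (1 : ℝ) ≤ 3 ^ n := one_le_pow₀ (by norm_num)
    have e3 := hp.one_le
    calc (1 : ℝ) = 1 * 1 * 1 := by norm_num
      _ ≤ 2 ^ (2 * m + 4 * m + 1) * 3 ^ n * D := by gcongr
  have hsumm : (2 * (m : ℝ)) * I ≤ Real.log (Fintype.card A) + 2 * m * (8 * m + LC) := by
    rw [← hn1]
    have : (n : ℝ) * (8 * m + LC) ≤ (n + 1) * (8 * m + LC) := by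
      gcongr; linarith
    nlinarith
  have h2m : (0 : ℝ) < 2 * m := by linarith
  have : I ≤ Real.log (Fintype.card A) / (2 * m) + (8 * m + LC) := by
    rw [div_add' _ _ _ h2m.ne', le_div_iff₀ h2m]
    linarith
  linarith

end P309
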