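import Vale.Agent.P309.Defs

open MeasureTheory ProbabilityTheory Metric Module
open scoped RealInnerProductSpace ENNReal

namespace P309

section Net

variable {F : Type*} [NormedAddCommGroup F] [NormedSpace ℝ F] [FiniteDimensional ℝ F]

open scoped Function in
/-- A `1`-separated set in the ball of radius `Q` has at most `(2Q+1)^dim` points. -/
theorem card_le_of_separated' {Q : ℝ} (hQ : 0 ≤ Q) (s : Finset F) (hs : ∀ c ∈ s, ‖c‖ ≤ Q)
    (h : ∀ c ∈ s, ∀ d ∈ s, c ≠ d → 1 ≤ ‖c - d‖) : (s.card : ℝ) ≤ (2 * Q + 1) ^ finrank ℝ F := by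
  borelize F
  let μ : Measure F := Measure.addHaar
  let δ : ℝ := (1 : ℝ) / 2
  let ρ : ℝ := Q + 1 / 2
  have ρpos : 0 < ρ := by positivity
  set A := ⋃ c ∈ s, ball (c : F) δ with hA
  have D : Set.Pairwise (s : Set F) (Disjoint on fun c => ball (c : F) δ) := by
    rintro c hc d hd hcd
    apply ball_disjoint_ball
    rw [dist_eq_norm]
    have := h c hc d hd hcd
    norm_num [δ]
    linarith
  have A_subset : A ⊆ ball (0 : F) ρ := by
    refine Set.iUnion₂_subset fun x hx => ?_
    apply ball_subset_ball'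
    calc
      δ + dist x 0 ≤ δ + Q := by rw [dist_zero_right]; exact add_le_add le_rfl (hs x hx)
      _ = Q + 1 / 2 := by ring
  have I :
    (s.card : ℝ≥0∞) * ENNReal.ofReal (δ ^ finrank ℝ F) * μ (ball 0 1) ≤
      ENNReal.ofReal (ρ ^ finrank ℝ F) * μ (ball 0 1) :=
    calc
      (s.card : ℝ≥0∞) * ENNReal.ofReal (δ ^ finrank ℝ F) * μ (ball 0 1) = μ A := by
        rw [hA, measure_biUnion_finset D fun c _ => measurableSet_ball]
        have I : 0 < δ := by norm_num [δ]
        simp only [μ.addHaar_ball_of_pos _ I]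
        simp only [Finset.sum_const, nsmul_eq_mul, mul_assoc]
      _ ≤ μ (ball (0 : F) ρ) := measure_mono A_subset
      _ = ENNReal.ofReal (ρ ^ finrank ℝ F) * μ (ball 0 1) := by
        simp only [μ.addHaar_ball_of_pos _ ρpos]
  have J : (s.card : ℝ≥0∞) * ENNReal.ofReal (δ ^ finrank ℝ F) ≤ ENNReal.ofReal (ρ ^ finrank ℝ F) :=
    (ENNReal.mul_le_mul_iff_left (measure_ball_pos _ _ zero_lt_one).ne' measure_ball_lt_top.ne).1 I
  have J' := ENNReal.toReal_le_of_le_ofReal (pow_nonneg ρpos.le _) J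
  rw [ENNReal.toReal_mul, ENNReal.toReal_natCast, ENNReal.toReal_ofReal (by positivity)] at J'
  have hρ : (2 * Q + 1) = ρ / δ := by simp only [ρ, δ]; ring
  rw [hρ, div_pow, le_div_iff₀ (by positivity)]
  exact J'

/-- Existence of a `1`-net of the ball of radius `Q`. -/
theorem exists_net {Q : ℝ} (hQ : 0 ≤ Q) :
    ∃ s : Finset F, (s.card : ℝ) ≤ (2 * Q + 1) ^ finrank ℝ F ∧
      ∀ w : F, ‖w‖ ≤ Q → ∃ c ∈ s, ‖w - c‖ ≤ 1 := by
  classical
  let P : ℕ → Prop := fun n => ∃ s : Finset F, s.card = n ∧ (∀ c ∈ s, ‖c‖ ≤ Q) ∧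
    ∀ c ∈ s, ∀ d ∈ s, c ≠ d → 1 ≤ ‖c - d‖
  have hP0 : P 0 := ⟨∅, by simp⟩
  have hbound : ∀ n, P n → n ≤ ⌊(2 * Q + 1) ^ finrank ℝ F⌋₊ := by
    rintro n ⟨s, rfl, h1, h2⟩
    exact Nat.le_floor (card_le_of_separated' hQ s h1 h2)
  have hmax := Nat.findGreatest_spec (P := P) (Nat.zero_le ⌊(2 * Q + 1) ^ finrank ℝ F⌋₊) hP0
  obtain ⟨s, hcard, h1, h2⟩ := hmax
  refine ⟨s, card_le_of_separated' hQ s h1 h2, ?_⟩
  intro w hw
  by_contra hcon
  push Not at hcon
  have hws : w ∉ s := fun hmem => by
    have := hcon w hmem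
    simp at this
    linarith
  have hP' : P (s.card + 1) := by
    refine ⟨insert w s, Finset.card_insert_of_notMem hws, ?_, ?_⟩
    · intro c hc
      rcases Finset.mem_insert.1 hc with rfl | hc
      · exact hw
      · exact h1 c hc
    · intro c hc d hd hcd
      rcases Finset.mem_insert.1 hc with hc' | hc' <;> rcases Finset.mem_insert.1 hd with hd' | hd'
      · exact absurd (hc'.trans hd'.symm) hcd
      · rw [hc']; exact (hcon d hd').le
      · rw [hd', norm_sub_rev]; exact (hcon c hc').le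
      · exact h2 c hc' d hd' hcd
  have := Nat.le_findGreatest (hbound _ hP') hP'
  omega

end Net

variable {d : ℕ}

theorem infDist_eq_norm (W : Submodule ℝ (E d)) (v : E d) :
    infDist v W = ‖v - W.starProjection v‖ := by
  rw [Submodule.starProjection_minimal, infDist_eq_iInf]
  simp only [dist_eq_norm]
  rfl

/-- The tube at level `i` has small mass. -/
theorem tube_mass {p : Measure (E d)} [IsProbabilityMeasure p] {S : Set (E d)}
    {R D : ℝ} {K : ℕ} (hp : Frostman p S R D K) (m : ℕ) (W : Submodule ℝ (E d))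
    (hW : Module.finrank ℝ W ≤ m) (s₀ : E d) (hs₀ : s₀ ∈ S) (i : ℕ) :
    p {s | s ∈ S ∧ infDist (s - s₀) W ≤ R / 2 ^ i} ≤
      ENNReal.ofReal (3 ^ m * 2 ^ (i * m) * D * 2 ^ K / 2 ^ (K * i)) := by
  have hR := hp.Rpos
  have hD : (1 : ℝ) ≤ D := hp.one_le
  rcases Nat.eq_zero_or_pos i with rfl | hi
  · calc p _ ≤ 1 := prob_le_one
      _ = ENNReal.ofReal 1 := by simp
      _ ≤ _ := by
        apply ENNReal.ofReal_le_ofReal
        simp only [Nat.zero_mul, pow_zero, Nat.mul_zero, div_one, mul_one]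
        have h1 : (1 : ℝ) ≤ 3 ^ m := one_le_pow₀ (by norm_num)
        have h2 : (1 : ℝ) ≤ 2 ^ K := one_le_pow₀ (by norm_num)
        calc (1 : ℝ) = 1 * 1 * 1 := by norm_num
          _ ≤ 3 ^ m * D * 2 ^ K := by gcongr
  · obtain ⟨k, rfl⟩ : ∃ k, i = k + 1 := ⟨i - 1, by omega⟩
    set Q : ℝ := 2 ^ (k + 1) with hQ
    have hQ1 : (1 : ℝ) ≤ Q := one_le_pow₀ (by norm_num)
    set r : ℝ := R / Q with hr
    have hrpos : 0 < r := by positivity
    obtain ⟨t, htc, ht⟩ := exists_net (F := W) (Q := Q) (by positivity)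
    have hcover : {s | s ∈ S ∧ infDist (s - s₀) W ≤ R / Q} ⊆
        ⋃ c ∈ t, closedBall (s₀ + r • (c : E d)) (R / 2 ^ k) := by
      rintro s ⟨hsS, hs⟩
      set v := s - s₀ with hv
      have hvR : ‖v‖ ≤ R := by rw [hv, ← dist_eq_norm]; exact hp.diam s hsS s₀ hs₀
      rw [infDist_eq_norm] at hs
      set w : E d := W.starProjection v with hw
      have hwW : w ∈ W := Submodule.starProjection_apply_mem W v
      have hwR : ‖w‖ ≤ R := (W.norm_starProjection_apply_le v).trans hvR
      have hwQ : ‖(r⁻¹ • (⟨w, hwW⟩ : W))‖ ≤ Q := by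
        rw [norm_smul, norm_inv, Real.norm_of_nonneg hrpos.le, Submodule.coe_norm]
        simp only
        rw [hr, inv_div, div_mul_eq_mul_div, div_le_iff₀ hR]
        gcongr
      obtain ⟨c, hct, hc⟩ := ht _ hwQ
      refine Set.mem_iUnion₂.2 ⟨c, hct, ?_⟩
      rw [mem_closedBall, dist_eq_norm]
      have h1 : ‖w - r • (c : E d)‖ ≤ r := by
        have : w - r • (c : E d) = r • (((r⁻¹ • (⟨w, hwW⟩ : W)) - c : W) : E d) := by
          simp only [Submodule.coe_sub, Submodule.coe_smul, smul_sub, smul_smul]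
          rw [mul_inv_cancel₀ hrpos.ne', one_smul]
        rw [this, norm_smul, Real.norm_of_nonneg hrpos.le]
        calc r * ‖(((r⁻¹ • (⟨w, hwW⟩ : W)) - c : W) : E d)‖ ≤ r * 1 := by
              gcongr
              exact hc
          _ = r := mul_one r
      have h2 : s - (s₀ + r • (c : E d)) = (v - w) + (w - r • (c : E d)) := by
        rw [hv]; abel
      rw [h2]
      calc ‖(v - w) + (w - r • (c : E d))‖ ≤ ‖v - w‖ + ‖w - r • (c : E d)‖ := norm_add_le _ _
        _ ≤ R / Q + r := add_le_add hs h1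
        _ = R / 2 ^ k := by rw [hr, hQ, pow_succ]; field_simp; norm_num
    calc p {s | s ∈ S ∧ infDist (s - s₀) W ≤ R / Q}
        ≤ p (⋃ c ∈ t, closedBall (s₀ + r • (c : E d)) (R / 2 ^ k)) := measure_mono hcover
      _ ≤ ∑ c ∈ t, p (closedBall (s₀ + r • (c : E d)) (R / 2 ^ k)) := measure_biUnion_finset_le _ _
      _ ≤ ∑ c ∈ t, ENNReal.ofReal (D / 2 ^ (K * k)) := Finset.sum_le_sum fun c _ => hp.ball _ _
      _ = ENNReal.ofReal (t.card * (D / 2 ^ (K * k))) := by
        rw [Finset.sum_const, nsmul_eq_mul, ENNReal.ofReal_mul (by positivity),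
          ENNReal.ofReal_natCast]
      _ ≤ _ := by
        apply ENNReal.ofReal_le_ofReal
        have hcard : (t.card : ℝ) ≤ 3 ^ m * 2 ^ ((k + 1) * m) := by
          calc (t.card : ℝ) ≤ (2 * Q + 1) ^ finrank ℝ W := htc
            _ ≤ (2 * Q + 1) ^ m := pow_le_pow_right₀ (by linarith) hW
            _ ≤ (3 * Q) ^ m := by gcongr; linarith
            _ = 3 ^ m * 2 ^ ((k + 1) * m) := by rw [mul_pow, hQ, ← pow_mul]
        calc (t.card : ℝ) * (D / 2 ^ (K * k)) ≤ (3 ^ m * 2 ^ ((k + 1) * m)) * (D / 2 ^ (K * k)) := by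
              gcongr
          _ = 3 ^ m * 2 ^ ((k + 1) * m) * D * 2 ^ K / 2 ^ (K * (k + 1)) := by
              rw [Nat.mul_succ, pow_add]; field_simp

theorem tube_moment {p : Measure (E d)} [IsProbabilityMeasure p] {S : Set (E d)}
    {R D : ℝ} {K : ℕ} (hp : Frostman p S R D K) (θ m : ℕ) (W : Submodule ℝ (E d))
    (hW : Module.finrank ℝ W ≤ m) (s₀ : E d) (hs₀ : s₀ ∈ S) (hK : θ + m + 1 ≤ K) :
    ∫⁻ s, (ENNReal.ofReal R / ENNReal.ofReal (Metric.infDist (s - s₀) W)) ^ θ ∂p ≤
      ENNReal.ofReal (2 ^ (θ + K + 1) * 3 ^ m * D) := by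
  have hR := hp.Rpos
  have hD : (1 : ℝ) ≤ D := hp.one_le
  set f : E d → ℝ := fun s => infDist (s - s₀) W with hf
  have hf0 : ∀ s, 0 ≤ f s := fun s => infDist_nonneg
  have hfm : Measurable f := by
    have : Continuous f := (continuous_infDist_pt (W : Set (E d))).comp (continuous_id.sub continuous_const)
    exact this.measurable
  let T : ℕ → Set (E d) := fun i => {s | s ∈ S ∧ f s ≤ R / 2 ^ i}
  have hTm : ∀ i, MeasurableSet (T i) := fun i =>
    hp.meas.inter (measurableSet_le hfm measurable_const)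
  have hpoint : ∀ s ∈ S, (ENNReal.ofReal R / ENNReal.ofReal (f s)) ^ θ ≤
      ∑' i : ℕ, (T i).indicator (fun _ => (ENNReal.ofReal (2 ^ ((i + 1) * θ)))) s := by
    intro s hs
    rcases (hf0 s).eq_or_lt with h0 | hpos
    · -- infinite sum
      have hall : ∀ i, (T i).indicator (fun _ => (ENNReal.ofReal (2 ^ ((i + 1) * θ)))) s =
          ENNReal.ofReal (2 ^ ((i + 1) * θ)) := by
        intro i
        apply Set.indicator_of_mem
        refine ⟨hs, ?_⟩
        rw [← h0]; positivity
      simp_rw [hall]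
      have : ∑' i : ℕ, ENNReal.ofReal (2 ^ ((i + 1) * θ)) = ⊤ := by
        rw [eq_top_iff]
        calc (⊤ : ℝ≥0∞) = ∑' i : ℕ, (1 : ℝ≥0∞) := by
              rw [ENNReal.tsum_const_eq_top_of_ne_zero one_ne_zero]
          _ ≤ ∑' i : ℕ, ENNReal.ofReal (2 ^ ((i + 1) * θ)) := by
              apply ENNReal.tsum_le_tsum
              intro i
              rw [← ENNReal.ofReal_one]
              exact ENNReal.ofReal_le_ofReal (one_le_pow₀ (by norm_num))
      rw [this]
      exact le_top
    · have hfR : f s ≤ R := by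
        calc f s ≤ dist (s - s₀) 0 := infDist_le_dist_of_mem (zero_mem W)
          _ = dist s s₀ := by rw [dist_zero_right, dist_eq_norm]
          _ ≤ R := hp.diam s hs s₀ hs₀
      -- choose i
      have hex : ∃ i : ℕ, R / 2 ^ i < f s := by
        obtain ⟨n, hn⟩ := exists_nat_gt (R / f s)
        refine ⟨n, ?_⟩
        rw [div_lt_iff₀ (by positivity)]
        rw [div_lt_iff₀ hpos] at hn
        have : (n : ℝ) ≤ 2 ^ n := by exact_mod_cast Nat.lt_two_pow_self.le
        nlinarith
      classical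
      have hn0 : Nat.find hex ≠ 0 := by
        intro h
        have := Nat.find_spec hex
        rw [h] at this
        simp at this
        linarith
      obtain ⟨k, hk⟩ : ∃ k, Nat.find hex = k + 1 := ⟨Nat.find hex - 1, by omega⟩
      have hk1 : R / 2 ^ (k + 1) < f s := by
        have := Nat.find_spec hex
        rwa [hk] at this
      have hk2 : f s ≤ R / 2 ^ k := by
        have := Nat.find_min hex (m := k) (by omega)
        exact not_lt.1 this
      have hmem : s ∈ T k := ⟨hs, hk2⟩
      calc (ENNReal.ofReal R / ENNReal.ofReal (f s)) ^ θ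
          ≤ (ENNReal.ofReal (2 ^ (k + 1))) ^ θ := by
            gcongr
            rw [← ENNReal.ofReal_div_of_pos hpos]
            apply ENNReal.ofReal_le_ofReal
            rw [div_le_iff₀ hpos]
            rw [div_lt_iff₀ (by positivity)] at hk1
            linarith
        _ = ENNReal.ofReal (2 ^ ((k + 1) * θ)) := by
            rw [← ENNReal.ofReal_pow (by positivity), ← pow_mul]
        _ = (T k).indicator (fun _ => (ENNReal.ofReal (2 ^ ((k + 1) * θ)))) s := by
            rw [Set.indicator_of_mem hmem]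
        _ ≤ _ := ENNReal.le_tsum k
  have hSae : ∀ᵐ s ∂p, s ∈ S := by
    rw [ae_iff]
    exact hp.null
  calc ∫⁻ s, (ENNReal.ofReal R / ENNReal.ofReal (Metric.infDist (s - s₀) W)) ^ θ ∂p
      ≤ ∫⁻ s, ∑' i : ℕ, (T i).indicator (fun _ => (ENNReal.ofReal (2 ^ ((i + 1) * θ)))) s ∂p := by
        apply lintegral_mono_ae
        filter_upwards [hSae] with s hs
        exact hpoint s hs
    _ = ∑' i : ℕ, ENNReal.ofReal (2 ^ ((i + 1) * θ)) * p (T i) := by
        rw [lintegral_tsum]
        · congr 1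
          funext i
          rw [lintegral_indicator (hTm i), lintegral_const, Measure.restrict_apply_univ]
        · intro i
          exact (measurable_const.indicator (hTm i)).aemeasurable
    _ ≤ ∑' i : ℕ, ENNReal.ofReal (2 ^ (θ + K) * 3 ^ m * D * (1 / 2) ^ i) := by
        apply ENNReal.tsum_le_tsum
        intro i
        calc ENNReal.ofReal (2 ^ ((i + 1) * θ)) * p (T i)
            ≤ ENNReal.ofReal (2 ^ ((i + 1) * θ)) *
              ENNReal.ofReal (3 ^ m * 2 ^ (i * m) * D * 2 ^ K / 2 ^ (K * i)) := by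
                gcongr
                exact tube_mass hp m W hW s₀ hs₀ i
          _ = ENNReal.ofReal (2 ^ ((i + 1) * θ) * (3 ^ m * 2 ^ (i * m) * D * 2 ^ K / 2 ^ (K * i))) := by
                rw [ENNReal.ofReal_mul (by positivity)]
          _ ≤ _ := by
                apply ENNReal.ofReal_le_ofReal
                obtain ⟨k, rfl⟩ : ∃ k, K = θ + m + 1 + k := ⟨K - (θ + m + 1), by omega⟩
                set K' := θ + m + 1 + k
                have h1 : (2 : ℝ) ^ (K' * i) = 2 ^ (θ * i) * 2 ^ (i * m) * 2 ^ i * 2 ^ (k * i) := by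
                  rw [← pow_add, ← pow_add, ← pow_add]
                  congr 1
                  simp only [K']
                  ring
                have h2 : (2 : ℝ) ^ ((i + 1) * θ) = 2 ^ (θ * i) * 2 ^ θ := by
                  rw [← pow_add]; congr 1; ring
                rw [h1, h2]
                have hk : (1 : ℝ) ≤ 2 ^ (k * i) := one_le_pow₀ (by norm_num)
                have : (2 : ℝ) ^ (θ * i) * 2 ^ θ * (3 ^ m * 2 ^ (i * m) * D * 2 ^ K' /
                    (2 ^ (θ * i) * 2 ^ (i * m) * 2 ^ i * 2 ^ (k * i))) =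
                    (2 ^ (θ + K') * 3 ^ m * D * (1 / 2) ^ i) / 2 ^ (k * i) := by
                  rw [one_div, inv_pow]
                  field_simp
                  simp only [K', pow_add]
                rw [this]
                exact div_le_self (by positivity) hk
    _ = ENNReal.ofReal (2 ^ (θ + K) * 3 ^ m * D * 2) := by
        rw [← ENNReal.ofReal_tsum_of_nonneg]
        · rw [tsum_mul_left, tsum_geometric_two]
        · intro i; positivity
        · exact summable_geometric_two.mul_left _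
    _ = _ := by
        congr 1
        rw [pow_succ]
        ring

end P309
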