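import Vale.Agent.P309.Defs
import Vale.Agent.P309.Tube

open MeasureTheory ProbabilityTheory Metric Module
open scoped RealInnerProductSpace ENNReal

namespace P309

variable {d : ℕ}

/-- The law of a Gaussian after resampling its component along the unit vector `e`. -/
theorem map_resample (e : E d) (he : ‖e‖ = 1) :
    ((stdGaussian (E d)).prod (gaussianReal 0 1)).map
      (fun q : E d × ℝ => q.1 + (q.2 - ⟪q.1, e⟫) • e) = stdGaussian (E d) := by
  have hΦ : Measurable (fun q : E d × ℝ => q.1 + (q.2 - ⟪q.1, e⟫) • e) := by fun_prop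
  have : IsProbabilityMeasure (((stdGaussian (E d)).prod (gaussianReal 0 1)).map
      (fun q : E d × ℝ => q.1 + (q.2 - ⟪q.1, e⟫) • e)) :=
    Measure.isProbabilityMeasure_map hΦ.aemeasurable
  apply Measure.ext_of_charFun
  funext t
  rw [charFun_apply, integral_map hΦ.aemeasurable (Measurable.aestronglyMeasurable (by fun_prop))]
  have hin : ∀ q : E d × ℝ, Complex.exp (((⟪q.1 + (q.2 - ⟪q.1, e⟫) • e, t⟫ : ℝ) : ℂ) * Complex.I) =
      Complex.exp (((⟪q.1, t - ⟪e, t⟫ • e⟫ : ℝ) : ℂ) * Complex.I) *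
        Complex.exp (((⟪e, t⟫ : ℝ) : ℂ) * (q.2 : ℂ) * Complex.I) := by
    intro q
    rw [← Complex.exp_add]
    congr 1
    rw [inner_add_left, inner_sub_right, real_inner_smul_left, real_inner_smul_right]
    push_cast
    ring
  simp_rw [hin]
  rw [integral_prod_mul (fun x : E d => Complex.exp (((⟪x, t - ⟪e, t⟫ • e⟫ : ℝ) : ℂ) * Complex.I))
    (fun g : ℝ => Complex.exp (((⟪e, t⟫ : ℝ) : ℂ) * (g : ℂ) * Complex.I))]
  rw [← charFun_apply, ← charFun_apply_real, charFun_stdGaussian, charFun_stdGaussian,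
    charFun_gaussianReal, ← Complex.exp_add]
  congr 1
  have hn : ‖t - ⟪e, t⟫ • e‖ ^ 2 = ‖t‖ ^ 2 - ⟪e, t⟫ ^ 2 := by
    rw [norm_sub_sq_real, real_inner_smul_right, norm_smul, he, real_inner_comm]
    simp only [Real.norm_eq_abs, mul_one, sq_abs]
    ring
  have hn' : ((‖t - ⟪e, t⟫ • e‖ : ℝ) : ℂ) ^ 2 = ((‖t‖ : ℝ) : ℂ) ^ 2 - ((⟪e, t⟫ : ℝ) : ℂ) ^ 2 := by
    exact_mod_cast congrArg (fun x : ℝ => (x : ℂ)) hn
  rw [hn']
  push_cast
  ring

/-- A Gaussian charges an interval of length `2 δ / D` by at most `δ / D`. -/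
theorem gaussian_interval {a D δ : ℝ} (hD : 0 < D) :
    gaussianReal 0 1 {g : ℝ | |a + g * D| ≤ δ} ≤ ENNReal.ofReal (δ / D) := by
  rw [gaussianReal_apply 0 one_ne_zero]
  have hset : {g : ℝ | |a + g * D| ≤ δ} = Set.Icc ((-δ - a) / D) ((δ - a) / D) := by
    ext g
    simp only [Set.mem_ofPred_eq, Set.mem_Icc, abs_le]
    rw [div_le_iff₀ hD, le_div_iff₀ hD]
    constructor
    · rintro ⟨h1, h2⟩
      constructor <;> linarith
    · rintro ⟨h1, h2⟩
      constructor <;> linarith
  have hpdf : ∀ x, gaussianPDF 0 1 x ≤ ENNReal.ofReal (1 / 2) := by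
    intro x
    rw [gaussianPDF]
    apply ENNReal.ofReal_le_ofReal
    rw [gaussianPDFReal]
    have h1 : Real.exp (-(x - 0) ^ 2 / (2 * ((1 : NNReal) : ℝ))) ≤ 1 := by
      rw [Real.exp_le_one_iff]
      simp only [sub_zero, NNReal.coe_one, mul_one]
      have := sq_nonneg x
      linarith
    have h2 : (√(2 * Real.pi * ((1 : NNReal) : ℝ)))⁻¹ ≤ 1 / 2 := by
      rw [one_div]
      apply inv_anti₀ (by norm_num)
      apply Real.le_sqrt_of_sq_le
      simp only [NNReal.coe_one, mul_one]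
      have := Real.pi_gt_three
      linarith
    calc (√(2 * Real.pi * ((1 : NNReal) : ℝ)))⁻¹ * Real.exp (-(x - 0) ^ 2 / (2 * ((1 : NNReal) : ℝ)))
        ≤ 1 / 2 * 1 := by gcongr
      _ = 1 / 2 := mul_one _
  calc ∫⁻ x in {g : ℝ | |a + g * D| ≤ δ}, gaussianPDF 0 1 x
      ≤ ∫⁻ x in {g : ℝ | |a + g * D| ≤ δ}, ENNReal.ofReal (1 / 2) := lintegral_mono fun x => hpdf x
    _ = ENNReal.ofReal (1 / 2) * ENNReal.ofReal ((δ - a) / D - (-δ - a) / D) := by
        rw [lintegral_const, Measure.restrict_apply_univ, hset, Real.volume_Icc]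
    _ = ENNReal.ofReal (δ / D) := by
        rw [← ENNReal.ofReal_mul (by norm_num)]
        congr 1
        field_simp
        ring

theorem smallBall_step (W : Submodule ℝ (E d)) (u : E d) {δ : ℝ} (hδ : 0 < δ)
    (A : Set (E d)) (hA : MeasurableSet A)
    (hAW : ∀ y e : E d, (∀ w ∈ W, ⟪e, w⟫ = 0) → y ∈ A → y + e ∈ A) :
    stdGaussian (E d) ({y | |⟪y, u⟫| ≤ δ} ∩ A) ≤
      ENNReal.ofReal δ / ENNReal.ofReal (Metric.infDist u W) * stdGaussian (E d) A := by
  rcases (infDist_nonneg (x := u) (s := (W : Set (E d)))).eq_or_lt with h0 | hD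
  · rw [← h0, ENNReal.ofReal_zero, ENNReal.div_zero (by simpa using hδ)]
    rcases eq_or_ne (stdGaussian (E d) A) 0 with hz | hz
    · rw [hz, mul_zero]
      exact (measure_mono Set.inter_subset_right).trans hz.le
    · rw [ENNReal.top_mul hz]
      exact le_top
  · set D := infDist u (W : Set (E d)) with hDdef
    have hDn : D = ‖u - W.starProjection u‖ := infDist_eq_norm W u
    set z := u - W.starProjection u with hz
    have hzW : ∀ w ∈ W, ⟪z, w⟫ = 0 := by
      intro w hw
      exact Submodule.starProjection_inner_eq_zero u w hw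
    set e : E d := D⁻¹ • z with he
    have henorm : ‖e‖ = 1 := by
      rw [he, norm_smul, ← hDn, norm_inv, Real.norm_of_nonneg hD.le]
      exact inv_mul_cancel₀ hD.ne'
    have heW : ∀ w ∈ W, ⟪e, w⟫ = 0 := by
      intro w hw
      rw [he, real_inner_smul_left, hzW w hw, mul_zero]
    have heu : ⟪e, u⟫ = D := by
      have h1 : u = z + W.starProjection u := by rw [hz]; abel
      have h2 : ⟪e, W.starProjection u⟫ = 0 := heW _ (Submodule.starProjection_apply_mem W u)
      calc ⟪e, u⟫ = ⟪e, z + W.starProjection u⟫ := by rw [← h1]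
        _ = ⟪e, z⟫ := by rw [inner_add_right, h2, add_zero]
        _ = D⁻¹ * (D * D) := by rw [he, real_inner_smul_left, real_inner_self_eq_norm_mul_norm, ← hDn]
        _ = D := by field_simp
    have hΦ : Measurable (fun q : E d × ℝ => q.1 + (q.2 - ⟪q.1, e⟫) • e) := by fun_prop
    have hB : MeasurableSet {y : E d | |⟪y, u⟫| ≤ δ} :=
      measurableSet_le (by fun_prop) measurable_const
    have hAiff : ∀ (y : E d) (c : ℝ), y + c • e ∈ A ↔ y ∈ A := by
      intro y c
      have horth : ∀ c : ℝ, ∀ w ∈ W, ⟪c • e, w⟫ = 0 := by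
        intro c w hw
        rw [real_inner_smul_left, heW w hw, mul_zero]
      constructor
      · intro h
        have := hAW _ ((-c) • e) (horth (-c)) h
        rwa [add_assoc, ← add_smul, add_neg_cancel, zero_smul, add_zero] at this
      · intro h
        exact hAW _ _ (horth c) h
    rw [← ENNReal.ofReal_div_of_pos hD]
    calc stdGaussian (E d) ({y | |⟪y, u⟫| ≤ δ} ∩ A)
        = ((stdGaussian (E d)).prod (gaussianReal 0 1))
            ((fun q : E d × ℝ => q.1 + (q.2 - ⟪q.1, e⟫) • e) ⁻¹' ({y | |⟪y, u⟫| ≤ δ} ∩ A)) := by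
          rw [← Measure.map_apply hΦ (hB.inter hA), map_resample e henorm]
      _ = ∫⁻ y, gaussianReal 0 1 (Prod.mk y ⁻¹'
            ((fun q : E d × ℝ => q.1 + (q.2 - ⟪q.1, e⟫) • e) ⁻¹' ({y | |⟪y, u⟫| ≤ δ} ∩ A)))
            ∂(stdGaussian (E d)) := by
          rw [Measure.prod_apply (hΦ (hB.inter hA))]
      _ ≤ ∫⁻ y, A.indicator (fun _ => ENNReal.ofReal (δ / D)) y ∂(stdGaussian (E d)) := by
          apply lintegral_mono
          intro y
          by_cases hy : y ∈ A
          · rw [Set.indicator_of_mem hy]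
            refine le_trans (measure_mono ?_) (gaussian_interval (a := ⟪y, u⟫ - ⟪y, e⟫ * D) hD)
            intro g hg
            have h1 : |⟪y + (g - ⟪y, e⟫) • e, u⟫| ≤ δ := hg.1
            rw [inner_add_left, real_inner_smul_left, heu] at h1
            show |⟪y, u⟫ - ⟪y, e⟫ * D + g * D| ≤ δ
            have h2 : ⟪y, u⟫ - ⟪y, e⟫ * D + g * D = ⟪y, u⟫ + (g - ⟪y, e⟫) * D := by ring
            rw [h2]
            exact h1
          · rw [Set.indicator_of_notMem hy]
            have hempty : (Prod.mk y ⁻¹' ((fun q : E d × ℝ => q.1 + (q.2 - ⟪q.1, e⟫) • e) ⁻¹'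
                ({y | |⟪y, u⟫| ≤ δ} ∩ A))) = ∅ := by
              ext g
              simp only [Set.mem_preimage, Set.mem_inter_iff, Set.mem_empty_iff_false, iff_false]
              rintro ⟨-, h2⟩
              exact hy ((hAiff y _).1 h2)
            beta_reduce
            rw [hempty, measure_empty]
      _ = ENNReal.ofReal (δ / D) * stdGaussian (E d) A := by
          rw [lintegral_indicator hA, lintegral_const, Measure.restrict_apply_univ]

end P309
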