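import Vale.Agent.P309.Defs
import Vale.Agent.P309.Tube
import Vale.Agent.P309.SmallBall

open MeasureTheory ProbabilityTheory Metric Module
open scoped RealInnerProductSpace ENNReal

namespace P309

variable {d : ℕ}

/-- The Gaussian mass of the set where all replicas get close labels. -/
noncomputable def slab (δ : ℝ) {m : ℕ} (s : Fin (m + 1) → E d) : ℝ≥0∞ :=
  stdGaussian (E d) {y | ∀ j, |⟪y, s j - s 0⟫| ≤ δ}

theorem measurable_slab (δ : ℝ) (m : ℕ) : Measurable (slab (d := d) δ (m := m)) := by
  have hset : MeasurableSet {q : (Fin (m + 1) → E d) × E d | ∀ j, |⟪q.2, q.1 j - q.1 0⟫| ≤ δ} := by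
    have : {q : (Fin (m + 1) → E d) × E d | ∀ j, |⟪q.2, q.1 j - q.1 0⟫| ≤ δ} =
        ⋂ j, {q : (Fin (m + 1) → E d) × E d | |⟪q.2, q.1 j - q.1 0⟫| ≤ δ} := by
      ext q; simp
    rw [this]
    refine MeasurableSet.iInter fun j => measurableSet_le ?_ measurable_const
    have h1 : Measurable (fun q : (Fin (m + 1) → E d) × E d => q.1 j) :=
      (measurable_pi_apply j).comp measurable_fst
    have h0 : Measurable (fun q : (Fin (m + 1) → E d) × E d => q.1 0) :=
      (measurable_pi_apply 0).comp measurable_fst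
    exact ((measurable_snd.inner (h1.sub h0))).abs
  exact measurable_measure_prodMk_left hset

theorem slab_snoc_le {δ : ℝ} (hδ : 0 < δ) {m : ℕ} (s' : Fin (m + 1) → E d) (x : E d) :
    slab δ (Fin.snoc s' x : Fin (m + 2) → E d) ≤
      ENNReal.ofReal δ / ENNReal.ofReal (infDist (x - s' 0)
        (Submodule.span ℝ (Set.range (fun j : Fin m => s' j.succ - s' 0)) : Submodule ℝ (E d))) *
        slab δ s' := by
  set W : Submodule ℝ (E d) := Submodule.span ℝ (Set.range (fun j : Fin m => s' j.succ - s' 0))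
    with hW
  have hA : MeasurableSet {y : E d | ∀ j, |⟪y, s' j - s' 0⟫| ≤ δ} := by
    have : {y : E d | ∀ j, |⟪y, s' j - s' 0⟫| ≤ δ} =
        ⋂ j, {y : E d | |⟪y, s' j - s' 0⟫| ≤ δ} := by
      ext q; simp
    rw [this]
    refine MeasurableSet.iInter fun j => measurableSet_le ?_ measurable_const
    exact ((measurable_id.inner measurable_const)).abs
  have hmain := smallBall_step W (x - s' 0) hδ {y : E d | ∀ j, |⟪y, s' j - s' 0⟫| ≤ δ} hA (by
    intro y e he hy j
    have horth : ⟪e, s' j - s' 0⟫ = 0 := by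
      apply he
      refine Fin.cases ?_ (fun k => ?_) j
      · simp
      · exact Submodule.subset_span ⟨k, rfl⟩
    show |⟪y + e, s' j - s' 0⟫| ≤ δ
    rw [inner_add_left, horth, add_zero]
    exact hy j)
  refine le_trans (measure_mono ?_) hmain
  intro y hy
  have h0 : (Fin.snoc s' x : Fin (m + 2) → E d) 0 = s' 0 := by
    have := Fin.snoc_castSucc (α := fun _ => E d) (n := m + 1) x s' 0
    simp only [Fin.castSucc_zero] at this
    exact this
  refine ⟨?_, fun j => ?_⟩
  · have h1 : |⟪y, (Fin.snoc s' x : Fin (m + 2) → E d) (Fin.last (m + 1)) -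
        (Fin.snoc s' x : Fin (m + 2) → E d) 0⟫| ≤ δ := hy (Fin.last (m + 1))
    rw [h0, Fin.snoc_last] at h1
    exact h1
  · have h1 : |⟪y, (Fin.snoc s' x : Fin (m + 2) → E d) (Fin.castSucc j) -
        (Fin.snoc s' x : Fin (m + 2) → E d) 0⟫| ≤ δ := hy (Fin.castSucc j)
    rw [h0, Fin.snoc_castSucc] at h1
    exact h1

theorem replica_norm {p : Measure (E d)} [IsProbabilityMeasure p] {S : Set (E d)}
    {R D δ : ℝ} {K : ℕ} (hp : Frostman p S R D K) (hδ : 0 < δ) (θ m : ℕ) (hK : θ + m + 1 ≤ K) :
    ∫⁻ s, (stdGaussian (E d) {y | ∀ j, |⟪y, s j - s 0⟫| ≤ δ} * (ENNReal.ofReal (R / δ)) ^ m) ^ θ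
      ∂(Measure.pi (fun _ : Fin (m + 1) => p)) ≤
      (ENNReal.ofReal (2 ^ (θ + K + 1) * 3 ^ m * D)) ^ m := by
  have hR := hp.Rpos
  have hD := hp.one_le
  have key : ∀ m : ℕ, θ + m + 1 ≤ K →
      ∫⁻ s, (slab δ s * (ENNReal.ofReal (R / δ)) ^ m) ^ θ
      ∂(Measure.pi (fun _ : Fin (m + 1) => p)) ≤
      (ENNReal.ofReal (2 ^ (θ + K + 1) * 3 ^ m * D)) ^ m := by
    intro m
    induction m with
    | zero =>
      intro _
      have hle : ∀ s : Fin (0 + 1) → E d, (slab δ s * (ENNReal.ofReal (R / δ)) ^ 0) ^ θ ≤ 1 := by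
        intro s
        have : slab δ s ≤ 1 := prob_le_one
        rw [pow_zero, mul_one]
        exact pow_le_one' this θ
      calc _ ≤ ∫⁻ s, 1 ∂(Measure.pi (fun _ : Fin (0 + 1) => p)) := lintegral_mono hle
        _ = 1 := by simp
        _ ≤ _ := by simp
    | succ m ih =>
      intro hK'
      have ih' := ih (by omega)
      have hmeas : Measurable (fun s : Fin (m + 2) → E d =>
          (slab δ s * (ENNReal.ofReal (R / δ)) ^ (m + 1)) ^ θ) :=
        ((measurable_slab δ (m + 1)).mul_const _).pow_const _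
      have hmp := (measurePreserving_piFinSuccAbove (fun _ : Fin (m + 2) => p) (Fin.last (m + 1))).symm
      have hsplit := hmp.lintegral_comp hmeas
      have hsplit2 := lintegral_prod_symm' _ (hmeas.comp hmp.measurable)
        (μ := p) (ν := Measure.pi (fun _ : Fin (m + 1) => p))
      simp only [Function.comp_def] at hsplit2
      rw [← hsplit]
      refine hsplit2.le.trans ?_
      have hSae : ∀ᵐ s' ∂(Measure.pi (fun _ : Fin (m + 1) => p)), s' 0 ∈ S := by
        have h1 : ∀ᵐ x ∂p, x ∈ S := by
          rw [ae_iff]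
          exact hp.null
        exact (Measure.quasiMeasurePreserving_eval (fun _ : Fin (m + 1) => p) 0).ae h1
      have hstep : ∀ᵐ s' ∂(Measure.pi (fun _ : Fin (m + 1) => p)),
          ∫⁻ x, (slab δ (((MeasurableEquiv.piFinSuccAbove (fun _ : Fin (m + 2) => E d)
            (Fin.last (m + 1))).symm (x, s') : Fin (m + 2) → E d)) *
              (ENNReal.ofReal (R / δ)) ^ (m + 1)) ^ θ ∂p ≤
          ENNReal.ofReal (2 ^ (θ + K + 1) * 3 ^ (m + 1) * D) *
            (slab δ s' * (ENNReal.ofReal (R / δ)) ^ m) ^ θ := by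
        filter_upwards [hSae] with s' hs'
        set W : Submodule ℝ (E d) :=
          Submodule.span ℝ (Set.range (fun j : Fin m => s' j.succ - s' 0)) with hW
        have hrank : finrank ℝ W ≤ m := by
          have := finrank_range_le_card (R := ℝ) (fun j : Fin m => s' j.succ - s' 0)
          rw [Fintype.card_fin] at this
          exact this
        have hpt : ∀ x, (slab δ (((MeasurableEquiv.piFinSuccAbove (fun _ : Fin (m + 2) => E d)
            (Fin.last (m + 1))).symm (x, s') : Fin (m + 2) → E d)) *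
              (ENNReal.ofReal (R / δ)) ^ (m + 1)) ^ θ ≤
            (slab δ s' * (ENNReal.ofReal (R / δ)) ^ m) ^ θ *
              (ENNReal.ofReal R / ENNReal.ofReal (infDist (x - s' 0) W)) ^ θ := by
          intro x
          rw [← mul_pow]
          refine pow_le_pow_left' ?_ θ
          have he : ((MeasurableEquiv.piFinSuccAbove (fun _ : Fin (m + 2) => E d)
            (Fin.last (m + 1))).symm (x, s') : Fin (m + 2) → E d) = Fin.snoc s' x := by
            simp [MeasurableEquiv.piFinSuccAbove_symm_apply, Fin.insertNthEquiv, Fin.insertNth_last']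
          rw [he]
          have h1 := slab_snoc_le hδ s' x
          have hRδ : ENNReal.ofReal (R / δ) * (ENNReal.ofReal δ / ENNReal.ofReal (infDist (x - s' 0) W))
              = ENNReal.ofReal R / ENNReal.ofReal (infDist (x - s' 0) W) := by
            rw [← mul_div_assoc, ← ENNReal.ofReal_mul (by positivity), div_mul_cancel₀ _ hδ.ne']
          calc slab δ (Fin.snoc s' x : Fin (m + 2) → E d) * (ENNReal.ofReal (R / δ)) ^ (m + 1)
              ≤ (ENNReal.ofReal δ / ENNReal.ofReal (infDist (x - s' 0) W) * slab δ s') *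
                (ENNReal.ofReal (R / δ)) ^ (m + 1) := by gcongr
            _ = slab δ s' * (ENNReal.ofReal (R / δ)) ^ m *
                (ENNReal.ofReal (R / δ) *
                  (ENNReal.ofReal δ / ENNReal.ofReal (infDist (x - s' 0) W))) := by
                rw [pow_succ]; ring
            _ = _ := by rw [hRδ]
        calc _ ≤ ∫⁻ x, (slab δ s' * (ENNReal.ofReal (R / δ)) ^ m) ^ θ *
              (ENNReal.ofReal R / ENNReal.ofReal (infDist (x - s' 0) W)) ^ θ ∂p := lintegral_mono hpt
          _ = (slab δ s' * (ENNReal.ofReal (R / δ)) ^ m) ^ θ *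
              ∫⁻ x, (ENNReal.ofReal R / ENNReal.ofReal (infDist (x - s' 0) W)) ^ θ ∂p := by
              rw [lintegral_const_mul]
              have : Continuous (fun x : E d => infDist (x - s' 0) (W : Set (E d))) :=
                (continuous_infDist_pt (W : Set (E d))).comp (continuous_id.sub continuous_const)
              exact (measurable_const.div this.measurable.ennreal_ofReal).pow_const _
          _ ≤ (slab δ s' * (ENNReal.ofReal (R / δ)) ^ m) ^ θ *
              ENNReal.ofReal (2 ^ (θ + K + 1) * 3 ^ m * D) := by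
              gcongr
              exact tube_moment hp θ m W hrank (s' 0) hs' (by omega)
          _ ≤ (slab δ s' * (ENNReal.ofReal (R / δ)) ^ m) ^ θ *
              ENNReal.ofReal (2 ^ (θ + K + 1) * 3 ^ (m + 1) * D) := by
              gcongr
              · norm_num
              · omega
          _ = _ := mul_comm _ _
      calc _ ≤ ∫⁻ s', ENNReal.ofReal (2 ^ (θ + K + 1) * 3 ^ (m + 1) * D) *
            (slab δ s' * (ENNReal.ofReal (R / δ)) ^ m) ^ θ ∂(Measure.pi (fun _ : Fin (m + 1) => p)) :=
            lintegral_mono_ae hstep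
        _ = ENNReal.ofReal (2 ^ (θ + K + 1) * 3 ^ (m + 1) * D) *
            ∫⁻ s', (slab δ s' * (ENNReal.ofReal (R / δ)) ^ m) ^ θ
              ∂(Measure.pi (fun _ : Fin (m + 1) => p)) := by
            rw [lintegral_const_mul]
            exact ((measurable_slab δ m).mul_const _).pow_const _
        _ ≤ ENNReal.ofReal (2 ^ (θ + K + 1) * 3 ^ (m + 1) * D) *
            (ENNReal.ofReal (2 ^ (θ + K + 1) * 3 ^ m * D)) ^ m := by gcongr
        _ ≤ ENNReal.ofReal (2 ^ (θ + K + 1) * 3 ^ (m + 1) * D) *
            (ENNReal.ofReal (2 ^ (θ + K + 1) * 3 ^ (m + 1) * D)) ^ m := by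
            gcongr
            · norm_num
            · omega
        _ = _ := by rw [pow_succ]; ring
  exact key m hK

end P309
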