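import Vale.Agent.P309.CellInfo
import Vale.Agent.P309.ReplicaNorm
open MeasureTheory ProbabilityTheory
open scoped RealInnerProductSpace ENNReal
namespace P309

theorem cell_info {d : ℕ} {p : Measure (E d)} [IsProbabilityMeasure p] {S : Set (E d)}
    {R D δ : ℝ} {m : ℕ} (hm : 1 ≤ m) (hp : Frostman p S R D (4 * m)) (hδ : 0 < δ) (hδR : δ ≤ R)
    {A : Type} [Fintype A] [Nonempty A] (h : A → (Fin m → E d) → E d → ℝ)
    (hmeas : ∀ a, Measurable (fun q : (Fin m → E d) × E d => h a q.1 q.2))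
    (η : ℝ) (hη : 0 < η) (hpos : ∀ a X v, η ≤ h a X v)
    (hsum : ∀ X v, ∑ a, h a X v = 1)
    (hcell : ∀ a X v v', (∀ i, ⌊⟪X i, v⟫ / δ⌋ = ⌊⟪X i, v'⟫ / δ⌋) → h a X v = h a X v') :
    info p (fun a v => ∫ X, h a X v ∂(rows d m)) ≤
      Real.log (Fintype.card A) / (2 * m) + 16 * m + Real.log D := by
  obtain ⟨n, hn⟩ : ∃ n, n + 1 = 2 * m := ⟨2 * m - 1, by omega⟩
  exact cell_info_of_norm hm hn hp hδ hδR
    (replica_norm hp hδ (2 * m) n (by omega)) h hmeas η hη hpos hsum hcell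

end P309
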