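import Vale.Agent.P309.Defs
open MeasureTheory ProbabilityTheory
open scoped RealInnerProductSpace ENNReal
namespace P309

theorem int_nonpos_of_exp {Ω : Type*} [MeasurableSpace Ω] {P : Measure Ω} [IsProbabilityMeasure P]
    {ψ χ : Ω → ℝ} (hψ : Integrable ψ P) (hχ : AEMeasurable χ P)
    (hle : ∀ᵐ ω ∂P, ψ ω ≤ χ ω - 1) (hχ0 : 0 ≤ᵐ[P] χ)
    (h : ∫⁻ ω, ENNReal.ofReal (χ ω) ∂P ≤ 1) : ∫ ω, ψ ω ∂P ≤ 0 := by
  have hχi : Integrable χ P := by
    refine ⟨hχ.aestronglyMeasurable, ?_⟩
    rw [hasFiniteIntegral_iff_ofReal hχ0]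
    exact lt_of_le_of_lt h ENNReal.one_lt_top
  have h1 : ∫ ω, ψ ω ∂P ≤ ∫ ω, (χ ω - 1) ∂P :=
    integral_mono_ae hψ (hχi.sub (integrable_const 1)) hle
  have h2 : ∫ ω, (χ ω - 1) ∂P = ∫ ω, χ ω ∂P - 1 := by
    rw [integral_sub hχi (integrable_const 1)]; simp
  have h3 : ∫ ω, χ ω ∂P ≤ 1 := by
    rw [integral_eq_lintegral_of_nonneg_ae hχ0 hχ.aestronglyMeasurable]
    exact ENNReal.toReal_le_of_le_ofReal (by norm_num) (by simpa using h)
  linarith

section cells
variable {d m : ℕ}

/-- cell index of the labels at resolution `δ` -/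
noncomputable def lab (δ : ℝ) (X : Fin m → E d) (v : E d) : Fin m → ℤ :=
  fun i => ⌊⟪X i, v⟫ / δ⌋

theorem measurable_lab {α : Type*} [MeasurableSpace α] (δ : ℝ) {f : α → Fin m → E d} {g : α → E d}
    (hf : Measurable f) (hg : Measurable g) :
    Measurable (fun a => lab δ (f a) (g a)) := by
  refine measurable_pi_lambda _ (fun i => ?_)
  exact Int.measurable_floor.comp ((Measurable.inner ((measurable_pi_apply i).comp hf) hg).div_const δ)

/-- mass of the label cell -/
noncomputable def mass (p : Measure (E d)) (δ : ℝ) (X : Fin m → E d) (v : E d) : ℝ≥0∞ :=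
  p {v' | lab δ X v' = lab δ X v}

theorem measurable_mass (p : Measure (E d)) [IsProbabilityMeasure p] (δ : ℝ) :
    Measurable (fun q : (Fin m → E d) × E d => mass p δ q.1 q.2) := by
  unfold mass
  have hs : MeasurableSet {r : ((Fin m → E d) × E d) × E d | lab δ r.1.1 r.2 = lab δ r.1.1 r.1.2} := by
    have h1 : Measurable (fun r : ((Fin m → E d) × E d) × E d => lab δ r.1.1 r.2) :=
      measurable_lab δ (measurable_fst.comp measurable_fst) measurable_snd
    have h2 : Measurable (fun r : ((Fin m → E d) × E d) × E d => lab δ r.1.1 r.1.2) :=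
      measurable_lab δ (measurable_fst.comp measurable_fst) (measurable_snd.comp measurable_fst)
    exact measurableSet_eq_fun h1 h2
  exact measurable_measure_prodMk_left hs

theorem mass_le_one (p : Measure (E d)) [IsProbabilityMeasure p] (δ : ℝ) (X : Fin m → E d) (v : E d) :
    mass p δ X v ≤ 1 := prob_le_one

theorem mass_congr (p : Measure (E d)) {δ : ℝ} {X : Fin m → E d} {v w : E d}
    (h : lab δ X v = lab δ X w) : mass p δ X v = mass p δ X w := by
  unfold mass; rw [h]

theorem measurable_lab' (δ : ℝ) (X : Fin m → E d) : Measurable (lab δ X) :=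
  measurable_lab δ measurable_const measurable_id

theorem mass_eq_map (p : Measure (E d)) (δ : ℝ) (X : Fin m → E d) (v : E d) :
    mass p δ X v = (p.map (lab δ X)) {lab δ X v} := by
  rw [Measure.map_apply (measurable_lab' δ X) (measurableSet_singleton _)]
  rfl

/-- countable reference inequality -/
theorem lintegral_ref (p : Measure (E d)) [IsProbabilityMeasure p] (δ : ℝ) (X : Fin m → E d)
    (q : (Fin m → ℤ) → ℝ≥0∞) :
    ∫⁻ v, q (lab δ X v) / mass p δ X v ∂p ≤ ∑' n, q n := by
  have h1 : ∫⁻ v, q (lab δ X v) / mass p δ X v ∂p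
      = ∫⁻ n, q n / (p.map (lab δ X)) {n} ∂(p.map (lab δ X)) := by
    rw [lintegral_map (measurable_of_countable _) (measurable_lab' δ X)]
    simp_rw [mass_eq_map]
  rw [h1, lintegral_countable']
  refine ENNReal.tsum_le_tsum (fun n => ?_)
  rw [ENNReal.div_eq_inv_mul, mul_comm _ (q n), mul_assoc]
  have := ENNReal.inv_mul_le_one (a := (p.map (lab δ X)) {n})
  calc q n * (((p.map (lab δ X)) {n})⁻¹ * (p.map (lab δ X)) {n}) ≤ q n * 1 := by gcongr
    _ = q n := mul_one _

theorem mass_pos_ae (p : Measure (E d)) [IsProbabilityMeasure p] (δ : ℝ) (X : Fin m → E d) :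
    ∀ᵐ v ∂p, mass p δ X v ≠ 0 := by
  have h1 : ∀ᵐ n ∂(p.map (lab δ X)), (p.map (lab δ X)) {n} ≠ 0 := by
    rw [ae_iff_of_countable]
    intro n hn; exact hn
  have h2 := ae_of_ae_map (measurable_lab' δ X).aemeasurable h1
  filter_upwards [h2] with v hv
  rwa [mass_eq_map]

end cells
end P309
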