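import Vale.Agent.P309.PotCrude
import Vale.Agent.P309.BallCell
open MeasureTheory ProbabilityTheory Filter
open scoped RealInnerProductSpace ENNReal Topology
namespace P309

theorem lintegral_cells_le {α β : Type*} [MeasurableSpace α] [MeasurableSpace β] [Countable β]
    [MeasurableSingletonClass β] {c : α → β} (hc : Measurable c) (ν κ : Measure α)
    (b : ℝ≥0∞) (hb : ∀ v, κ {v' | c v' = c v} ≤ b) :
    ∫⁻ v, ν {v' | c v' = c v} ∂κ ≤ b * ν Set.univ := by
  have hν : ∀ v, ν {v' | c v' = c v} = (ν.map c) {c v} := fun v => by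
    rw [Measure.map_apply hc (measurableSet_singleton _)]; rfl
  have hκ : ∀ n, (κ.map c) {n} ≤ b := fun n => by
    rw [Measure.map_apply hc (measurableSet_singleton _)]
    by_cases h : ∃ v, c v = n
    · obtain ⟨v, hv⟩ := h
      rw [← hv]; exact hb v
    · have : c ⁻¹' {n} = ∅ := by
        ext v
        simp only [Set.mem_preimage, Set.mem_singleton_iff, Set.mem_empty_iff_false, iff_false]
        exact fun hv => h ⟨v, hv⟩
      rw [this]; simp
  have h1 : ∫⁻ v, ν {v' | c v' = c v} ∂κ = ∫⁻ n, (ν.map c) {n} ∂(κ.map c) := by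
    rw [lintegral_map (measurable_of_countable _) hc]
    simp_rw [hν]
  rw [h1, lintegral_countable']
  calc ∑' n, (ν.map c) {n} * (κ.map c) {n} ≤ ∑' n, b * (ν.map c) {n} := by
        refine ENNReal.tsum_le_tsum (fun n => ?_)
        rw [mul_comm]; gcongr; exact hκ n
    _ = b * ∑' n, (ν.map c) {n} := ENNReal.tsum_mul_left
    _ = b * ∫⁻ _, 1 ∂(ν.map c) := by rw [lintegral_countable']; simp
    _ = b * ν Set.univ := by rw [lintegral_one, Measure.map_apply hc MeasurableSet.univ, Set.preimage_univ]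

section
variable {d : ℕ} {μ : Measure (E d)} [IsProbabilityMeasure μ] {u : E d → ℝ}

theorem integrable_cmass (hu : Measurable u) (hu0 : ∀ v, 0 ≤ u v) (hu1 : ∀ v, u v ≤ 1) (j : ℕ) :
    Integrable (cmass μ j u) μ := by
  refine Integrable.mono' (integrable_const (∫ v, u v ∂μ)) (measurable_cmass μ j u).aestronglyMeasurable ?_
  refine Eventually.of_forall (fun v => ?_)
  rw [Real.norm_eq_abs, abs_of_nonneg (cmass_nonneg hu0 j v)]
  exact cmass_le hu hu0 hu1 j v

theorem int_cmass_le (hu : Measurable u) (hu0 : ∀ v, 0 ≤ u v) (hu1 : ∀ v, u v ≤ 1) (j : ℕ)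
    {b : ℝ} (hb0 : 0 ≤ b) (hb : ∀ v, μ (cell d j v) ≤ ENNReal.ofReal b) :
    ∫ v, cmass μ j u v ∂μ ≤ b * ∫ v, u v ∂μ := by
  rw [integral_eq_lintegral_of_nonneg_ae (Eventually.of_forall (fun v => cmass_nonneg hu0 j v))
    (measurable_cmass μ j u).aestronglyMeasurable]
  refine ENNReal.toReal_le_of_le_ofReal (mul_nonneg hb0 (integral_nonneg hu0)) ?_
  have h1 : ∀ v, ENNReal.ofReal (cmass μ j u v) = wm μ u {v' | cube d j v' = cube d j v} := fun v =>
    (wm_apply hu hu0 hu1 (measurableSet_cell d j v)).symm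
  simp_rw [h1]
  refine le_trans (lintegral_cells_le (measurable_cube d j) (wm μ u) μ (ENNReal.ofReal b) hb) ?_
  rw [wm_univ hu hu0 hu1, ENNReal.ofReal_mul hb0]

theorem setInt_cmass_le (hu : Measurable u) (hu0 : ∀ v, 0 ≤ u v) (hu1 : ∀ v, u v ≤ 1) (j : ℕ)
    (B : Set (E d)) :
    ∫ v in B, cmass μ j u v ∂μ ≤ (μ.real B) * ∫ v, u v ∂μ := by
  calc ∫ v in B, cmass μ j u v ∂μ ≤ ∫ _v in B, (∫ v, u v ∂μ) ∂μ :=
        integral_mono (integrable_cmass hu hu0 hu1 j).restrict (integrable_const _) (fun v => cmass_le hu hu0 hu1 j v)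
    _ = (μ.real B) * ∫ v, u v ∂μ := by
        rw [integral_const]; simp [Measure.real]

end

theorem geom_le (x : ℝ) (hx : 2 ≤ x) (J : ℕ) : ∑ j ∈ Finset.range (J + 1), x ^ j ≤ 2 * x ^ J := by
  induction J with
  | zero => simp
  | succ J ih =>
    rw [Finset.sum_range_succ, pow_succ]
    have : 0 < x ^ J := by positivity
    nlinarith

theorem geom_tail_le (y : ℝ) (hy0 : 0 ≤ y) (hy : y ≤ 1 / 2) (J L : ℕ) :
    ∑ j ∈ Finset.Ico (J + 1) (L + 1), y ^ j ≤ y ^ J := by
  rw [Finset.sum_Ico_eq_sum_range]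
  have h1 : ∀ i, y ^ (J + 1 + i) ≤ y ^ J * (1 / 2) * (1 / 2) ^ i := by
    intro i
    rw [pow_add, pow_add, pow_one]
    gcongr
  calc ∑ i ∈ Finset.range (L + 1 - (J + 1)), y ^ (J + 1 + i)
      ≤ ∑ i ∈ Finset.range (L + 1 - (J + 1)), y ^ J * (1 / 2) * (1 / 2) ^ i := Finset.sum_le_sum (fun i _ => h1 i)
    _ = y ^ J * (1 / 2) * ∑ i ∈ Finset.range (L + 1 - (J + 1)), (1 / 2) ^ i := by rw [Finset.mul_sum]
    _ ≤ y ^ J * (1 / 2) * 2 := by
        gcongr; exact sum_geometric_two_le _
    _ = y ^ J := by ring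

theorem range_split (f : ℕ → ℝ) (hf : ∀ j, 0 ≤ f j) (J L : ℕ) :
    ∑ j ∈ Finset.range (L + 1), f j ≤ ∑ j ∈ Finset.range (J + 1), f j + ∑ j ∈ Finset.Ico (J + 1) (L + 1), f j := by
  rw [← Finset.sum_union]
  · refine Finset.sum_le_sum_of_subset_of_nonneg ?_ (fun i _ _ => hf i)
    intro i hi
    simp only [Finset.mem_range, Finset.mem_union, Finset.mem_Ico] at *
    omega
  · rw [Finset.disjoint_left]
    intro i hi hi2
    simp only [Finset.mem_range, Finset.mem_Ico] at *
    omega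

/-- final lower bound for the potential -/
theorem pot_lower {d m L J : ℕ} (hm : 1 ≤ m) (hd : 8 * m ≤ d) {μ : Measure (E d)} [IsProbabilityMeasure μ]
    (hμc : ∀ j v, μ (cell d j v) ≤ ENNReal.ofReal (16 ^ d / 2 ^ (j * (d - 1))))
    (u : E d → ℝ) (hu : Measurable u)
    (hu0 : ∀ v, 0 ≤ u v) (hu1 : ∀ v, u v ≤ 1) (y : E d) :
    ((4 * m - 1) * J * Real.log 2) * ∫ v in Metric.closedBall y (2 / 2 ^ J), u v ∂μ
      - 30 * d * ∫ v, u v ∂μ ≤ pot μ (4 * m) L u := by
  set B := Metric.closedBall y (2 / 2 ^ J) with hB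
  have hBm : MeasurableSet B := Metric.isClosed_closedBall.measurableSet
  set W := ∫ v, u v ∂μ with hW
  have hW0 : 0 ≤ W := integral_nonneg hu0
  have hui := int_of_bdd (μ := μ) hu hu0 hu1
  rcases hW0.eq_or_lt with h | h
  · have hz := ae_zero_of_int hu hu0 hu1 h.symm
    have e1 : pot μ (4 * m) L u = 0 := by
      refine integral_eq_zero_of_ae ?_
      filter_upwards [hz] with v hv
      have : u v = 0 := hv
      simp [this]
    have e2 : ∫ v in B, u v ∂μ = 0 := by
      refine integral_eq_zero_of_ae ?_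
      exact ae_restrict_of_ae hz
    rw [e1, e2, ← h]; simp
  · -- main case
    have hdd : 1 ≤ d := by omega
    set U := msum μ (4 * m) L u with hU
    have hUm : Measurable U := measurable_msum (4 * m) L u
    have hUpos : ∀ v, 0 < U v := fun v => lt_of_lt_of_le h (int_le_msum hu0 (4 * m) L v)
    have hUi : Integrable U μ := by
      have : U = fun v => ∑ j ∈ Finset.range (L + 1), (2 : ℝ) ^ (4 * m * j) * cmass μ j u v := by
        funext v; rfl
      rw [this]
      exact integrable_finsetSum _ (fun j _ => (integrable_cmass hu hu0 hu1 j).const_mul _)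
    obtain ⟨t, ht⟩ : ∃ t, 4 * m = t + 1 := ⟨4 * m - 1, by omega⟩
    obtain ⟨s, hs⟩ : ∃ s, d - 1 = 4 * m + t + s := ⟨d - 1 - 4 * m - t, by omega⟩
    set x : ℝ := 2 ^ (4 * m) with hx
    set z : ℝ := (1 / 2) ^ t with hzdef
    have ht2 : 2 ≤ t := by omega
    have hx2 : 2 ≤ x := by
      rw [hx]
      calc (2 : ℝ) = 2 ^ 1 := by norm_num
        _ ≤ 2 ^ (4 * m) := pow_le_pow_right₀ (by norm_num) (by omega)
    have hz0 : 0 ≤ z := by positivity
    have hz2 : z ≤ 1 / 2 := by
      rw [hzdef]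
      calc (1 / 2 : ℝ) ^ t ≤ (1 / 2) ^ 1 := pow_le_pow_of_le_one (by norm_num) (by norm_num) (by omega)
        _ = 1 / 2 := by norm_num
    -- cell bound in terms of z
    have hcell : ∀ j : ℕ, (2 : ℝ) ^ (4 * m * j) * (16 ^ d / 2 ^ (j * (d - 1))) ≤ 16 ^ d * z ^ j := by
      intro j
      rw [hs]
      have e1 : (2 : ℝ) ^ (j * (4 * m + t + s)) = 2 ^ (4 * m * j) * 2 ^ (t * j) * 2 ^ (s * j) := by
        rw [← pow_add, ← pow_add]; congr 1; ring
      have e2 : z ^ j = 1 / 2 ^ (t * j) := by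
        rw [hzdef, ← pow_mul, one_div, inv_pow, one_div]
      rw [e1, e2]
      have e3 : (1 : ℝ) ≤ 2 ^ (s * j) := one_le_pow₀ (by norm_num)
      have e4 : (2 : ℝ) ^ (4 * m * j) * (16 ^ d / (2 ^ (4 * m * j) * 2 ^ (t * j) * 2 ^ (s * j)))
          = 16 ^ d * (1 / 2 ^ (t * j)) / 2 ^ (s * j) := by field_simp
      rw [e4]
      exact div_le_self (by positivity) e3
    have hI1 : ∀ j, (2 : ℝ) ^ (4 * m * j) * ∫ v, cmass μ j u v ∂μ ≤ 16 ^ d * W * z ^ j := by
      intro j
      have e1 := int_cmass_le (μ := μ) hu hu0 hu1 j (by positivity) (hμc j)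
      calc (2 : ℝ) ^ (4 * m * j) * ∫ v, cmass μ j u v ∂μ ≤ (2 : ℝ) ^ (4 * m * j) * ((16 ^ d / 2 ^ (j * (d - 1))) * W) := by gcongr
        _ = ((2 : ℝ) ^ (4 * m * j) * (16 ^ d / 2 ^ (j * (d - 1)))) * W := by ring
        _ ≤ (16 ^ d * z ^ j) * W := mul_le_mul_of_nonneg_right (hcell j) hW0
        _ = 16 ^ d * W * z ^ j := by ring
    have hsumz : ∑ j ∈ Finset.range (L + 1), z ^ j ≤ 2 := by
      calc ∑ j ∈ Finset.range (L + 1), z ^ j ≤ ∑ j ∈ Finset.range (L + 1), (1 / 2 : ℝ) ^ j := by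
            refine Finset.sum_le_sum (fun j _ => ?_); gcongr
        _ ≤ 2 := sum_geometric_two_le _
    have hintU : ∫ v, U v ∂μ ≤ 2 * 16 ^ d * W := by
      have e1 : ∫ v, U v ∂μ = ∑ j ∈ Finset.range (L + 1), (2 : ℝ) ^ (4 * m * j) * ∫ v, cmass μ j u v ∂μ := by
        have : U = fun v => ∑ j ∈ Finset.range (L + 1), (2 : ℝ) ^ (4 * m * j) * cmass μ j u v := by
          funext v; rfl
        rw [this, integral_finsetSum _ (fun j _ => (integrable_cmass hu hu0 hu1 j).const_mul _)]
        exact Finset.sum_congr rfl (fun j _ => integral_const_mul _ _)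
      rw [e1]
      calc ∑ j ∈ Finset.range (L + 1), (2 : ℝ) ^ (4 * m * j) * ∫ v, cmass μ j u v ∂μ
          ≤ ∑ j ∈ Finset.range (L + 1), 16 ^ d * W * z ^ j := Finset.sum_le_sum (fun j _ => hI1 j)
        _ = 16 ^ d * W * ∑ j ∈ Finset.range (L + 1), z ^ j := by rw [Finset.mul_sum]
        _ ≤ 16 ^ d * W * 2 := by gcongr
        _ = 2 * 16 ^ d * W := by ring
    -- ball mass
    have hball : μ.real B ≤ 2 ^ (20 * d) / 2 ^ (J * (d - 1)) := by
      have e1 := ball_le_cell hdd J μ (ENNReal.ofReal (16 ^ d / 2 ^ (J * (d - 1)))) (hμc J) y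
      have e2 : ((2 : ℝ≥0∞) ^ 16) ^ d * ENNReal.ofReal (16 ^ d / 2 ^ (J * (d - 1)))
          = ENNReal.ofReal (2 ^ (20 * d) / 2 ^ (J * (d - 1))) := by
        have e3 : ((2 : ℝ≥0∞) ^ 16) ^ d = ENNReal.ofReal ((2 ^ 16) ^ d) := by
          rw [ENNReal.ofReal_pow (by norm_num), ENNReal.ofReal_pow (by norm_num)]; norm_num
        rw [e3, ← ENNReal.ofReal_mul (by positivity)]
        congr 1
        have e4 : (2 : ℝ) ^ (20 * d) = (2 ^ 16) ^ d * 16 ^ d := by
          rw [pow_mul, ← mul_pow]; norm_num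
        rw [e4]; ring
      rw [e2] at e1
      exact ENNReal.toReal_le_of_le_ofReal (by positivity) e1
    have hI2 : ∀ j, (2 : ℝ) ^ (4 * m * j) * ∫ v in B, cmass μ j u v ∂μ ≤ x ^ j * (μ.real B * W) := by
      intro j
      have e1 := setInt_cmass_le (μ := μ) hu hu0 hu1 j B
      rw [hx, ← pow_mul]
      gcongr
    have hI3 : ∀ j, (2 : ℝ) ^ (4 * m * j) * ∫ v in B, cmass μ j u v ∂μ ≤ 16 ^ d * W * z ^ j := by
      intro j
      refine le_trans ?_ (hI1 j)
      exact mul_le_mul_of_nonneg_left (setIntegral_le_integral (integrable_cmass hu hu0 hu1 j)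
        (Eventually.of_forall (fun v => cmass_nonneg hu0 j v))) (by positivity)
    have hintBU : ∫ v in B, U v ∂μ ≤ 2 * x ^ J * (μ.real B * W) + 16 ^ d * W * z ^ J := by
      have e1 : ∫ v in B, U v ∂μ = ∑ j ∈ Finset.range (L + 1), (2 : ℝ) ^ (4 * m * j) * ∫ v in B, cmass μ j u v ∂μ := by
        have : U = fun v => ∑ j ∈ Finset.range (L + 1), (2 : ℝ) ^ (4 * m * j) * cmass μ j u v := by
          funext v; rfl
        rw [this, integral_finsetSum _ (fun j _ => ((integrable_cmass hu hu0 hu1 j).const_mul _).restrict)]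
        exact Finset.sum_congr rfl (fun j _ => integral_const_mul _ _)
      rw [e1]
      refine le_trans (range_split (fun j => (2 : ℝ) ^ (4 * m * j) * ∫ v in B, cmass μ j u v ∂μ)
        (fun j => mul_nonneg (by positivity) (setIntegral_nonneg hBm (fun v _ => cmass_nonneg hu0 j v))) J L) ?_
      have hBW : 0 ≤ μ.real B * W := mul_nonneg measureReal_nonneg hW0
      have p1 : ∑ j ∈ Finset.range (J + 1), (2 : ℝ) ^ (4 * m * j) * ∫ v in B, cmass μ j u v ∂μ ≤ 2 * x ^ J * (μ.real B * W) := by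
        calc _ ≤ ∑ j ∈ Finset.range (J + 1), x ^ j * (μ.real B * W) := Finset.sum_le_sum (fun j _ => hI2 j)
          _ = (∑ j ∈ Finset.range (J + 1), x ^ j) * (μ.real B * W) := by rw [Finset.sum_mul]
          _ ≤ (2 * x ^ J) * (μ.real B * W) := by gcongr; exact geom_le x hx2 J
      have p2 : ∑ j ∈ Finset.Ico (J + 1) (L + 1), (2 : ℝ) ^ (4 * m * j) * ∫ v in B, cmass μ j u v ∂μ ≤ 16 ^ d * W * z ^ J := by
        calc _ ≤ ∑ j ∈ Finset.Ico (J + 1) (L + 1), 16 ^ d * W * z ^ j := Finset.sum_le_sum (fun j _ => hI3 j)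
          _ = 16 ^ d * W * ∑ j ∈ Finset.Ico (J + 1) (L + 1), z ^ j := by rw [Finset.mul_sum]
          _ ≤ 16 ^ d * W * z ^ J := by gcongr; exact geom_tail_le z hz0 hz2 J L
      linarith
    -- the exponential tilt
    set lam : ℝ := (4 * m - 1) * J * Real.log 2 with hlam
    have htr : (t : ℝ) = 4 * m - 1 := by
      have : ((4 * m : ℕ) : ℝ) = ((t + 1 : ℕ) : ℝ) := by rw [ht]
      push_cast at this; linarith
    have hexp : Real.exp lam = 2 ^ (t * J) := by
      rw [hlam, ← htr]
      have : (t : ℝ) * J * Real.log 2 = ((t * J : ℕ) : ℝ) * Real.log 2 := by push_cast; ring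
      rw [this, Real.exp_nat_mul, Real.exp_log (by norm_num)]
    have hzJ : z ^ J * 2 ^ (t * J) = 1 := by
      rw [hzdef, ← pow_mul, ← mul_pow]; norm_num
    have hkey : Real.exp lam * ∫ v in B, U v ∂μ ≤ 3 * 2 ^ (20 * d) * W := by
      rw [hexp]
      have q1 : (2 : ℝ) ^ (t * J) * (2 * x ^ J * (μ.real B * W)) ≤ 2 * 2 ^ (20 * d) * W := by
        have q2 : (2 : ℝ) ^ (t * J) * x ^ J * μ.real B ≤ 2 ^ (20 * d) := by
          calc (2 : ℝ) ^ (t * J) * x ^ J * μ.real B ≤ (2 : ℝ) ^ (t * J) * x ^ J * (2 ^ (20 * d) / 2 ^ (J * (d - 1))) := by gcongr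
            _ = 2 ^ (20 * d) / 2 ^ (s * J) := by
                have e1 : (2 : ℝ) ^ (J * (d - 1)) = 2 ^ (t * J) * x ^ J * 2 ^ (s * J) := by
                  rw [hs, hx, ← pow_mul, ← pow_add, ← pow_add]; congr 1; ring
                rw [e1]; field_simp
            _ ≤ 2 ^ (20 * d) := div_le_self (by positivity) (one_le_pow₀ (by norm_num))
        calc (2 : ℝ) ^ (t * J) * (2 * x ^ J * (μ.real B * W)) = 2 * ((2 : ℝ) ^ (t * J) * x ^ J * μ.real B) * W := by ring
          _ ≤ 2 * 2 ^ (20 * d) * W := by gcongr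
      have q3 : (2 : ℝ) ^ (t * J) * (16 ^ d * W * z ^ J) ≤ 2 ^ (20 * d) * W := by
        have : (2 : ℝ) ^ (t * J) * (16 ^ d * W * z ^ J) = 16 ^ d * W := by
          calc _ = 16 ^ d * W * (z ^ J * 2 ^ (t * J)) := by ring
            _ = 16 ^ d * W := by rw [hzJ, mul_one]
        rw [this]
        gcongr
        rw [pow_mul]
        gcongr
        norm_num
      calc (2 : ℝ) ^ (t * J) * ∫ v in B, U v ∂μ ≤ (2 : ℝ) ^ (t * J) * (2 * x ^ J * (μ.real B * W) + 16 ^ d * W * z ^ J) := by gcongr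
        _ = (2 : ℝ) ^ (t * J) * (2 * x ^ J * (μ.real B * W)) + (2 : ℝ) ^ (t * J) * (16 ^ d * W * z ^ J) := by ring
        _ ≤ 3 * 2 ^ (20 * d) * W := by linarith
    -- pointwise inequality
    let ind : E d → ℝ := B.indicator (fun _ => (1 : ℝ))
    have hindm : Measurable ind := measurable_const.indicator hBm
    have hpt : ∀ v, u v * (lam * ind v - 30 * d) + u v - Real.exp (-(30 * d)) * (U v + Real.exp lam * (ind v * U v)) ≤ u v * Real.log (u v / U v) := by
      intro v
      have hlin : U v * Real.exp (lam * ind v - 30 * d) ≤ Real.exp (-(30 * d)) * (U v + Real.exp lam * (ind v * U v)) := by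
        rw [sub_eq_add_neg, Real.exp_add]
        by_cases hv : v ∈ B
        · have : ind v = 1 := Set.indicator_of_mem hv _
          rw [this, mul_one, one_mul]
          have := (hUpos v).le
          have := Real.exp_pos (-(30 * (d : ℝ)))
          nlinarith [mul_nonneg this.le (hUpos v).le]
        · have : ind v = 0 := Set.indicator_of_notMem hv _
          rw [this, mul_zero, Real.exp_zero, zero_mul, mul_zero, one_mul, add_zero, mul_comm]
      rcases (hu0 v).eq_or_lt with h' | h'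
      · rw [← h', zero_mul, zero_mul]
        have := mul_pos (hUpos v) (Real.exp_pos (lam * ind v - 30 * d))
        linarith
      · have hpos : 0 < U v * Real.exp (lam * ind v - 30 * d) := mul_pos (hUpos v) (Real.exp_pos _)
        have e1 := Real.one_sub_inv_le_log_of_pos (div_pos h' hpos)
        have e2 : Real.log (u v / (U v * Real.exp (lam * ind v - 30 * d))) = Real.log (u v / U v) - (lam * ind v - 30 * d) := by
          rw [← div_div, Real.log_div (div_pos h' (hUpos v)).ne' (Real.exp_pos _).ne', Real.log_exp]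
        rw [e2, inv_div] at e1
        have e3 : u v * (1 - U v * Real.exp (lam * ind v - 30 * d) / u v) ≤ u v * (Real.log (u v / U v) - (lam * ind v - 30 * d)) := by
          gcongr
        have e4 : u v * (1 - U v * Real.exp (lam * ind v - 30 * d) / u v) = u v - U v * Real.exp (lam * ind v - 30 * d) := by
          field_simp
        rw [e4] at e3
        linarith
    -- integrate
    have hindu : ∀ f : E d → ℝ, ∫ v, ind v * f v ∂μ = ∫ v in B, f v ∂μ := by
      intro f
      rw [← integral_indicator hBm]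
      refine integral_congr_ae (Eventually.of_forall (fun v => ?_))
      by_cases hv : v ∈ B
      · simp [ind, Set.indicator_of_mem hv]
      · simp [ind, Set.indicator_of_notMem hv]
    have hindi : ∀ f : E d → ℝ, Integrable f μ → Integrable (fun v => ind v * f v) μ := by
      intro f hf
      have := hf.indicator hBm
      refine this.congr (Eventually.of_forall (fun v => ?_))
      by_cases hv : v ∈ B
      · simp [ind, Set.indicator_of_mem hv]
      · simp [ind, Set.indicator_of_notMem hv]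
    have hLi : Integrable (fun v => u v * Real.log (u v / U v)) μ :=
      integrable_mul_log (μ := μ) hu hu0 hu1 (4 * m) L hu hu0 (fun v => le_rfl) hu hu1 (fun v => le_rfl)
    have f1 : Integrable (fun v => lam * (ind v * u v) - 30 * d * u v + u v) μ :=
      (((hindi u hui).const_mul lam).sub (hui.const_mul _)).add hui
    have f2 : Integrable (fun v => Real.exp (-(30 * d)) * (U v + Real.exp lam * (ind v * U v))) μ :=
      (hUi.add ((hindi U hUi).const_mul _)).const_mul _
    have hmono : ∫ v, ((lam * (ind v * u v) - 30 * d * u v + u v) - Real.exp (-(30 * d)) * (U v + Real.exp lam * (ind v * U v))) ∂μ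
        ≤ pot μ (4 * m) L u := by
      refine integral_mono (f1.sub f2) hLi (fun v => ?_)
      refine le_trans (le_of_eq ?_) (hpt v)
      ring
    have hval : ∫ v, ((lam * (ind v * u v) - 30 * d * u v + u v) - Real.exp (-(30 * d)) * (U v + Real.exp lam * (ind v * U v))) ∂μ
        = (lam * ∫ v in B, u v ∂μ - 30 * d * W + W) - Real.exp (-(30 * d)) * (∫ v, U v ∂μ + Real.exp lam * ∫ v in B, U v ∂μ) := by
      have g1 : Integrable (fun v => lam * (ind v * u v)) μ := (hindi u hui).const_mul lam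
      have g2 : Integrable (fun v => 30 * d * u v) μ := hui.const_mul _
      have g3 : Integrable (fun v => lam * (ind v * u v) - 30 * d * u v) μ := g1.sub g2
      have g4 : Integrable (fun v => Real.exp lam * (ind v * U v)) μ := (hindi U hUi).const_mul _
      rw [integral_sub f1 f2, integral_add g3 hui, integral_sub g1 g2, integral_const_mul, integral_const_mul,
        integral_const_mul, integral_add hUi g4, integral_const_mul, hindu, hindu]
    have hsmall : Real.exp (-(30 * d)) * (∫ v, U v ∂μ + Real.exp lam * ∫ v in B, U v ∂μ) ≤ W := by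
      have e1 : (16 : ℝ) ^ d ≤ 2 ^ (20 * d) := by
        rw [pow_mul]; gcongr; norm_num
      have e2 : ∫ v, U v ∂μ + Real.exp lam * ∫ v in B, U v ∂μ ≤ 5 * 2 ^ (20 * d) * W := by
        have : 2 * 16 ^ d * W ≤ 2 * 2 ^ (20 * d) * W := by gcongr
        linarith
      have e3 : Real.exp (-(30 * d)) * (5 * 2 ^ (20 * d)) ≤ 1 := by
        have a1 : (2 : ℝ) ^ (20 * d) ≤ Real.exp (20 * d) := by
          have : Real.exp (20 * (d : ℝ)) = Real.exp 1 ^ (20 * d) := by
            rw [← Real.exp_nat_mul]; push_cast; ring_nf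
          rw [this]
          gcongr
          linarith [Real.add_one_le_exp (1 : ℝ)]
        have a2 : (5 : ℝ) ≤ Real.exp (10 * d) := by
          have : (10 : ℝ) * d + 1 ≤ Real.exp (10 * d) := Real.add_one_le_exp _
          have hd1 : (1 : ℝ) ≤ d := by exact_mod_cast hdd
          linarith
        calc Real.exp (-(30 * d)) * (5 * 2 ^ (20 * d)) ≤ Real.exp (-(30 * d)) * (Real.exp (10 * d) * Real.exp (20 * d)) := by gcongr
          _ = 1 := by rw [← Real.exp_add, ← Real.exp_add]; ring_nf; exact Real.exp_zero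
      calc Real.exp (-(30 * d)) * (∫ v, U v ∂μ + Real.exp lam * ∫ v in B, U v ∂μ)
          ≤ Real.exp (-(30 * d)) * (5 * 2 ^ (20 * d) * W) := by gcongr
        _ = (Real.exp (-(30 * d)) * (5 * 2 ^ (20 * d))) * W := by ring
        _ ≤ 1 * W := by gcongr
        _ = W := one_mul W
    rw [hval] at hmono
    linarith

end P309
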