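import Vale.Agent.P309.PotStepFinal
import Vale.Agent.P309.PotLower
open MeasureTheory ProbabilityTheory Filter
open scoped RealInnerProductSpace ENNReal Topology
namespace P309

/-- A family of block rules: `h n a b X y` is the probability to move from state `a` to state `b`
when reading the block `X` with labels `y`, while `n` further blocks remain. -/
structure BlockRule (d m : ℕ) (A : Type) [Fintype A] where
  h : ℕ → A → A → (Fin m → E d) → (Fin m → ℝ) → ℝ
  meas : ∀ i a b, Measurable (fun q : (Fin m → E d) × (Fin m → ℝ) => h i a b q.1 q.2)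
  nonneg : ∀ i a b X y, 0 ≤ h i a b X y
  sum_one : ∀ i a X y, ∑ b, h i a b X y = 1

section
set_option linter.unusedSectionVars false
variable {d m : ℕ} {A : Type} [Fintype A]

theorem BlockRule.le_one (H : BlockRule d m A) (i : ℕ) (a b : A) (X : Fin m → E d) (y : Fin m → ℝ) :
    H.h i a b X y ≤ 1 := by
  rw [← H.sum_one i a X y]
  exact Finset.single_le_sum (f := fun b => H.h i a b X y) (fun b _ => H.nonneg i a b X y) (Finset.mem_univ b)

theorem measurable_obsv (d m : ℕ) :
    Measurable (fun q : (Fin m → E d) × E d => (q.1, fun i => ⟪q.1 i, q.2⟫)) := by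
  refine Measurable.prodMk measurable_fst (measurable_pi_lambda _ fun i => ?_)
  have h2 : Measurable (fun q : (Fin m → E d) × E d => q.1 i) :=
    (measurable_pi_apply i).comp measurable_fst
  exact h2.inner measurable_snd

theorem chan_measurable (H : BlockRule d m A) (i : ℕ) (a b : A) : Measurable (chan (H.h i a b)) := by
  have h1 : Measurable (fun q : (Fin m → E d) × E d => H.h i a b q.1 (fun i => ⟪q.1 i, q.2⟫)) :=
    (H.meas i a b).comp (measurable_obsv d m)
  exact (h1.stronglyMeasurable.integral_prod_left').measurable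

theorem chan_int (H : BlockRule d m A) (i : ℕ) (a b : A) (v : E d) :
    Integrable (fun X => H.h i a b X (fun i => ⟪X i, v⟫)) (rows d m) := by
  have h1 : Measurable (fun q : (Fin m → E d) × E d => H.h i a b q.1 (fun i => ⟪q.1 i, q.2⟫)) :=
    (H.meas i a b).comp (measurable_obsv d m)
  have h2 : Measurable (fun X : Fin m → E d => H.h i a b X (fun i => ⟪X i, v⟫)) :=
    h1.comp (measurable_id.prodMk measurable_const)
  refine Integrable.mono' (integrable_const (1 : ℝ)) h2.aestronglyMeasurable ?_
  refine Eventually.of_forall (fun X => ?_)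
  rw [Real.norm_eq_abs, abs_of_nonneg (H.nonneg _ _ _ _ _)]
  exact H.le_one _ _ _ _ _

theorem chan_nonneg (H : BlockRule d m A) (i : ℕ) (a b : A) (v : E d) : 0 ≤ chan (H.h i a b) v :=
  integral_nonneg (fun _ => H.nonneg _ _ _ _ _)

theorem chan_sum (H : BlockRule d m A) (i : ℕ) (a : A) (v : E d) : ∑ b, chan (H.h i a b) v = 1 := by
  unfold chan
  rw [← integral_finsetSum _ (fun b _ => chan_int H i a b v)]
  simp only [H.sum_one]
  simp

theorem chan_le_one (H : BlockRule d m A) (i : ℕ) (a b : A) (v : E d) : chan (H.h i a b) v ≤ 1 := by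
  rw [← chan_sum H i a v]
  exact Finset.single_le_sum (f := fun b => chan (H.h i a b) v) (fun b _ => chan_nonneg H i a b v) (Finset.mem_univ b)

/-- acceptance probability with `n` blocks remaining -/
noncomputable def val (H : BlockRule d m A) (f : A → E d → ℝ) : ℕ → A → E d → ℝ
  | 0, a, v => f a v
  | n + 1, a, v => ∑ b, chan (H.h n a b) v * val H f n b v

/-- total final potential of the tree of transcripts -/
noncomputable def tot (μ : Measure (E d)) (K L : ℕ) (H : BlockRule d m A) : ℕ → (E d → ℝ) → A → ℝ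
  | 0, u, _ => pot μ K L u
  | n + 1, u, a => ∑ b, tot μ K L H n (fun v => u v * chan (H.h n a b) v) b

theorem val_measurable (H : BlockRule d m A) (f : A → E d → ℝ) (hf : ∀ a, Measurable (f a)) :
    ∀ n a, Measurable (val H f n a)
  | 0, a => hf a
  | n + 1, a => by
      have : val H f (n + 1) a = fun v => ∑ b, chan (H.h n a b) v * val H f n b v := rfl
      rw [this]
      exact Finset.measurable_sum _ (fun b _ => (chan_measurable H n a b).mul (val_measurable H f hf n b))

theorem val_nonneg (H : BlockRule d m A) (f : A → E d → ℝ) (hf : ∀ a v, 0 ≤ f a v) :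
    ∀ n a v, 0 ≤ val H f n a v
  | 0, a, v => hf a v
  | n + 1, a, v => Finset.sum_nonneg (fun b _ => mul_nonneg (chan_nonneg H n a b v) (val_nonneg H f hf n b v))

theorem val_le_one (H : BlockRule d m A) (f : A → E d → ℝ) (hf : ∀ a v, f a v ≤ 1) :
    ∀ n a v, val H f n a v ≤ 1
  | 0, a, v => hf a v
  | n + 1, a, v => by
      have h1 : ∑ b, chan (H.h n a b) v * val H f n b v ≤ ∑ b, chan (H.h n a b) v * 1 :=
        Finset.sum_le_sum (fun b _ => mul_le_mul_of_nonneg_left (val_le_one H f hf n b v) (chan_nonneg H n a b v))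
      have h2 : ∑ b, chan (H.h n a b) v * 1 = 1 := by simp [chan_sum]
      exact h1.trans_eq h2

theorem val_mono (H : BlockRule d m A) (f g : A → E d → ℝ) (v : E d) (hfg : ∀ a, f a v ≤ g a v) :
    ∀ n a, val H f n a v ≤ val H g n a v
  | 0, a => hfg a
  | n + 1, a => Finset.sum_le_sum (fun b _ => mul_le_mul_of_nonneg_left (val_mono H f g v hfg n b) (chan_nonneg H n a b v))

theorem val_le_sum (H : BlockRule d m A) (f : A → E d → ℝ) (hf : ∀ a v, 0 ≤ f a v) :
    ∀ n a v, val H f n a v ≤ ∑ b, f b v
  | 0, a, v => Finset.single_le_sum (f := fun b => f b v) (fun b _ => hf b v) (Finset.mem_univ a)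
  | n + 1, a, v => by
      have h1 : ∑ b, chan (H.h n a b) v * val H f n b v ≤ ∑ b, chan (H.h n a b) v * ∑ c, f c v :=
        Finset.sum_le_sum (fun b _ => mul_le_mul_of_nonneg_left (val_le_sum H f hf n b v) (chan_nonneg H n a b v))
      have h2 : ∑ b, chan (H.h n a b) v * ∑ c, f c v = ∑ c, f c v := by
        rw [← Finset.sum_mul, chan_sum, one_mul]
      exact h1.trans_eq h2

variable [Nonempty A] {μ : Measure (E d)} [IsProbabilityMeasure μ]

theorem tot_le (hm : 1 ≤ m) (hd : 8 * m ≤ d) (hμ : μ (Metric.closedBall 0 1)ᶜ = 0)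
    (H : BlockRule d m A) {L : ℕ} {w₀ : ℝ} (hw₀ : 0 < w₀)
    (hL : ∀ j, L ≤ j → ∀ v, (2 : ℝ) ^ (4 * m * j) * μ.real (cell d j v) ≤ w₀) :
    ∀ (n : ℕ) (u : E d → ℝ), Measurable u → (∀ v, 0 ≤ u v) → (∀ v, u v ≤ 1) → ∀ a : A,
      tot μ (4 * m) L H n u a ≤ pot μ (4 * m) L u
        + n * ((∫ v, u v ∂μ) * (Real.log (Fintype.card A) / (2 * m) + 30 * d + 3 * Real.log (L + 1)))
        + w₀ * (Real.log (Fintype.card A) + Real.log (L + 1)) * ((Fintype.card A : ℝ) + 1) ^ n := by
  have hN1 : (1 : ℝ) ≤ Fintype.card A := by exact_mod_cast Fintype.card_pos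
  have hlN : 0 ≤ Real.log (Fintype.card A) := Real.log_nonneg hN1
  have hlL : 0 ≤ Real.log ((L : ℝ) + 1) := Real.log_nonneg (by have : (0 : ℝ) ≤ L := Nat.cast_nonneg L; linarith)
  set B := Real.log (Fintype.card A) / (2 * m) + 30 * d + 3 * Real.log ((L : ℝ) + 1) with hB
  set B' := Real.log (Fintype.card A) + Real.log ((L : ℝ) + 1) with hB'
  have hB0 : 0 ≤ B := by positivity
  have hB'0 : 0 ≤ B' := by positivity
  intro n
  induction n with
  | zero =>
    intro u hu hu0 hu1 a
    change pot μ (4 * m) L u ≤ _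
    have : 0 ≤ w₀ * B' * ((Fintype.card A : ℝ) + 1) ^ 0 := by positivity
    simp only [Nat.cast_zero, zero_mul, add_zero]
    linarith
  | succ n ih =>
    intro u hu hu0 hu1 a
    set W := ∫ v, u v ∂μ with hW
    have hW0 : 0 ≤ W := integral_nonneg hu0
    have gm := fun b => chan_measurable H n a b
    have g0 := fun b v => chan_nonneg H n a b v
    have g1 := fun b v => chan_le_one H n a b v
    have hum : ∀ b, Measurable (fun v => u v * chan (H.h n a b) v) := fun b => hu.mul (gm b)
    have hu0' : ∀ b v, 0 ≤ u v * chan (H.h n a b) v := fun b v => mul_nonneg (hu0 v) (g0 b v)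
    have hu1' : ∀ b v, u v * chan (H.h n a b) v ≤ 1 := fun b v =>
      le_trans (mul_le_of_le_one_right (hu0 v) (g1 b v)) (hu1 v)
    have hsumW : ∑ b, ∫ v, u v * chan (H.h n a b) v ∂μ = W := by
      rw [← integral_finsetSum _ (fun b _ => int_of_bdd (hum b) (hu0' b) (hu1' b))]
      refine integral_congr_ae (Eventually.of_forall (fun v => ?_))
      simp only
      rw [← Finset.mul_sum, chan_sum, mul_one]
    have hstep : ∑ b, pot μ (4 * m) L (fun v => u v * chan (H.h n a b) v) ≤ pot μ (4 * m) L u + W * B + w₀ * B' := by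
      by_cases hcase : w₀ ≤ W
      · have hL' : ∀ j, L ≤ j → ∀ v, (2 : ℝ) ^ (4 * m * j) * ∫ v' in cell d j v, u v' ∂μ ≤ ∫ v', u v' ∂μ := by
          intro j hj v
          refine le_trans ?_ (le_trans (hL j hj v) hcase)
          gcongr
          calc ∫ v' in cell d j v, u v' ∂μ ≤ ∫ _v' in cell d j v, (1 : ℝ) ∂μ :=
                integral_mono (int_of_bdd hu hu0 hu1).restrict (integrable_const _) hu1
            _ = μ.real (cell d j v) := by simp [Measure.real]
        have := pot_step (μ := μ) hm hd hμ u hu hu0 hu1 hL' (H.h n a) (H.meas n a) (H.nonneg n a) (H.sum_one n a)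
        have h2 : 0 ≤ w₀ * B' := by positivity
        linarith
      · have := pot_step_crude (μ := μ) (K := 4 * m) (L := L) hu hu0 hu1 (fun b => chan (H.h n a b)) gm g0 (chan_sum H n a)
        have h2 : W * B' ≤ w₀ * B' := mul_le_mul_of_nonneg_right (not_le.1 hcase).le hB'0
        have h3 : 0 ≤ W * B := mul_nonneg hW0 hB0
        linarith
    change ∑ b, tot μ (4 * m) L H n (fun v => u v * chan (H.h n a b) v) b ≤ _
    calc ∑ b, tot μ (4 * m) L H n (fun v => u v * chan (H.h n a b) v) b
        ≤ ∑ b, (pot μ (4 * m) L (fun v => u v * chan (H.h n a b) v)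
          + n * ((∫ v, u v * chan (H.h n a b) v ∂μ) * B) + w₀ * B' * ((Fintype.card A : ℝ) + 1) ^ n) :=
          Finset.sum_le_sum (fun b _ => ih _ (hum b) (hu0' b) (hu1' b) b)
      _ = ∑ b, pot μ (4 * m) L (fun v => u v * chan (H.h n a b) v) + n * (W * B)
          + Fintype.card A * (w₀ * B' * ((Fintype.card A : ℝ) + 1) ^ n) := by
          rw [Finset.sum_add_distrib, Finset.sum_add_distrib, ← Finset.mul_sum, ← Finset.sum_mul, hsumW]
          simp
      _ ≤ pot μ (4 * m) L u + W * B + w₀ * B' + n * (W * B)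
          + Fintype.card A * (w₀ * B' * ((Fintype.card A : ℝ) + 1) ^ n) := by linarith
      _ ≤ pot μ (4 * m) L u + ((n + 1 : ℕ) : ℝ) * (W * B) + w₀ * B' * ((Fintype.card A : ℝ) + 1) ^ (n + 1) := by
          have h1 : (1 : ℝ) ≤ ((Fintype.card A : ℝ) + 1) ^ n := one_le_pow₀ (by linarith)
          have h2 : w₀ * B' + Fintype.card A * (w₀ * B' * ((Fintype.card A : ℝ) + 1) ^ n)
              ≤ w₀ * B' * ((Fintype.card A : ℝ) + 1) ^ (n + 1) := by
            rw [pow_succ]
            have h3 : 0 ≤ w₀ * B' := by positivity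
            nlinarith [mul_le_mul_of_nonneg_left h1 h3]
          push_cast
          linarith

theorem le_tot {K L : ℕ} {lam c : ℝ} (H : BlockRule d m A) (f : A → E d → ℝ) (hf : ∀ a, Measurable (f a))
    (hf0 : ∀ a v, 0 ≤ f a v) (hf1 : ∀ a v, f a v ≤ 1)
    (hbase : ∀ (a : A) (u : E d → ℝ), Measurable u → (∀ v, 0 ≤ u v) → (∀ v, u v ≤ 1) →
      lam * ∫ v, u v * f a v ∂μ - c * ∫ v, u v ∂μ ≤ pot μ K L u) :
    ∀ (n : ℕ) (u : E d → ℝ), Measurable u → (∀ v, 0 ≤ u v) → (∀ v, u v ≤ 1) → ∀ a : A,
      lam * ∫ v, u v * val H f n a v ∂μ - c * ∫ v, u v ∂μ ≤ tot μ K L H n u a := by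
  intro n
  induction n with
  | zero => exact fun u hu hu0 hu1 a => hbase a u hu hu0 hu1
  | succ n ih =>
    intro u hu hu0 hu1 a
    have gm := fun b => chan_measurable H n a b
    have g0 := fun b v => chan_nonneg H n a b v
    have g1 := fun b v => chan_le_one H n a b v
    have hum : ∀ b, Measurable (fun v => u v * chan (H.h n a b) v) := fun b => hu.mul (gm b)
    have hu0' : ∀ b v, 0 ≤ u v * chan (H.h n a b) v := fun b v => mul_nonneg (hu0 v) (g0 b v)
    have hu1' : ∀ b v, u v * chan (H.h n a b) v ≤ 1 := fun b v =>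
      le_trans (mul_le_of_le_one_right (hu0 v) (g1 b v)) (hu1 v)
    have hvm := val_measurable H f hf n
    have hv0 := val_nonneg H f hf0 n
    have hv1 := val_le_one H f hf1 n
    have hsumW : ∑ b, ∫ v, u v * chan (H.h n a b) v ∂μ = ∫ v, u v ∂μ := by
      rw [← integral_finsetSum _ (fun b _ => int_of_bdd (hum b) (hu0' b) (hu1' b))]
      refine integral_congr_ae (Eventually.of_forall (fun v => ?_))
      simp only
      rw [← Finset.mul_sum, chan_sum, mul_one]
    have hint : ∀ b ∈ Finset.univ, Integrable (fun v => u v * chan (H.h n a b) v * val H f n b v) μ := by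
      intro b _
      refine int_of_bdd ((hum b).mul (hvm b)) (fun v => mul_nonneg (hu0' b v) (hv0 b v)) (fun v => ?_)
      calc u v * chan (H.h n a b) v * val H f n b v ≤ 1 * 1 :=
            mul_le_mul (hu1' b v) (hv1 b v) (hv0 b v) zero_le_one
        _ = 1 := by norm_num
    have hsumV : ∑ b, ∫ v, u v * chan (H.h n a b) v * val H f n b v ∂μ = ∫ v, u v * val H f (n + 1) a v ∂μ := by
      rw [← integral_finsetSum _ hint]
      refine integral_congr_ae (Eventually.of_forall (fun v => ?_))
      change ∑ b, u v * chan (H.h n a b) v * val H f n b v = u v * ∑ b, chan (H.h n a b) v * val H f n b v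
      rw [Finset.mul_sum]
      exact Finset.sum_congr rfl (fun b _ => by ring)
    change _ ≤ ∑ b, tot μ K L H n (fun v => u v * chan (H.h n a b) v) b
    calc lam * ∫ v, u v * val H f (n + 1) a v ∂μ - c * ∫ v, u v ∂μ
        = ∑ b, (lam * ∫ v, u v * chan (H.h n a b) v * val H f n b v ∂μ - c * ∫ v, u v * chan (H.h n a b) v ∂μ) := by
          rw [Finset.sum_sub_distrib, ← Finset.mul_sum, ← Finset.mul_sum, hsumV, hsumW]
      _ ≤ ∑ b, tot μ K L H n (fun v => u v * chan (H.h n a b) v) b :=
          Finset.sum_le_sum (fun b _ => ih _ (hum b) (hu0' b) (hu1' b) b)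

/-- the potential of the constant weight is nonpositive -/
theorem pot_one_nonpos (K L : ℕ) : pot μ K L (fun _ => 1) ≤ 0 := by
  unfold pot
  refine integral_nonpos (fun v => ?_)
  have h1 := int_le_msum (μ := μ) (u := fun _ => 1) (fun _ => zero_le_one) K L v
  have h2 : ∫ _v' : E d, (1 : ℝ) ∂μ = 1 := by simp
  rw [h2] at h1
  simp only [one_mul, one_div, Pi.zero_apply]
  rw [Real.log_inv]
  have := Real.log_nonneg h1
  linarith

/-- averaging the lower bound over the output law -/
theorem base_lower {L J : ℕ} (hm : 1 ≤ m) (hd : 8 * m ≤ d)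
    (hμc : ∀ j v, μ (cell d j v) ≤ ENNReal.ofReal (16 ^ d / 2 ^ (j * (d - 1))))
    (ρ : Measure (E d)) [IsProbabilityMeasure ρ]
    (u : E d → ℝ) (hu : Measurable u) (hu0 : ∀ v, 0 ≤ u v) (hu1 : ∀ v, u v ≤ 1) :
    ((4 * m - 1) * J * Real.log 2) * ∫ v, u v * ρ.real (Metric.closedBall v (2 / 2 ^ J)) ∂μ
      - 30 * d * ∫ v, u v ∂μ ≤ pot μ (4 * m) L u := by
  set r : ℝ := 2 / 2 ^ J with hr
  have hset : MeasurableSet {q : E d × E d | dist q.2 q.1 ≤ r} :=
    measurableSet_le (measurable_snd.dist measurable_fst) measurable_const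
  let F : E d × E d → ℝ := fun q => u q.1 * {q : E d × E d | dist q.2 q.1 ≤ r}.indicator (fun _ => (1 : ℝ)) q
  have hFm : Measurable F := (hu.comp measurable_fst).mul (measurable_const.indicator hset)
  have hFi : Integrable F (μ.prod ρ) := by
    refine Integrable.mono' (integrable_const (1 : ℝ)) hFm.aestronglyMeasurable ?_
    refine Eventually.of_forall (fun q => ?_)
    rw [Real.norm_eq_abs, abs_mul, abs_of_nonneg (hu0 q.1)]
    have h1 : |{q : E d × E d | dist q.2 q.1 ≤ r}.indicator (fun _ => (1 : ℝ)) q| ≤ 1 := by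
      by_cases hq : q ∈ {q : E d × E d | dist q.2 q.1 ≤ r}
      · rw [Set.indicator_of_mem hq]; simp
      · rw [Set.indicator_of_notMem hq]; simp
    calc u q.1 * |{q : E d × E d | dist q.2 q.1 ≤ r}.indicator (fun _ => (1 : ℝ)) q| ≤ 1 * 1 :=
          mul_le_mul (hu1 _) h1 (abs_nonneg _) zero_le_one
      _ = 1 := by norm_num
  have e1 : ∫ q, F q ∂(μ.prod ρ) = ∫ v, u v * ρ.real (Metric.closedBall v r) ∂μ := by
    rw [integral_prod _ hFi]
    refine integral_congr_ae (Eventually.of_forall (fun v => ?_))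
    simp only [F]
    rw [integral_const_mul]
    congr 1
    have h2 : (fun y : E d => {q : E d × E d | dist q.2 q.1 ≤ r}.indicator (fun _ => (1 : ℝ)) (v, y))
        = (Metric.closedBall v r).indicator (fun _ => (1 : ℝ)) := by
      funext y
      simp only [Set.indicator, Metric.mem_closedBall, Set.mem_ofPred_eq]
    rw [h2, integral_indicator_const _ Metric.isClosed_closedBall.measurableSet]
    simp
  have e2 : ∫ q, F q ∂(μ.prod ρ) = ∫ y, ∫ v in Metric.closedBall y r, u v ∂μ ∂ρ := by
    rw [integral_prod_symm _ hFi]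
    refine integral_congr_ae (Eventually.of_forall (fun y => ?_))
    simp only [F]
    rw [← integral_indicator Metric.isClosed_closedBall.measurableSet]
    refine integral_congr_ae (Eventually.of_forall (fun v => ?_))
    simp only [Set.indicator, Metric.mem_closedBall, Set.mem_ofPred_eq]
    by_cases hv : dist y v ≤ r
    · rw [if_pos hv, if_pos (by rwa [dist_comm]), mul_one]
    · rw [if_neg hv, if_neg (by rwa [dist_comm]), mul_zero]
  have hI : Integrable (fun y => ∫ v in Metric.closedBall y r, u v ∂μ) ρ := by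
    have := hFi.integral_prod_right
    refine this.congr (Eventually.of_forall (fun y => ?_))
    simp only [F]
    rw [← integral_indicator Metric.isClosed_closedBall.measurableSet]
    refine integral_congr_ae (Eventually.of_forall (fun v => ?_))
    simp only [Set.indicator, Metric.mem_closedBall, Set.mem_ofPred_eq]
    by_cases hv : dist y v ≤ r
    · rw [if_pos hv, if_pos (by rwa [dist_comm]), mul_one]
    · rw [if_neg hv, if_neg (by rwa [dist_comm]), mul_zero]
  have hpt := fun y => pot_lower (L := L) (J := J) hm hd hμc u hu hu0 hu1 y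
  have hint : ∫ y, (((4 * m - 1) * J * Real.log 2) * ∫ v in Metric.closedBall y r, u v ∂μ
      - 30 * d * ∫ v, u v ∂μ) ∂ρ ≤ ∫ _y : E d, pot μ (4 * m) L u ∂ρ :=
    integral_mono ((hI.const_mul _).sub (integrable_const _)) (integrable_const _) hpt
  rw [integral_sub (hI.const_mul _) (integrable_const _), integral_const_mul, ← e2, e1] at hint
  simpa using hint

end
end P309
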