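import Vale.Agent.P309.Chain
open MeasureTheory ProbabilityTheory Filter
open scoped RealInnerProductSpace ENNReal Topology
namespace P309

section
set_option linter.unusedSectionVars false
variable {d m : ℕ} {A : Type} [Fintype A] [Nonempty A] {μ : Measure (E d)} [IsProbabilityMeasure μ]

theorem real_ball_le (hd : 1 ≤ d) (hμc : ∀ j v, μ (cell d j v) ≤ ENNReal.ofReal (16 ^ d / 2 ^ (j * (d - 1))))
    (J : ℕ) (y : E d) : μ.real (Metric.closedBall y (2 / 2 ^ J)) ≤ 2 ^ (20 * d) / 2 ^ (J * (d - 1)) := by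
  have e1 := ball_le_cell hd J μ (ENNReal.ofReal (16 ^ d / 2 ^ (J * (d - 1)))) (hμc J) y
  have e2 : ((2 : ℝ≥0∞) ^ 16) ^ d * ENNReal.ofReal (16 ^ d / 2 ^ (J * (d - 1)))
      = ENNReal.ofReal (2 ^ (20 * d) / 2 ^ (J * (d - 1))) := by
    have e3 : ((2 : ℝ≥0∞) ^ 16) ^ d = ENNReal.ofReal ((2 ^ 16) ^ d) := by
      rw [ENNReal.ofReal_pow (by norm_num), ENNReal.ofReal_pow (by norm_num)]; norm_num
    rw [e3, ← ENNReal.ofReal_mul (by positivity)]
    congr 1
    have e4 : (2 : ℝ) ^ (20 * d) = (2 ^ 16) ^ d * 16 ^ d := by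
      rw [pow_mul, ← mul_pow]; norm_num
    rw [e4]; ring
  rw [e2] at e1
  exact ENNReal.toReal_le_of_le_ofReal (by positivity) e1

/-- acceptance function of an output law -/
noncomputable def acc (ρ : A → Measure (E d)) (J : ℕ) (a : A) (v : E d) : ℝ :=
  (ρ a).real (Metric.closedBall v (2 / 2 ^ J))

theorem acc_measurable (ρ : A → Measure (E d)) [∀ a, IsProbabilityMeasure (ρ a)] (J : ℕ) (a : A) :
    Measurable (acc ρ J a) := by
  have hset : MeasurableSet {q : E d × E d | dist q.2 q.1 ≤ 2 / 2 ^ J} :=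
    measurableSet_le (measurable_snd.dist measurable_fst) measurable_const
  have h1 : Measurable (fun v : E d => ρ a (Prod.mk v ⁻¹' {q : E d × E d | dist q.2 q.1 ≤ 2 / 2 ^ J})) :=
    measurable_measure_prodMk_left hset
  exact h1.ennreal_toReal

theorem acc_nonneg (ρ : A → Measure (E d)) (J : ℕ) (a : A) (v : E d) : 0 ≤ acc ρ J a v := measureReal_nonneg

theorem acc_le_one (ρ : A → Measure (E d)) [∀ a, IsProbabilityMeasure (ρ a)] (J : ℕ) (a : A) (v : E d) :
    acc ρ J a v ≤ 1 := by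
  unfold acc Measure.real
  exact ENNReal.toReal_le_of_le_ofReal (by norm_num) (by simpa using prob_le_one)

/-- cheap memory bound -/
theorem int_acc_le (hd : 1 ≤ d) (hμc : ∀ j v, μ (cell d j v) ≤ ENNReal.ofReal (16 ^ d / 2 ^ (j * (d - 1))))
    (ρ : A → Measure (E d)) [∀ a, IsProbabilityMeasure (ρ a)] (J : ℕ) (a : A) :
    ∫ v, acc ρ J a v ∂μ ≤ 2 ^ (20 * d) / 2 ^ (J * (d - 1)) := by
  have hset : MeasurableSet {q : E d × E d | dist q.2 q.1 ≤ 2 / 2 ^ J} :=
    measurableSet_le (measurable_snd.dist measurable_fst) measurable_const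
  have hF : Integrable ({q : E d × E d | dist q.2 q.1 ≤ 2 / 2 ^ J}.indicator (fun _ => (1 : ℝ))) (μ.prod (ρ a)) :=
    (integrable_const (1 : ℝ)).indicator hset
  have e1 : ∫ v, acc ρ J a v ∂μ = ∫ q, {q : E d × E d | dist q.2 q.1 ≤ 2 / 2 ^ J}.indicator (fun _ => (1 : ℝ)) q ∂(μ.prod (ρ a)) := by
    rw [integral_prod _ hF]
    refine integral_congr_ae (Eventually.of_forall (fun v => ?_))
    have h2 : (fun y : E d => {q : E d × E d | dist q.2 q.1 ≤ 2 / 2 ^ J}.indicator (fun _ => (1 : ℝ)) (v, y))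
        = (Metric.closedBall v (2 / 2 ^ J)).indicator (fun _ => (1 : ℝ)) := by
      funext y
      simp only [Set.indicator, Metric.mem_closedBall, Set.mem_ofPred_eq]
    simp only
    rw [h2, integral_indicator_const _ Metric.isClosed_closedBall.measurableSet]
    simp [acc]
  rw [e1, integral_prod_symm _ hF]
  have e3 : ∀ y : E d, ∫ v, {q : E d × E d | dist q.2 q.1 ≤ 2 / 2 ^ J}.indicator (fun _ => (1 : ℝ)) (v, y) ∂μ
      = μ.real (Metric.closedBall y (2 / 2 ^ J)) := by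
    intro y
    have h2 : (fun v : E d => {q : E d × E d | dist q.2 q.1 ≤ 2 / 2 ^ J}.indicator (fun _ => (1 : ℝ)) (v, y))
        = (Metric.closedBall y (2 / 2 ^ J)).indicator (fun _ => (1 : ℝ)) := by
      funext v
      simp only [Set.indicator, Metric.mem_closedBall, Set.mem_ofPred_eq]
      by_cases hv : dist y v ≤ 2 / 2 ^ J
      · rw [if_pos hv, if_pos (by rwa [dist_comm])]
      · rw [if_neg hv, if_neg (by rwa [dist_comm])]
    rw [h2, integral_indicator_const _ Metric.isClosed_closedBall.measurableSet]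
    simp
  simp_rw [e3]
  have hI : Integrable (fun y => μ.real (Metric.closedBall y (2 / 2 ^ J))) (ρ a) := by
    have := hF.integral_prod_right
    refine this.congr (Eventually.of_forall (fun y => ?_))
    exact e3 y
  calc ∫ y, μ.real (Metric.closedBall y (2 / 2 ^ J)) ∂(ρ a) ≤ ∫ _y : E d, (2 ^ (20 * d) / 2 ^ (J * (d - 1)) : ℝ) ∂(ρ a) :=
        integral_mono hI (integrable_const _) (fun y => real_ball_le hd hμc J y)
    _ = 2 ^ (20 * d) / 2 ^ (J * (d - 1)) := by simp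

theorem val_mem_bound (hd : 1 ≤ d) (hμc : ∀ j v, μ (cell d j v) ≤ ENNReal.ofReal (16 ^ d / 2 ^ (j * (d - 1))))
    (H : BlockRule d m A) (ρ : A → Measure (E d)) [∀ a, IsProbabilityMeasure (ρ a)] (J n : ℕ) (a : A) :
    ∫ v, val H (acc ρ J) n a v ∂μ ≤ Fintype.card A * (2 ^ (20 * d) / 2 ^ (J * (d - 1))) := by
  have h1 := fun b => int_of_bdd (μ := μ) (acc_measurable ρ J b) (acc_nonneg ρ J b) (acc_le_one ρ J b)
  have h2 : Integrable (fun v => ∑ b, acc ρ J b v) μ := integrable_finsetSum _ (fun b _ => h1 b)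
  have h3 : Integrable (val H (acc ρ J) n a) μ := int_of_bdd (val_measurable H _ (acc_measurable ρ J) n a)
    (val_nonneg H _ (acc_nonneg ρ J) n a) (val_le_one H _ (acc_le_one ρ J) n a)
  calc ∫ v, val H (acc ρ J) n a v ∂μ ≤ ∫ v, ∑ b, acc ρ J b v ∂μ :=
        integral_mono h3 h2 (fun v => val_le_sum H _ (acc_nonneg ρ J) n a v)
    _ = ∑ b, ∫ v, acc ρ J b v ∂μ := integral_finsetSum _ (fun b _ => h1 b)
    _ ≤ ∑ _b : A, (2 ^ (20 * d) / 2 ^ (J * (d - 1)) : ℝ) := Finset.sum_le_sum (fun b _ => int_acc_le hd hμc ρ J b)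
    _ = Fintype.card A * (2 ^ (20 * d) / 2 ^ (J * (d - 1))) := by simp

/-- main inequality for block chains -/
theorem chain_main (hm : 1 ≤ m) (hd : 8 * m ≤ d) (hμ : μ (Metric.closedBall 0 1)ᶜ = 0)
    (hμc : ∀ j v, μ (cell d j v) ≤ ENNReal.ofReal (16 ^ d / 2 ^ (j * (d - 1))))
    (H : BlockRule d m A) (ρ : A → Measure (E d)) [∀ a, IsProbabilityMeasure (ρ a)] (J n M : ℕ)
    (hM : (Fintype.card A : ℝ) + 1 ≤ 2 ^ M) (a : A) :
    ((4 * m - 1) * J * Real.log 2) * ∫ v, val H (acc ρ J) n a v ∂μ ≤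
      30 * d + 1 + n * ((M : ℝ) / (2 * m) + 30 * d + 3 * Real.log (((n + 1) * M + 4 * d : ℕ) + 1)) := by
  set L : ℕ := (n + 1) * M + 4 * d with hLdef
  set w₀ : ℝ := 16 ^ d / 2 ^ (3 * L) with hw₀
  have hw₀pos : 0 < w₀ := by positivity
  have hL : ∀ j, L ≤ j → ∀ v, (2 : ℝ) ^ (4 * m * j) * μ.real (cell d j v) ≤ w₀ := by
    intro j hj v
    have e1 : μ.real (cell d j v) ≤ 16 ^ d / 2 ^ (j * (d - 1)) :=
      ENNReal.toReal_le_of_le_ofReal (by positivity) (hμc j v)
    obtain ⟨s, hs⟩ : ∃ s, d - 1 = 4 * m + 3 + s := ⟨d - 1 - 4 * m - 3, by omega⟩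
    calc (2 : ℝ) ^ (4 * m * j) * μ.real (cell d j v) ≤ (2 : ℝ) ^ (4 * m * j) * (16 ^ d / 2 ^ (j * (d - 1))) := by gcongr
      _ = 16 ^ d / 2 ^ (3 * j) / 2 ^ (s * j) := by
          have e2 : (2 : ℝ) ^ (j * (d - 1)) = 2 ^ (4 * m * j) * 2 ^ (3 * j) * 2 ^ (s * j) := by
            rw [hs, ← pow_add, ← pow_add]; congr 1; ring
          rw [e2]; field_simp
      _ ≤ 16 ^ d / 2 ^ (3 * j) := div_le_self (by positivity) (one_le_pow₀ (by norm_num))
      _ ≤ w₀ := by
          rw [hw₀]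
          gcongr
          norm_num
  have hacc := acc_measurable (d := d) ρ J
  have hbase : ∀ (a : A) (u : E d → ℝ), Measurable u → (∀ v, 0 ≤ u v) → (∀ v, u v ≤ 1) →
      ((4 * m - 1) * J * Real.log 2) * ∫ v, u v * acc ρ J a v ∂μ - (30 * d) * ∫ v, u v ∂μ ≤ pot μ (4 * m) L u :=
    fun a u hu hu0 hu1 => base_lower (L := L) (J := J) hm hd hμc (ρ a) u hu hu0 hu1
  have h1 := le_tot (μ := μ) H (acc ρ J) hacc (acc_nonneg ρ J) (acc_le_one ρ J) hbase n (fun _ => 1)
    measurable_const (fun _ => zero_le_one) (fun _ => le_rfl) a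
  have h2 := tot_le (μ := μ) hm hd hμ H hw₀pos hL n (fun _ => 1) measurable_const (fun _ => zero_le_one) (fun _ => le_rfl) a
  have h3 := pot_one_nonpos (μ := μ) (4 * m) L
  have e1 : ∫ _v : E d, (1 : ℝ) ∂μ = 1 := by simp
  simp only [one_mul] at h1
  rw [e1] at h1 h2
  have hN1 : (1 : ℝ) ≤ Fintype.card A := by exact_mod_cast Fintype.card_pos
  have hlogN : Real.log (Fintype.card A) ≤ M := by
    have : Real.log (Fintype.card A) ≤ Real.log (2 ^ M) := Real.log_le_log (by linarith) (by linarith)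
    rw [Real.log_pow] at this
    have h5 := Real.log_two_lt_d9
    have h6 : (0 : ℝ) ≤ M := Nat.cast_nonneg M
    nlinarith
  have hrare : w₀ * (Real.log (Fintype.card A) + Real.log (L + 1)) * ((Fintype.card A : ℝ) + 1) ^ n ≤ 1 := by
    have b1 : Real.log (Fintype.card A) ≤ 2 ^ L := by
      have : (M : ℝ) ≤ L := by
        rw [hLdef]; push_cast
        have : (0 : ℝ) ≤ n := Nat.cast_nonneg n
        have : (0 : ℝ) ≤ M := Nat.cast_nonneg M
        have : (0 : ℝ) ≤ d := Nat.cast_nonneg d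
        nlinarith
      have h7 : (L : ℝ) < 2 ^ L := by exact_mod_cast Nat.lt_two_pow_self
      linarith
    have b2 : Real.log ((L : ℝ) + 1) ≤ 2 ^ L := by
      have h7 : (L : ℝ) < 2 ^ L := by exact_mod_cast Nat.lt_two_pow_self
      have h8 : Real.log ((L : ℝ) + 1) ≤ (L : ℝ) + 1 - 1 := Real.log_le_sub_one_of_pos (by positivity)
      linarith
    have b3 : ((Fintype.card A : ℝ) + 1) ^ n ≤ 2 ^ (M * n) := by
      rw [pow_mul]; gcongr
    have b4 : 0 ≤ Real.log (Fintype.card A) + Real.log ((L : ℝ) + 1) := by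
      have := Real.log_nonneg hN1
      have := Real.log_nonneg (show (1 : ℝ) ≤ L + 1 by have : (0 : ℝ) ≤ L := Nat.cast_nonneg L; linarith)
      linarith
    calc w₀ * (Real.log (Fintype.card A) + Real.log (L + 1)) * ((Fintype.card A : ℝ) + 1) ^ n
        ≤ w₀ * (2 ^ L + 2 ^ L) * 2 ^ (M * n) := by gcongr
      _ = 2 ^ (4 * d + M * n + 1 + L) / 2 ^ (3 * L) := by
          rw [hw₀]
          have : (16 : ℝ) ^ d = 2 ^ (4 * d) := by rw [pow_mul]; norm_num
          rw [this, pow_add, pow_add, pow_add]; ring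
      _ ≤ 1 := by
          rw [div_le_one (by positivity)]
          apply pow_le_pow_right₀ (by norm_num)
          have : M * n ≤ (n + 1) * M := by nlinarith
          omega
  have hm0 : (0 : ℝ) < 2 * m := by
    have : (1 : ℝ) ≤ m := by exact_mod_cast hm
    linarith
  have hdiv : Real.log (Fintype.card A) / (2 * m) ≤ (M : ℝ) / (2 * m) := by gcongr
  have hn0 : (0 : ℝ) ≤ n := Nat.cast_nonneg n
  have hmul : (n : ℝ) * (1 * (Real.log (Fintype.card A) / (2 * m) + 30 * d + 3 * Real.log (L + 1)))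
      ≤ n * ((M : ℝ) / (2 * m) + 30 * d + 3 * Real.log (L + 1)) := by
    rw [one_mul]; gcongr
  linarith

end
end P309
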