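import Vale.Agent.P309.ChainMain
open MeasureTheory ProbabilityTheory Filter
open scoped RealInnerProductSpace ENNReal Topology
namespace P309

theorem num_log {d x n M J : ℝ} (hdR : 16 ≤ d) (hx0 : 0 ≤ x) (hMx : M = d ^ 2 * x)
    (hnJR : n ≤ J) (hn0 : 0 ≤ n) (hJ1 : J ≤ 1.07 * d * x + 23) :
    Real.log (((n + 1) * M + 4 * d) + 1) ≤ 4 * d * (1 + x) := by
  have hd0 : (0 : ℝ) < d := by linarith
  have e1 : (((n + 1) * M + 4 * d) + 1) ≤ 30 * (d ^ 3 * (1 + x) ^ 2) := by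
    rw [hMx]
    have e2 : (n + 1) * (d ^ 2 * x) ≤ (1.07 * d * x + 24) * (d ^ 2 * x) :=
      mul_le_mul_of_nonneg_right (by linarith) (by positivity)
    have e3 : (1.07 * d * x + 24) ≤ 24 * d * (1 + x) := by nlinarith [mul_nonneg hd0.le hx0]
    have e4 : (1.07 * d * x + 24) * (d ^ 2 * x) ≤ (24 * d * (1 + x)) * (d ^ 2 * (1 + x)) := by
      gcongr; linarith
    have e5 : (24 * d * (1 + x)) * (d ^ 2 * (1 + x)) = 24 * (d ^ 3 * (1 + x) ^ 2) := by ring
    have e6 : 4 * d + 1 ≤ 6 * (d ^ 3 * (1 + x) ^ 2) := by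
      have f1 : (1 : ℝ) ≤ (1 + x) ^ 2 := one_le_pow₀ (by linarith)
      have f2 : d ≤ d ^ 3 := by
        have : (1 : ℝ) ≤ d ^ 2 := one_le_pow₀ (by linarith)
        nlinarith
      have f3 : d * 1 ≤ d ^ 3 * (1 + x) ^ 2 := by gcongr
      linarith
    linarith
  have hpos : (0 : ℝ) < ((n + 1) * M + 4 * d) + 1 := by rw [hMx]; positivity
  have e7 := Real.log_le_log hpos e1
  have h1x : (0 : ℝ) < 1 + x := by linarith
  rw [Real.log_mul (by norm_num) (by positivity), Real.log_mul (by positivity) (by positivity), Real.log_pow, Real.log_pow] at e7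
  have e8 : Real.log 30 ≤ 3.5 := by
    have h1 : Real.log 30 ≤ Real.log (2 ^ 5) := Real.log_le_log (by norm_num) (by norm_num)
    rw [Real.log_pow] at h1
    have h2 := Real.log_two_lt_d9
    push_cast at h1
    linarith
  have e9 : Real.log d ≤ d - 1 := Real.log_le_sub_one_of_pos hd0
  have e10 : Real.log (1 + x) ≤ x := by
    have := Real.log_le_sub_one_of_pos h1x
    linarith
  push_cast at e7
  have e11 : 2 * x ≤ 4 * d * x := by nlinarith
  have e12 : 4 * d * (1 + x) = 4 * d + 4 * d * x := by ring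
  rw [e12]
  linarith

theorem num_core (d m M J n : ℕ) (hd16 : 16 ≤ d) (hm2 : 2 ≤ m) (hd8 : d ≤ 8 * m + 7)
    (hA : J * (d - 1) ≤ M + 20 * d + 1) (I : ℝ) (hI : (2 : ℝ) / 3 ≤ I)
    (hmain : ((4 * m - 1) * J * Real.log 2) * I ≤
      30 * d + 1 + n * ((M : ℝ) / (2 * m) + 30 * d + 3 * Real.log (((n + 1) * M + 4 * d : ℕ) + 1))) :
    (J : ℝ) ≤ 400 + 700 * (n * (1 + M / d ^ 2)) := by
  have hdR : (16 : ℝ) ≤ d := by exact_mod_cast hd16
  have hd0 : (0 : ℝ) < d := by linarith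
  set x : ℝ := (M : ℝ) / d ^ 2 with hx
  have hx0 : 0 ≤ x := by positivity
  have hMx : (M : ℝ) = d ^ 2 * x := by rw [hx]; field_simp
  have hJA : (J : ℝ) * (d - 1) ≤ M + 20 * d + 1 := by
    have : ((J * (d - 1) : ℕ) : ℝ) ≤ ((M + 20 * d + 1 : ℕ) : ℝ) := by exact_mod_cast hA
    rw [Nat.cast_mul, Nat.cast_sub (by omega)] at this
    push_cast at this
    exact this
  have hn0 : (0 : ℝ) ≤ n := Nat.cast_nonneg n
  have hJ0 : (0 : ℝ) ≤ J := Nat.cast_nonneg J
  by_cases hnJ : n ≤ J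
  · have hJ1 : (J : ℝ) ≤ 1.07 * d * x + 23 := by
      have h1 : (J : ℝ) * (15 / 16 * d) ≤ d * (d * x + 21) := by nlinarith
      have h2 : (J : ℝ) * (15 / 16) ≤ d * x + 21 := by
        have : (J : ℝ) * (15 / 16) * d ≤ (d * x + 21) * d := by linarith
        exact le_of_mul_le_mul_right this hd0
      nlinarith
    have hmR : (2 : ℝ) ≤ m := by exact_mod_cast hm2
    have hmd : (d : ℝ) ≤ 11.5 * m := by
      have : (d : ℝ) ≤ 8 * m + 7 := by exact_mod_cast hd8
      linarith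
    have hdx : 0 ≤ (d : ℝ) * x := by positivity
    have c1 : (M : ℝ) / (2 * m) ≤ 5.75 * d * x := by
      rw [div_le_iff₀ (by linarith), hMx]
      nlinarith
    have c2 : Real.log (((n + 1) * M + 4 * d : ℕ) + 1) ≤ 4 * d * (1 + x) := by
      push_cast
      exact num_log hdR hx0 hMx (by exact_mod_cast hnJ) hn0 hJ1
    have c3 : (M : ℝ) / (2 * m) + 30 * d + 3 * Real.log (((n + 1) * M + 4 * d : ℕ) + 1) ≤ 48 * d * (1 + x) := by
      have e12 : 4 * (d : ℝ) * (1 + x) = 4 * d + 4 * d * x := by ring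
      have e13 : 48 * (d : ℝ) * (1 + x) = 48 * d + 48 * d * x := by ring
      rw [e12] at c2
      rw [e13]
      linarith
    have hlog := Real.log_two_gt_d9
    have c4 : 0.14 * d * J ≤ ((4 * m - 1) * J * Real.log 2) * I := by
      have g1 : 0.304 * (d : ℝ) ≤ 4 * m - 1 := by linarith
      have p1 : 0 ≤ 4 * (m : ℝ) - 1 := by linarith
      have g2 : 0.304 * d * J * 0.693 ≤ (4 * m - 1) * J * Real.log 2 :=
        mul_le_mul (mul_le_mul_of_nonneg_right g1 hJ0) (show (0.693 : ℝ) ≤ Real.log 2 by linarith)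
          (by norm_num) (mul_nonneg p1 hJ0)
      have g3 : 0 ≤ (4 * (m : ℝ) - 1) * J * Real.log 2 := by positivity
      have g4 : ((4 * (m : ℝ) - 1) * J * Real.log 2) * (2 / 3) ≤ ((4 * m - 1) * J * Real.log 2) * I := by
        gcongr
      have g5 : 0 ≤ (d : ℝ) * J := by positivity
      nlinarith
    have c5 : 0.14 * d * J ≤ 31 * d + n * (48 * d * (1 + x)) := by
      have : (n : ℝ) * ((M : ℝ) / (2 * m) + 30 * d + 3 * Real.log (((n + 1) * M + 4 * d : ℕ) + 1)) ≤ n * (48 * d * (1 + x)) := by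
        gcongr
      linarith
    have c6 : 0.14 * (J : ℝ) ≤ 31 + n * (48 * (1 + x)) := by
      have : 0.14 * (J : ℝ) * d ≤ (31 + n * (48 * (1 + x))) * d := by linarith
      exact le_of_mul_le_mul_right this hd0
    have c7 : 0 ≤ (n : ℝ) * (1 + x) := by positivity
    linarith
  · have : (J : ℝ) ≤ n := by exact_mod_cast (not_le.1 hnJ).le
    have c7 : 0 ≤ (n : ℝ) * x := by positivity
    nlinarith

/-- numerical form of the block chain bound -/
theorem chain_num {d m : ℕ} {A : Type} [Fintype A] [Nonempty A] {μ : Measure (E d)} [IsProbabilityMeasure μ]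
    (hd16 : 16 ≤ d) (hm : m = d / 8) (hμ : μ (Metric.closedBall 0 1)ᶜ = 0)
    (hμc : ∀ j v, μ (cell d j v) ≤ ENNReal.ofReal (16 ^ d / 2 ^ (j * (d - 1))))
    (H : BlockRule d m A) (ρ : A → Measure (E d)) [∀ a, IsProbabilityMeasure (ρ a)] (J n M : ℕ)
    (hM : (Fintype.card A : ℝ) + 1 ≤ 2 ^ M) (a : A)
    (hs : (2 : ℝ) / 3 ≤ ∫ v, val H (acc ρ J) n a v ∂μ) :
    J * (d - 1) ≤ M + 20 * d + 1 ∧ (J : ℝ) ≤ 400 + 700 * (n * (1 + M / d ^ 2)) := by
  have hm2 : 2 ≤ m := by omega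
  have h8 : 8 * m ≤ d := by omega
  have hd8 : d ≤ 8 * m + 7 := by omega
  have hA : J * (d - 1) ≤ M + 20 * d + 1 := by
    have h1 := val_mem_bound (μ := μ) (by omega) hμc H ρ J n a
    have h2 : (2 : ℝ) / 3 ≤ Fintype.card A * (2 ^ (20 * d) / 2 ^ (J * (d - 1))) := le_trans hs h1
    have h3 : (2 : ℝ) ^ (J * (d - 1)) ≤ 2 ^ (M + 20 * d + 1) := by
      have h4 : (Fintype.card A : ℝ) ≤ 2 ^ M := by linarith
      have h5 : (2 : ℝ) / 3 ≤ 2 ^ M * (2 ^ (20 * d) / 2 ^ (J * (d - 1))) := le_trans h2 (by gcongr)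
      rw [mul_div_assoc', le_div_iff₀ (by positivity)] at h5
      rw [pow_add, pow_add, pow_one]
      have h6 : (0 : ℝ) < 2 ^ M * 2 ^ (20 * d) := by positivity
      linarith
    exact (pow_le_pow_iff_right₀ (by norm_num : (1 : ℝ) < 2)).1 h3
  exact ⟨hA, num_core d m M J n hd16 hm2 hd8 hA _ hs (chain_main (μ := μ) (by omega) h8 hμ hμc H ρ J n M hM a)⟩

end P309
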