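import Mathlib

/-!
Shared definitions for P309.
-/

open MeasureTheory ProbabilityTheory
open scoped RealInnerProductSpace ENNReal

namespace P309

/-- The Euclidean space `ℝ^d`. -/
abbrev E (d : ℕ) : Type := EuclideanSpace ℝ (Fin d)

/-- The law of a block of `k` independent standard Gaussian rows. -/
noncomputable abbrev rows (d k : ℕ) : Measure (Fin k → E d) :=
  Measure.pi (fun _ : Fin k => stdGaussian (E d))

/-- Index of the dyadic cell of level `j` containing `v` (side `2^{-j}/√d`);
level `0` is the trivial partition. -/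
noncomputable def cube (d j : ℕ) (v : E d) : Fin d → ℤ :=
  if j = 0 then 0 else fun i => ⌊Real.sqrt d * 2 ^ j * v i⌋

/-- The dyadic cell of level `j` containing `v`. -/
def cell (d j : ℕ) (v : E d) : Set (E d) := {v' | cube d j v' = cube d j v}

/-- The channel induced by a block rule `h`: read the block `X` of rows together with
the exact labels of `v`, and average over `X`. -/
noncomputable def chan {d k : ℕ} (h : (Fin k → E d) → (Fin k → ℝ) → ℝ) (v : E d) : ℝ :=
  ∫ X, h X (fun i => ⟪X i, v⟫) ∂(rows d k)

/-- Mutual information of the channel `g` under the input law `p`. -/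
noncomputable def info {d : ℕ} {A : Type} [Fintype A] (p : Measure (E d)) (g : A → E d → ℝ) : ℝ :=
  ∑ a, ∫ v, g a v * Real.log (g a v / ∫ v', g a v' ∂p) ∂p

/-- Frostman condition: `p` lives on a set of diameter at most `R` and
the balls of radius `R/2^i` have mass at most `D/2^(K i)`. -/
structure Frostman {d : ℕ} (p : Measure (E d)) (S : Set (E d)) (R D : ℝ) (K : ℕ) : Prop where
  meas : MeasurableSet S
  null : p Sᶜ = 0
  Rpos : 0 < R
  diam : ∀ x ∈ S, ∀ y ∈ S, dist x y ≤ R
  one_le : 1 ≤ D
  ball : ∀ (x : E d) (i : ℕ), p (Metric.closedBall x (R / 2 ^ i)) ≤ ENNReal.ofReal (D / 2 ^ (K * i))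

/-- The multiscale mass of the weight `u` around `v`. -/
noncomputable def msum {d : ℕ} (μ : Measure (E d)) (K L : ℕ) (u : E d → ℝ) (v : E d) : ℝ :=
  ∑ j ∈ Finset.range (L + 1), (2 : ℝ) ^ (K * j) * ∫ v' in cell d j v, u v' ∂μ

/-- The potential of the weight `u`. -/
noncomputable def pot {d : ℕ} (μ : Measure (E d)) (K L : ℕ) (u : E d → ℝ) : ℝ :=
  ∫ v, u v * Real.log (u v / msum μ K L u v) ∂μ

end P309
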