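import Vale.Agent.P309.Cells
open MeasureTheory ProbabilityTheory
open scoped RealInnerProductSpace ENNReal
namespace P309

theorem exp_neg_le_half {η : ℝ} (h0 : 0 < η) (h1 : η ≤ 1) : Real.exp (-η) ≤ 1 - η / 2 := by
  have h2 : Real.exp (-η) = (Real.exp η)⁻¹ := Real.exp_neg η
  have h3 : 1 + η ≤ Real.exp η := by linarith [Real.add_one_le_exp η]
  rw [h2]
  calc (Real.exp η)⁻¹ ≤ (1 + η)⁻¹ := inv_anti₀ (by linarith) h3
    _ ≤ 1 - η / 2 := by
        rw [inv_le_iff_one_le_mul₀ (by linarith)]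
        nlinarith

theorem laplace_nat {η : ℝ} (h0 : 0 < η) (h1 : η ≤ 1) :
    ∑' n : ℕ, ENNReal.ofReal (η / 4 * Real.exp (-η * n)) ≤ ENNReal.ofReal (1 / 2) := by
  have he : Real.exp (-η) < 1 := by rw [Real.exp_lt_one_iff]; linarith
  have hs : HasSum (fun n : ℕ => η / 4 * Real.exp (-η * n)) (η / 4 * (1 - Real.exp (-η))⁻¹) := by
    have h5 := (hasSum_geometric_of_lt_one (Real.exp_pos (-η)).le he).mul_left (η / 4)
    have h6 : (fun n : ℕ => η / 4 * Real.exp (-η * n)) = fun n : ℕ => η / 4 * Real.exp (-η) ^ n := by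
      funext n
      rw [← Real.exp_nat_mul, mul_comm (n : ℝ) (-η)]
    rw [h6]; exact h5
  rw [← ENNReal.ofReal_tsum_of_nonneg (fun n => by positivity) hs.summable, hs.tsum_eq]
  apply ENNReal.ofReal_le_ofReal
  have h2 := exp_neg_le_half h0 h1
  have h3 : (1 - Real.exp (-η))⁻¹ ≤ (η / 2)⁻¹ := inv_anti₀ (by linarith) (by linarith)
  calc η / 4 * (1 - Real.exp (-η))⁻¹ ≤ η / 4 * (η / 2)⁻¹ := by gcongr
    _ = 1 / 2 := by field_simp; norm_num

theorem laplace_int {η : ℝ} (h0 : 0 < η) (h1 : η ≤ 1) (n0 : ℤ) :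
    ∑' n : ℤ, ENNReal.ofReal (η / 4 * Real.exp (-η * |((n - n0 : ℤ) : ℝ)|)) ≤ 1 := by
  have hshift : ∑' n : ℤ, ENNReal.ofReal (η / 4 * Real.exp (-η * |((n - n0 : ℤ) : ℝ)|))
      = ∑' n : ℤ, ENNReal.ofReal (η / 4 * Real.exp (-η * |(n : ℝ)|)) :=
    (Equiv.subRight n0).tsum_eq (fun n : ℤ => ENNReal.ofReal (η / 4 * Real.exp (-η * |(n : ℝ)|)))
  rw [hshift]
  set f : ℤ → ℝ≥0∞ := fun n => ENNReal.ofReal (η / 4 * Real.exp (-η * |(n : ℝ)|)) with hf
  have hA : ∑' n : ℕ, f n ≤ ENNReal.ofReal (1 / 2) := by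
    refine le_trans (le_of_eq ?_) (laplace_nat h0 h1)
    refine tsum_congr (fun n => ?_)
    simp only [hf]
    rw [show ((n : ℤ) : ℝ) = (n : ℝ) by norm_cast, abs_of_nonneg (by positivity)]
  have hB : ∑' n : ℕ, f (-(n + 1 : ℤ)) ≤ ENNReal.ofReal (1 / 2) := by
    refine le_trans (ENNReal.tsum_le_tsum (fun n => ?_)) (laplace_nat h0 h1)
    simp only [hf]
    apply ENNReal.ofReal_le_ofReal
    have : |((-(n + 1 : ℤ) : ℤ) : ℝ)| = (n : ℝ) + 1 := by
      push_cast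
      rw [abs_neg, abs_of_nonneg (by positivity)]
    rw [this]
    gcongr ?_ * ?_
    apply Real.exp_le_exp.2
    nlinarith
  have hsum : HasSum f (∑' n : ℕ, f n + ∑' n : ℕ, f (-(n + 1 : ℤ))) :=
    HasSum.of_nat_of_neg_add_one ENNReal.summable.hasSum ENNReal.summable.hasSum
  rw [hsum.tsum_eq]
  calc _ ≤ ENNReal.ofReal (1 / 2) + ENNReal.ofReal (1 / 2) := add_le_add hA hB
    _ = 1 := by rw [← ENNReal.ofReal_add (by norm_num) (by norm_num)]; norm_num

/-- product reference has total mass at most one -/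
theorem laplace_pi {η : ℝ} (h0 : 0 < η) (h1 : η ≤ 1) {m : ℕ} (c0 : Fin m → ℤ) :
    ∑' c : Fin m → ℤ, ∏ i, ENNReal.ofReal (η / 4 * Real.exp (-η * |((c i - c0 i : ℤ) : ℝ)|)) ≤ 1 := by
  let κ : Fin m → Measure ℤ := fun i =>
    Measure.count.withDensity (fun n => ENNReal.ofReal (η / 4 * Real.exp (-η * |((n - c0 i : ℤ) : ℝ)|)))
  have hκs : ∀ i n, κ i {n} = ENNReal.ofReal (η / 4 * Real.exp (-η * |((n - c0 i : ℤ) : ℝ)|)) := by
    intro i n
    simp only [κ]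
    rw [withDensity_apply _ (measurableSet_singleton n), lintegral_singleton]
    simp
  have hκu : ∀ i, κ i Set.univ ≤ 1 := by
    intro i
    simp only [κ]
    rw [withDensity_apply _ MeasurableSet.univ, Measure.restrict_univ, lintegral_count]
    exact laplace_int h0 h1 (c0 i)
  have : ∀ i, IsFiniteMeasure (κ i) := fun i => ⟨lt_of_le_of_lt (hκu i) ENNReal.one_lt_top⟩
  have h2 : ∀ c : Fin m → ℤ, ∏ i, ENNReal.ofReal (η / 4 * Real.exp (-η * |((c i - c0 i : ℤ) : ℝ)|))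
      = (Measure.pi κ) {c} := by
    intro c
    rw [Measure.pi_singleton]
    exact Finset.prod_congr rfl (fun i _ => (hκs i (c i)).symm)
  simp_rw [h2]
  have h3 : ∑' c : Fin m → ℤ, (Measure.pi κ) {c} = ∫⁻ _, 1 ∂(Measure.pi κ) := by
    rw [lintegral_countable']; simp
  rw [h3, lintegral_one, Measure.pi_univ]
  exact Finset.prod_le_one' (fun i _ => hκu i)

end P309
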