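import Vale.Agent.P309.Cells
import Vale.Agent.P309.Laplace
open MeasureTheory ProbabilityTheory
open scoped RealInnerProductSpace ENNReal
namespace P309

theorem gauss_sq {d : ℕ} (u : E d) :
    Integrable (fun x : E d => ⟪x, u⟫ ^ 2) (stdGaussian (E d)) ∧
      ∫ x, ⟪x, u⟫ ^ 2 ∂(stdGaussian (E d)) = ‖u‖ ^ 2 := by
  have hL : ∀ x : E d, (innerSL ℝ u : StrongDual ℝ (E d)) x = ⟪x, u⟫ := by
    intro x; rw [innerSL_apply_apply, real_inner_comm]
  have hmem : MemLp (fun x : E d => ⟪x, u⟫) 2 (stdGaussian (E d)) := by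
    have := IsGaussian.memLp_dual (stdGaussian (E d)) (innerSL ℝ u : StrongDual ℝ (E d)) 2 (by simp)
    refine this.congr_norm ?_ ?_
    · exact (by fun_prop : Measurable (fun x : E d => ⟪x, u⟫)).aestronglyMeasurable
    · exact Filter.Eventually.of_forall (fun x => by rw [hL])
  refine ⟨hmem.integrable_sq, ?_⟩
  have hv := variance_dual_stdGaussian (innerSL ℝ u : StrongDual ℝ (E d))
  rw [variance_eq_sub] at hv
  · have h0 : ∫ x, (innerSL ℝ u : StrongDual ℝ (E d)) x ∂(stdGaussian (E d)) = 0 :=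
      integral_strongDual_stdGaussian _
    rw [h0] at hv
    have h1 : ‖(innerSL ℝ u : StrongDual ℝ (E d))‖ = ‖u‖ := innerSL_apply_norm (𝕜 := ℝ) u
    rw [h1] at hv
    rw [← hv]
    simp only [Pi.pow_apply]
    rw [zero_pow (by norm_num), sub_zero]
    exact integral_congr_ae (Filter.Eventually.of_forall (fun x => by simp only [hL]))
  · exact IsGaussian.memLp_dual (stdGaussian (E d)) _ 2 (by simp)

theorem gauss_sq_rows {d m : ℕ} (i : Fin m) (u : E d) :
    ∫⁻ X, ENNReal.ofReal (⟪X i, u⟫ ^ 2) ∂(rows d m) = ENNReal.ofReal (‖u‖ ^ 2) := by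
  have hmp := measurePreserving_eval (fun _ : Fin m => stdGaussian (E d)) i
  have hme : Measurable (fun x : E d => ENNReal.ofReal (⟪x, u⟫ ^ 2)) := by fun_prop
  have h1 := hmp.lintegral_comp hme
  have h2 := gauss_sq u
  rw [← h2.2, ofReal_integral_eq_lintegral_ofReal h2.1 (Filter.Eventually.of_forall (fun x => sq_nonneg _))]
  exact h1

theorem sq_prod {d m : ℕ} {p : Measure (E d)} [IsProbabilityMeasure p] {S : Set (E d)} {R : ℝ}
    (hpS : p Sᶜ = 0) (hdiam : ∀ x ∈ S, ∀ y ∈ S, dist x y ≤ R)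
    (s₀ : E d) (hs₀ : s₀ ∈ S) (i : Fin m) :
    Integrable (fun q : (Fin m → E d) × E d => ⟪q.1 i, q.2 - s₀⟫ ^ 2) ((rows d m).prod p) ∧
      ∫ q, ⟪q.1 i, q.2 - s₀⟫ ^ 2 ∂((rows d m).prod p) ≤ R ^ 2 := by
  have hR0 : 0 ≤ R := by simpa using hdiam s₀ hs₀ s₀ hs₀
  have hmeas : Measurable (fun q : (Fin m → E d) × E d => ⟪q.1 i, q.2 - s₀⟫ ^ 2) := by
    have h1 : Measurable (fun q : (Fin m → E d) × E d => q.1 i) := (measurable_pi_apply i).comp measurable_fst
    have h2 : Measurable (fun q : (Fin m → E d) × E d => q.2 - s₀) := measurable_snd.sub_const s₀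
    exact (Measurable.inner h1 h2).pow_const 2
  have hb : ∫⁻ q, ENNReal.ofReal (⟪q.1 i, q.2 - s₀⟫ ^ 2) ∂((rows d m).prod p) ≤ ENNReal.ofReal (R ^ 2) := by
    rw [lintegral_prod_symm _ hmeas.ennreal_ofReal.aemeasurable]
    have : ∀ᵐ v ∂p, ∫⁻ X, ENNReal.ofReal (⟪X i, v - s₀⟫ ^ 2) ∂(rows d m) ≤ ENNReal.ofReal (R ^ 2) := by
      have hS' : ∀ᵐ v ∂p, v ∈ S := by
        rw [ae_iff]; exact hpS
      filter_upwards [hS'] with v hv
      rw [gauss_sq_rows i (v - s₀)]
      apply ENNReal.ofReal_le_ofReal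
      have : ‖v - s₀‖ ≤ R := by rw [← dist_eq_norm]; exact hdiam v hv s₀ hs₀
      gcongr
    calc ∫⁻ v, ∫⁻ X, ENNReal.ofReal (⟪X i, v - s₀⟫ ^ 2) ∂(rows d m) ∂p
        ≤ ∫⁻ _, ENNReal.ofReal (R ^ 2) ∂p := lintegral_mono_ae this
      _ = ENNReal.ofReal (R ^ 2) := by simp
  have hnn : 0 ≤ᵐ[(rows d m).prod p] (fun q : (Fin m → E d) × E d => ⟪q.1 i, q.2 - s₀⟫ ^ 2) :=
    Filter.Eventually.of_forall (fun q => sq_nonneg _)
  refine ⟨⟨hmeas.aestronglyMeasurable, ?_⟩, ?_⟩
  · rw [hasFiniteIntegral_iff_ofReal hnn]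
    exact lt_of_le_of_lt hb ENNReal.ofReal_lt_top
  · rw [integral_eq_lintegral_of_nonneg_ae hnn hmeas.aestronglyMeasurable]
    exact ENNReal.toReal_le_of_le_ofReal (by positivity) hb

theorem floor_diff_le {a b δ : ℝ} (hδ : 0 < δ) :
    |((⌊a / δ⌋ - ⌊b / δ⌋ : ℤ) : ℝ)| ≤ |a - b| / δ + 1 := by
  push_cast
  have h1 := Int.floor_le (a / δ)
  have h2 := Int.lt_floor_add_one (a / δ)
  have h3 := Int.floor_le (b / δ)
  have h4 := Int.lt_floor_add_one (b / δ)
  have h5 : a / δ - b / δ = (a - b) / δ := by ring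
  have h6 : |(a - b) / δ| = |a - b| / δ := by rw [abs_div, abs_of_pos hδ]
  have h7 := abs_le.1 (le_of_eq h6)
  rw [abs_le]
  constructor <;> linarith [h7.1, h7.2]

theorem entropy_bound {d m : ℕ} {p : Measure (E d)} [IsProbabilityMeasure p] {S : Set (E d)} {R δ : ℝ}
    (hpS : p Sᶜ = 0) (hdiam : ∀ x ∈ S, ∀ y ∈ S, dist x y ≤ R) (hδ : 0 < δ) (hδR : δ ≤ R) :
    Integrable (fun q : (Fin m → E d) × E d => Real.log (mass p δ q.1 q.2).toReal) ((rows d m).prod p) ∧
      -∫ q, Real.log (mass p δ q.1 q.2).toReal ∂((rows d m).prod p) ≤ m * (Real.log (R / δ) + 4) := by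
  have hR : 0 < R := lt_of_lt_of_le hδ hδR
  have hSne : S.Nonempty := by
    by_contra h
    rw [Set.not_nonempty_iff_eq_empty] at h
    rw [h, Set.compl_empty, measure_univ] at hpS
    exact one_ne_zero hpS
  obtain ⟨s₀, hs₀⟩ := hSne
  set η := δ / R with hη
  have hη0 : 0 < η := by positivity
  have hη1 : η ≤ 1 := (div_le_one hR).2 hδR
  set w : ℤ → ℤ → ℝ := fun a b => η / 4 * Real.exp (-η * |((a - b : ℤ) : ℝ)|) with hw
  have hwpos : ∀ a b, 0 < w a b := fun a b => by simp only [hw]; positivity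
  set Q : (Fin m → E d) × E d → ℝ≥0∞ := fun q => ∏ i, ENNReal.ofReal (w (lab δ q.1 q.2 i) (lab δ q.1 s₀ i)) with hQ
  have hQm : Measurable Q := by
    simp only [hQ]
    refine Finset.measurable_prod _ (fun i _ => ?_)
    refine ENNReal.measurable_ofReal.comp ?_
    have h1 : Measurable (fun q : (Fin m → E d) × E d => lab δ q.1 q.2 i) :=
      (measurable_pi_apply i).comp (measurable_lab δ measurable_fst measurable_snd)
    have h2 : Measurable (fun q : (Fin m → E d) × E d => lab δ q.1 s₀ i) :=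
      (measurable_pi_apply i).comp (measurable_lab δ measurable_fst measurable_const)
    have h3 : Measurable (fun ab : ℤ × ℤ => w ab.1 ab.2) := measurable_of_countable _
    have h4 := Measurable.comp (g := fun ab : ℤ × ℤ => w ab.1 ab.2)
      (f := fun q : (Fin m → E d) × E d => ((lab δ q.1 q.2 i : ℤ), (lab δ q.1 s₀ i : ℤ))) h3 (h1.prodMk h2)
    exact h4
  have hMm : Measurable (fun q : (Fin m → E d) × E d => mass p δ q.1 q.2) := measurable_mass p δ
  have hQint : ∫⁻ q, Q q / mass p δ q.1 q.2 ∂((rows d m).prod p) ≤ 1 := by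
    have hdivm : Measurable (fun q : (Fin m → E d) × E d => Q q / mass p δ q.1 q.2) := hQm.div hMm
    rw [lintegral_prod (fun q : (Fin m → E d) × E d => Q q / mass p δ q.1 q.2) hdivm.aemeasurable]
    calc ∫⁻ X, ∫⁻ v, Q (X, v) / mass p δ X v ∂p ∂(rows d m)
        ≤ ∫⁻ _, 1 ∂(rows d m) := by
          refine lintegral_mono (fun X => ?_)
          refine le_trans (lintegral_ref p δ X (fun c => ∏ i, ENNReal.ofReal (w (c i) (lab δ X s₀ i)))) ?_
          exact laplace_pi hη0 hη1 (lab δ X s₀)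
      _ = 1 := by simp
  set f1 : (Fin m → E d) × E d → ℝ := fun q => (Q q / mass p δ q.1 q.2).toReal with hf1
  have hf1m : Measurable f1 := (hQm.div hMm).ennreal_toReal
  have hf1i : Integrable f1 ((rows d m).prod p) :=
    integrable_toReal_of_lintegral_ne_top (hQm.div hMm).aemeasurable (ne_top_of_le_ne_top ENNReal.one_ne_top hQint)
  have hf1le : ∫ q, f1 q ∂((rows d m).prod p) ≤ 1 := by
    have hdivm : Measurable (fun q : (Fin m → E d) × E d => Q q / mass p δ q.1 q.2) := hQm.div hMm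
    have h7 := integral_toReal hdivm.aemeasurable (ae_lt_top hdivm (ne_top_of_le_ne_top ENNReal.one_ne_top hQint))
    simp only [hf1]
    rw [h7]
    exact ENNReal.toReal_le_of_le_ofReal (by norm_num) (by simpa using hQint)
  set B : (Fin m → E d) × E d → ℝ := fun q => ∑ i : Fin m, ((Real.log (4 / η) + η + 1 / 2) + ⟪q.1 i, q.2 - s₀⟫ ^ 2 * (1 / (2 * R ^ 2))) with hB
  have hBsum : ∀ i : Fin m, Integrable (fun q : (Fin m → E d) × E d => ((Real.log (4 / η) + η + 1 / 2) + ⟪q.1 i, q.2 - s₀⟫ ^ 2 * (1 / (2 * R ^ 2)))) ((rows d m).prod p) :=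
    fun i => (integrable_const _).add ((sq_prod hpS hdiam s₀ hs₀ i).1.mul_const _)
  have hBi : Integrable B ((rows d m).prod p) := by
    exact integrable_finsetSum _ (fun i _ => hBsum i)
  have hBle : ∫ q, B q ∂((rows d m).prod p) ≤ m * (Real.log (R / δ) + 4) := by
    simp only [hB]
    rw [integral_finsetSum _ (fun i _ => hBsum i)]
    have : ∀ i : Fin m, ∫ q : (Fin m → E d) × E d, ((Real.log (4 / η) + η + 1 / 2) + ⟪q.1 i, q.2 - s₀⟫ ^ 2 * (1 / (2 * R ^ 2))) ∂((rows d m).prod p)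
        ≤ Real.log (R / δ) + 4 := by
      intro i
      rw [integral_add (integrable_const _) ((sq_prod hpS hdiam s₀ hs₀ i).1.mul_const _), integral_mul_const, integral_const]
      have h1 := (sq_prod (m := m) hpS hdiam s₀ hs₀ i).2
      have h2 : (∫ q : (Fin m → E d) × E d, ⟪q.1 i, q.2 - s₀⟫ ^ 2 ∂((rows d m).prod p)) * (1 / (2 * R ^ 2)) ≤ R ^ 2 * (1 / (2 * R ^ 2)) := by
        gcongr
      have h3 : R ^ 2 * (1 / (2 * R ^ 2)) = 1 / 2 := by field_simp
      have h4 : Real.log (4 / η) = Real.log 4 + Real.log (R / δ) := by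
        rw [← Real.log_mul (by norm_num) (by positivity)]
        congr 1
        rw [hη]; field_simp
      have h5 : Real.log 4 ≤ 2 := by
        have : Real.log 4 = 2 * Real.log 2 := by
          rw [show (4 : ℝ) = 2 ^ 2 by norm_num, Real.log_pow]; norm_num
        rw [this]; linarith [Real.log_two_lt_d9]
      have h8 : ((rows d m).prod p).real Set.univ = 1 := by simp [Measure.real]
      rw [h8, one_smul, h4]
      linarith
    calc ∑ i : Fin m, ∫ q : (Fin m → E d) × E d, ((Real.log (4 / η) + η + 1 / 2) + ⟪q.1 i, q.2 - s₀⟫ ^ 2 * (1 / (2 * R ^ 2))) ∂((rows d m).prod p)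
        ≤ ∑ i : Fin m, (Real.log (R / δ) + 4) := Finset.sum_le_sum (fun i _ => this i)
      _ = m * (Real.log (R / δ) + 4) := by simp [mul_add]
  have hne : ∀ᵐ q ∂((rows d m).prod p), mass p δ q.1 q.2 ≠ 0 := by
    have hs : MeasurableSet {q : (Fin m → E d) × E d | mass p δ q.1 q.2 ≠ 0} :=
      (measurableSet_eq_fun hMm measurable_const).compl
    rw [Measure.ae_prod_iff_ae_ae hs]
    exact Filter.Eventually.of_forall (fun X => mass_pos_ae p δ X)
  have hpt : ∀ᵐ q ∂((rows d m).prod p), -Real.log (mass p δ q.1 q.2).toReal ≤ f1 q + B q - 1 := by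
    filter_upwards [hne] with q hq
    have hlt : mass p δ q.1 q.2 ≠ ⊤ := ne_top_of_le_ne_top ENNReal.one_ne_top (mass_le_one p δ q.1 q.2)
    set M := (mass p δ q.1 q.2).toReal with hM
    have hMpos : 0 < M := ENNReal.toReal_pos hq hlt
    have hQr : (Q q).toReal = ∏ i, w (lab δ q.1 q.2 i) (lab δ q.1 s₀ i) := by
      simp only [hQ]
      rw [ENNReal.toReal_prod]
      exact Finset.prod_congr rfl (fun i _ => ENNReal.toReal_ofReal (hwpos _ _).le)
    have hQpos : 0 < (Q q).toReal := by rw [hQr]; exact Finset.prod_pos (fun i _ => hwpos _ _)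
    have hf1q : f1 q = (Q q).toReal / M := by simp only [hf1]; rw [ENNReal.toReal_div]
    have h1 : Real.log (f1 q) ≤ f1 q - 1 := Real.log_le_sub_one_of_pos (by rw [hf1q]; positivity)
    rw [hf1q, Real.log_div hQpos.ne' hMpos.ne', ← hf1q] at h1
    have h2 : -Real.log ((Q q).toReal) ≤ B q := by
      rw [hQr, Real.log_prod (fun i _ => (hwpos _ _).ne'), ← Finset.sum_neg_distrib]
      simp only [hB]
      refine Finset.sum_le_sum (fun i _ => ?_)
      simp only [hw]
      rw [Real.log_mul (by positivity) (Real.exp_pos _).ne', Real.log_exp]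
      have h3 : Real.log (4 / η) = -Real.log (η / 4) := by
        rw [← Real.log_inv, inv_div]
      have h4 := floor_diff_le (a := ⟪q.1 i, q.2⟫) (b := ⟪q.1 i, s₀⟫) hδ
      have h5 : ⟪q.1 i, q.2 - s₀⟫ = ⟪q.1 i, q.2⟫ - ⟪q.1 i, s₀⟫ := inner_sub_right _ _ _
      have h6 : |((lab δ q.1 q.2 i - lab δ q.1 s₀ i : ℤ) : ℝ)| ≤ |⟪q.1 i, q.2 - s₀⟫| / δ + 1 := by
        rw [h5]; exact h4
      set a := ⟪q.1 i, q.2 - s₀⟫ with ha
      have h7 : η * |((lab δ q.1 q.2 i - lab δ q.1 s₀ i : ℤ) : ℝ)| ≤ η * (|a| / δ + 1) := by gcongr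
      have h8 : η * (|a| / δ + 1) = |a| / R + η := by rw [hη]; field_simp
      have h9 : |a| / R ≤ a ^ 2 * (1 / (2 * R ^ 2)) + 1 / 2 := by
        have : a ^ 2 = |a| ^ 2 := (sq_abs a).symm
        rw [this]
        have h10 : 0 ≤ (|a| / R - 1) ^ 2 := sq_nonneg _
        have h11 : |a| ^ 2 * (1 / (2 * R ^ 2)) = (|a| / R) ^ 2 / 2 := by field_simp
        rw [h11]; nlinarith
      rw [h3]
      linarith
    linarith
  have hlogm : Measurable (fun q : (Fin m → E d) × E d => Real.log (mass p δ q.1 q.2).toReal) :=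
    Real.measurable_log.comp hMm.ennreal_toReal
  have hdom : Integrable (fun q => f1 q + B q - 1) ((rows d m).prod p) := (hf1i.add hBi).sub (integrable_const 1)
  have hint : Integrable (fun q : (Fin m → E d) × E d => Real.log (mass p δ q.1 q.2).toReal) ((rows d m).prod p) := by
    refine hdom.mono' hlogm.aestronglyMeasurable ?_
    filter_upwards [hpt] with q hq
    have h1 : Real.log (mass p δ q.1 q.2).toReal ≤ 0 := by
      apply Real.log_nonpos ENNReal.toReal_nonneg
      exact ENNReal.toReal_le_of_le_ofReal (by norm_num) (by simpa using mass_le_one p δ q.1 q.2)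
    rw [Real.norm_eq_abs, abs_of_nonpos h1]
    exact hq
  refine ⟨hint, ?_⟩
  rw [← integral_neg]
  calc ∫ q, -Real.log (mass p δ q.1 q.2).toReal ∂((rows d m).prod p)
      ≤ ∫ q, (f1 q + B q - 1) ∂((rows d m).prod p) := integral_mono_ae hint.neg hdom hpt
    _ = ∫ q, f1 q ∂((rows d m).prod p) + ∫ q, B q ∂((rows d m).prod p) - 1 := by
        have hfB : Integrable (fun q => f1 q + B q) ((rows d m).prod p) := hf1i.add hBi
        rw [integral_sub hfB (integrable_const 1), integral_add hf1i hBi]; simp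
    _ ≤ m * (Real.log (R / δ) + 4) := by linarith

end P309
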