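import Vale.Agent.P309.Model
import Vale.Agent.P309.Blocks
open MeasureTheory ProbabilityTheory Filter
open scoped RealInnerProductSpace ENNReal Topology
namespace P309

section
variable {d N : ℕ}

/-- extended state: running (first coordinate `T + 1`), or stopped at a given time -/
abbrev Ext (T N : ℕ) : Type := Fin (T + 2) × Fin N

/-- encoding of an outcome at time `t` -/
def enc (T t : ℕ) (w : Fin N × Bool) : Ext T N := (if w.2 then Fin.ofNat (T + 2) t else Fin.last (T + 1), w.1)

/-- one step of the extended chain -/
noncomputable def K (L : Learner (E d) N) (T t : ℕ) (a : Ext T N) (p : E d × ℝ) : Measure (Ext T N) :=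
  if a.1 = Fin.last (T + 1) ∧ t < T then (L.step (t + 1) a.2 p).map (enc T (t + 1)) else Measure.dirac a

theorem K_prob (L : Learner (E d) N) (T t : ℕ) (a : Ext T N) (p : E d × ℝ) : IsProbabilityMeasure (K L T t a p) := by
  unfold K
  have := L.step_markov (t + 1) a.2
  split_ifs
  · exact Measure.isProbabilityMeasure_map (measurable_of_countable _).aemeasurable
  · infer_instance

theorem sum_real_singleton {A : Type} [Fintype A] [MeasurableSpace A] [MeasurableSingletonClass A] (κ : Measure A)
    [IsProbabilityMeasure κ] : ∑ b, κ.real {b} = 1 := by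
  have h := integral_fintype (μ := κ) (f := fun _ : A => (1 : ℝ)) (integrable_const _)
  simp at h
  simp

/-- the step rule of the extended chain -/
noncomputable def rule (L : Learner (E d) N) (T : ℕ) : StepRule d (Ext T N) where
  s t a b p := (K L T t a p).real {b}
  meas t a b := by
    have := L.step_markov (t + 1) a.2
    unfold K
    by_cases h : a.1 = Fin.last (T + 1) ∧ t < T
    · simp only [h, and_self, if_true]
      have h1 : ∀ p : E d × ℝ, ((L.step (t + 1) a.2 p).map (enc T (t + 1))).real {b}
          = (L.step (t + 1) a.2 p (enc T (t + 1) ⁻¹' {b})).toReal := by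
        intro p
        rw [Measure.real, Measure.map_apply (measurable_of_countable _) (measurableSet_singleton b)]
      simp_rw [h1]
      exact (Kernel.measurable_coe _ (measurable_of_countable _ (measurableSet_singleton b))).ennreal_toReal
    · simp only [h, if_false]
      exact measurable_const
  nonneg t a b p := measureReal_nonneg
  sum_one t a p := by
    have := K_prob L T t a p
    exact sum_real_singleton _

/-- acceptance function of the extended chain -/
noncomputable def accept (L : Learner (E d) N) (T : ℕ) (ε : ℝ) (a : Ext T N) (v : E d) : ℝ :=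
  (L.out (min (a.1 : ℕ) T) a.2).real (close ε v)

theorem sum_real_mul {A : Type} [Fintype A] [MeasurableSpace A] [MeasurableSingletonClass A] (κ : Measure A)
    [IsProbabilityMeasure κ] (F : A → ℝ) : ∑ b, κ.real {b} * F b = ∫ b, F b ∂κ := by
  rw [integral_fintype (Integrable.of_finite)]
  simp

/-- absorbed states stay -/
theorem vf_absorbed (L : Learner (E d) N) (T : ℕ) (f : Ext T N → E d → ℝ) (v : E d) :
    ∀ (k t : ℕ) (a : Ext T N), (a.1 ≠ Fin.last (T + 1) ∨ T ≤ t) → vf (rule L T) f k t a v = f a v
  | 0, t, a, _ => rfl
  | k + 1, t, a, h => by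
      have hK : ∀ p, K L T t a p = Measure.dirac a := by
        intro p
        unfold K
        rw [if_neg]
        rintro ⟨h1, h2⟩
        rcases h with h | h
        · exact h h1
        · omega
      have h' : a.1 ≠ Fin.last (T + 1) ∨ T ≤ t + 1 := by
        rcases h with h | h
        · exact Or.inl h
        · right; omega
      have e1 : ∀ x : E d, ∑ c, (rule L T).s t a c (x, ⟪x, v⟫) * vf (rule L T) f k (t + 1) c v = f a v := by
        intro x
        have : ∑ c, (rule L T).s t a c (x, ⟪x, v⟫) * vf (rule L T) f k (t + 1) c v
            = ∫ c, vf (rule L T) f k (t + 1) c v ∂(K L T t a (x, ⟪x, v⟫)) := by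
          have := K_prob L T t a (x, ⟪x, v⟫)
          exact sum_real_mul _ _
        rw [this, hK, integral_dirac]
        exact vf_absorbed L T f v k (t + 1) a h'
      simp only [vf]
      simp_rw [e1]
      simp

theorem accept_nonneg (L : Learner (E d) N) (T : ℕ) (ε : ℝ) (a : Ext T N) (v : E d) : 0 ≤ accept L T ε a v :=
  measureReal_nonneg

theorem accept_le_one (L : Learner (E d) N) (T : ℕ) (ε : ℝ) (a : Ext T N) (v : E d) : accept L T ε a v ≤ 1 := by
  unfold accept Measure.real
  have := L.out_prob (min (a.1 : ℕ) T) a.2
  exact ENNReal.toReal_le_of_le_ofReal (by norm_num) (by simpa using prob_le_one)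

/-- the extended chain computes the winning probability -/
theorem win_eq (L : Learner (E d) N) (T : ℕ) (ε : ℝ) (v : E d) :
    ∀ (k t : ℕ) (z : Fin N), t ≤ T → T - t ≤ k →
      L.win ε v (T - t) t z = ENNReal.ofReal (vf (rule L T) (accept L T ε) k t (Fin.last (T + 1), z) v)
  | 0, t, z, h1, h2 => by
      have : t = T := by omega
      subst this
      have := L.out_prob t z
      have e0 : min ((Fin.last (t + 1) : Fin (t + 2)) : ℕ) t = t := by simp
      simp only [Nat.sub_self, Learner.win, vf, accept]
      rw [e0, Measure.real, ENNReal.ofReal_toReal (measure_ne_top _ _)]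
  | k + 1, t, z, h1, h2 => by
      by_cases ht : t = T
      · subst ht
        rw [vf_absorbed L t _ v (k + 1) t (Fin.last (t + 1), z) (Or.inr le_rfl)]
        have := L.out_prob t z
        have e0 : min ((Fin.last (t + 1) : Fin (t + 2)) : ℕ) t = t := by simp
        simp only [Nat.sub_self, Learner.win, accept]
        rw [e0, Measure.real, ENNReal.ofReal_toReal (measure_ne_top _ _)]
      · have hlt : t < T := by omega
        obtain ⟨r, hr⟩ : ∃ r, T - t = r + 1 := ⟨T - t - 1, by omega⟩
        have hr' : T - (t + 1) = r := by omega
        have ih := fun z' => win_eq L T ε v k (t + 1) z' (by omega) (by omega)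
        rw [hr'] at ih
        rw [hr]
        simp only [Learner.win]
        set F : Ext T N → ℝ := fun c => vf (rule L T) (accept L T ε) k (t + 1) c v with hF
        have hF0 : ∀ c, 0 ≤ F c := fun c => vf_nonneg _ _ (accept_nonneg L T ε) _ _ _ _
        have hinner : ∀ x : E d, ∫⁻ w, (if w.2 then L.out (t + 1) w.1 (close ε v) else L.win ε v r (t + 1) w.1)
            ∂(L.step (t + 1) z (x, ⟪x, v⟫))
            = ENNReal.ofReal (∑ c, (rule L T).s t (Fin.last (T + 1), z) c (x, ⟪x, v⟫) * F c) := by
          intro x
          have hmk := L.step_markov (t + 1) z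
          have e1 : ∀ w : Fin N × Bool, (if w.2 then L.out (t + 1) w.1 (close ε v) else L.win ε v r (t + 1) w.1)
              = ENNReal.ofReal (F (enc T (t + 1) w)) := by
            intro w
            obtain ⟨z', b⟩ := w
            cases b
            · simp only [Bool.false_eq_true, if_false, enc, hF]
              exact ih z'
            · have e2 : ((Fin.ofNat (T + 2) (t + 1) : Fin (T + 2)) : ℕ) = t + 1 := by
                simp only [Fin.ofNat, Nat.mod_eq_of_lt (show t + 1 < T + 2 by omega)]
              have e2' : (Fin.ofNat (T + 2) (t + 1) : Fin (T + 2)) ≠ Fin.last (T + 1) := by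
                intro h
                have := congrArg Fin.val h
                rw [e2] at this
                simp only [Fin.val_last] at this
                omega
              simp only [if_true, enc, hF]
              rw [vf_absorbed L T _ v k (t + 1) _ (Or.inl e2')]
              have := L.out_prob (t + 1) z'
              simp only [accept]
              have e3 : min ((Fin.ofNat (T + 2) (t + 1) : Fin (T + 2)) : ℕ) T = t + 1 := by
                rw [e2]; omega
              rw [e3, Measure.real, ENNReal.ofReal_toReal (measure_ne_top _ _)]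
          simp_rw [e1]
          rw [← ofReal_integral_eq_lintegral_ofReal (Integrable.of_finite) (Eventually.of_forall (fun w => hF0 _))]
          congr 1
          have hKp := K_prob L T t (Fin.last (T + 1), z) (x, ⟪x, v⟫)
          have e3 : ∑ c, (rule L T).s t (Fin.last (T + 1), z) c (x, ⟪x, v⟫) * F c = ∫ c, F c ∂(K L T t (Fin.last (T + 1), z) (x, ⟪x, v⟫)) :=
            sum_real_mul _ _
          rw [e3]
          have e4 : K L T t (Fin.last (T + 1), z) (x, ⟪x, v⟫) = (L.step (t + 1) z (x, ⟪x, v⟫)).map (enc T (t + 1)) := by
            unfold K
            rw [if_pos ⟨rfl, hlt⟩]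
          rw [e4, integral_map (measurable_of_countable _).aemeasurable (measurable_of_countable F).aestronglyMeasurable]
        simp_rw [hinner]
        have hint : Integrable (fun x : E d => ∑ c, (rule L T).s t (Fin.last (T + 1), z) c (x, ⟪x, v⟫) * F c) (stdGaussian (E d)) :=
          integrable_finsetSum _ (fun c _ => (step_int (rule L T) t (Fin.last (T + 1), z) c v).mul_const _)
        rw [← ofReal_integral_eq_lintegral_ofReal hint (Eventually.of_forall (fun x =>
          Finset.sum_nonneg (fun c _ => mul_nonneg ((rule L T).nonneg _ _ _ _) (hF0 c))))]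
        rfl

end
end P309
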