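import Vale.Agent.P309.Defs

open MeasureTheory ProbabilityTheory
open scoped RealInnerProductSpace ENNReal

namespace P309

theorem dist_le_of_arccos {d : ℕ} (s v : E d) (hs : ‖s‖ = 1) (hv : ‖v‖ = 1) {ε : ℝ}
    (h : Real.arccos ⟪s, v⟫ ≤ ε) : dist s v ≤ ε := by
  have habs := abs_real_inner_le_norm s v
  rw [hs, hv, one_mul, abs_le] at habs
  set θ := Real.arccos ⟪s, v⟫ with hθ
  have hθ0 : 0 ≤ θ := Real.arccos_nonneg _
  have hcos : Real.cos θ = ⟪s, v⟫ := Real.cos_arccos habs.1 habs.2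
  have h1 := Real.one_sub_sq_div_two_le_cos (x := θ)
  have h2 : dist s v ^ 2 ≤ θ ^ 2 := by
    rw [dist_eq_norm, norm_sub_sq_real, hs, hv, ← hcos]
    linarith
  have h3 : dist s v ≤ θ := abs_le_of_sq_le_sq' h2 hθ0 |>.2
  linarith

theorem final_num : ∃ c' : ℝ, 0 < c' ∧ ∃ ε₀ : ℝ, 0 < ε₀ ∧ ∀ d : ℕ, 16 ≤ d → ∀ ε : ℝ, 0 < ε →
    ε < ε₀ → ∀ M T : ℕ,
    (∀ J n τ : ℕ, ε ≤ 2 / 2 ^ J → T ≤ n * (d / 8) → T + 2 ≤ 2 ^ τ →
      J * (d - 1) ≤ (M + τ + 1) + 20 * d + 1 ∧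
        (J : ℝ) ≤ 400 + 700 * (n * (1 + ((M + τ + 1 : ℕ) : ℝ) / d ^ 2))) →
    c' * d * Real.log (1 / ε) / (1 + M / d ^ 2) ≤ T + d := by
  refine ⟨1 / 50000, by norm_num, Real.exp (-1000), Real.exp_pos _, ?_⟩
  intro d hd ε hε hεε M T H
  by_contra hcon
  push Not at hcon
  set ℓ := Real.log (1 / ε) with hℓ
  have hℓ1000 : 1000 < ℓ := by
    rw [hℓ, one_div, Real.log_inv]
    have := Real.log_lt_log hε hεε
    rw [Real.log_exp] at this
    linarith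
  have hD : (16 : ℝ) ≤ d := by exact_mod_cast hd
  have hDpos : (0 : ℝ) < d := by linarith
  have hm0 : (0 : ℝ) ≤ M := Nat.cast_nonneg M
  have hT0 : (0 : ℝ) ≤ T := Nat.cast_nonneg T
  set x : ℝ := M / d ^ 2 with hx
  have hx0 : 0 ≤ x := by positivity
  -- the scale J
  set J := ⌊Real.logb 2 (2 / ε)⌋₊ with hJ
  have hlog2 : 0 < Real.log 2 := Real.log_pos (by norm_num)
  have hlog2' : Real.log 2 < 1 := by
    have := Real.log_two_lt_d9
    linarith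
  have hlogb : Real.logb 2 (2 / ε) = 1 + ℓ / Real.log 2 := by
    rw [Real.logb, hℓ, Real.log_div (by norm_num) hε.ne', one_div, Real.log_inv]
    field_simp
    ring
  have hlogb0 : 0 ≤ Real.logb 2 (2 / ε) := by
    rw [hlogb]; positivity
  have hJle : (J : ℝ) ≤ Real.logb 2 (2 / ε) := Nat.floor_le hlogb0
  have hJgt : Real.logb 2 (2 / ε) < J + 1 := Nat.lt_floor_add_one _
  have hJℓ : ℓ ≤ J := by
    have h1 : ℓ ≤ ℓ / Real.log 2 := by
      rw [le_div_iff₀ hlog2]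
      nlinarith
    linarith
  have hεJ : ε ≤ 2 / 2 ^ J := by
    rw [le_div_iff₀ (by positivity)]
    have h1 : (2 : ℝ) ^ J ≤ 2 / ε := by
      rw [← Real.rpow_natCast]
      rw [← Real.le_logb_iff_rpow_le (by norm_num) (by positivity)]
      exact hJle
    rw [le_div_iff₀ hε] at h1
    linarith
  -- T is small
  have hTd : (T : ℝ) + d < d * ℓ := by
    calc (T : ℝ) + d < 1 / 50000 * d * ℓ / (1 + x) := hcon
      _ ≤ 1 / 50000 * d * ℓ := div_le_self (by positivity) (by linarith)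
      _ ≤ d * ℓ := by nlinarith
  have hTJ : T + d < d * J := by
    have : ((T + d : ℕ) : ℝ) < ((d * J : ℕ) : ℝ) := by
      push_cast
      calc (T : ℝ) + d < d * ℓ := hTd
        _ ≤ d * J := by gcongr
    exact_mod_cast this
  have hτ : T + 2 ≤ 2 ^ (d + J) := by
    have h1 : d * J ≤ 2 ^ d * 2 ^ J := Nat.mul_le_mul Nat.lt_two_pow_self.le Nat.lt_two_pow_self.le
    rw [pow_add]
    omega
  set n := T / (d / 8) + 1 with hn
  have hd8 : 0 < d / 8 := by omega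
  have hTn : T ≤ n * (d / 8) := by
    have h := Nat.lt_mul_div_succ T hd8
    rw [hn, mul_comm]
    exact h.le
  obtain ⟨h1, h2⟩ := H J n (d + J) hεJ hTn hτ
  -- real version of h1
  have h1' : (J : ℝ) * (d - 2) ≤ M + 21 * d + 2 := by
    obtain ⟨e, rfl⟩ : ∃ e, d = e + 1 := ⟨d - 1, by omega⟩
    have h3 : ((J * (e + 1 - 1) : ℕ) : ℝ) ≤
        ((M + (e + 1 + J) + 1 + 20 * (e + 1) + 1 : ℕ) : ℝ) := by exact_mod_cast h1
    push_cast [Nat.add_sub_cancel] at h3 ⊢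
    linarith
  have hJ0 : (0 : ℝ) ≤ J := Nat.cast_nonneg J
  have h14 : 14 * (J : ℝ) ≤ M + 21 * d + 2 := by nlinarith
  have hD2 : (0 : ℝ) < (d : ℝ) ^ 2 := by positivity
  have hY : 1 + ((M + (d + J) + 1 : ℕ) : ℝ) / d ^ 2 ≤ 1.2 * (1 + x) := by
    have h3 : ((M + (d + J) + 1 : ℕ) : ℝ) ≤ 0.2 * d ^ 2 + 1.2 * M := by
      push_cast
      nlinarith
    have h4 : ((M + (d + J) + 1 : ℕ) : ℝ) / d ^ 2 ≤ (0.2 * d ^ 2 + 1.2 * M) / d ^ 2 := by
      gcongr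
    have h5 : (0.2 * (d : ℝ) ^ 2 + 1.2 * M) / d ^ 2 = 0.2 + 1.2 * x := by
      rw [hx]; field_simp
    linarith
  have hnle : (n : ℝ) ≤ 16 * (T + d) / d := by
    have h3 : ((T / (d / 8) : ℕ) : ℝ) ≤ (T : ℝ) / ((d / 8 : ℕ) : ℝ) := Nat.cast_div_le
    have h4 : (d : ℝ) / 16 ≤ ((d / 8 : ℕ) : ℝ) := by
      have : d ≤ 16 * (d / 8) := by omega
      have : (d : ℝ) ≤ 16 * ((d / 8 : ℕ) : ℝ) := by exact_mod_cast this
      linarith
    have h5 : (T : ℝ) / ((d / 8 : ℕ) : ℝ) ≤ T / (d / 16) := by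
      gcongr
    have h6 : (T : ℝ) / (d / 16) = 16 * T / d := by field_simp
    have h7 : 16 * ((T : ℝ) + d) / d = 16 * T / d + 16 := by field_simp
    rw [hn]
    push_cast
    linarith
  have hY0 : 0 ≤ 1 + ((M + (d + J) + 1 : ℕ) : ℝ) / d ^ 2 := by positivity
  have h8 : (n : ℝ) * (1 + ((M + (d + J) + 1 : ℕ) : ℝ) / d ^ 2) ≤
      16 * (T + d) / d * (1.2 * (1 + x)) := by
    apply mul_le_mul hnle hY hY0
    positivity
  have h9 : ((T : ℝ) + d) * (1 + x) / d < 1 / 50000 * ℓ := by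
    rw [lt_div_iff₀ (by positivity)] at hcon
    rw [div_lt_iff₀ hDpos]
    linarith
  have h10 : 16 * ((T : ℝ) + d) / d * (1.2 * (1 + x)) = 19.2 * ((T + d) * (1 + x) / d) := by
    ring
  rw [h10] at h8
  linarith

/-- Corollary form: if `M ≤ C d²` then `T ≥ c' d log (1/ε)`. -/
theorem final_cor (C : ℝ) (hC : 0 < C) : ∃ c' : ℝ, 0 < c' ∧ ∃ ε₀ : ℝ, 0 < ε₀ ∧
    ∀ d : ℕ, 16 ≤ d → ∀ ε : ℝ, 0 < ε → ε < ε₀ → ∀ M T : ℕ, (M : ℝ) ≤ C * d ^ 2 →
    (∀ J n τ : ℕ, ε ≤ 2 / 2 ^ J → T ≤ n * (d / 8) → T + 2 ≤ 2 ^ τ →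
      J * (d - 1) ≤ (M + τ + 1) + 20 * d + 1 ∧
        (J : ℝ) ≤ 400 + 700 * (n * (1 + ((M + τ + 1 : ℕ) : ℝ) / d ^ 2))) →
    c' * d * Real.log (1 / ε) ≤ T := by
  obtain ⟨cb, hcb, ε₁, hε₁, H⟩ := final_num
  refine ⟨cb / (2 * (1 + C)), by positivity, min ε₁ (Real.exp (-(2 * (1 + C) / cb))),
    lt_min hε₁ (Real.exp_pos _), ?_⟩
  intro d hd ε hε hεε M T hM hyp
  have h1 := H d hd ε hε (hεε.trans_le (min_le_left _ _)) M T hyp
  have hD : (16 : ℝ) ≤ d := by exact_mod_cast hd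
  have hDpos : (0 : ℝ) < d := by linarith
  set ℓ := Real.log (1 / ε) with hℓ
  have hℓ1 : 2 * (1 + C) / cb ≤ ℓ := by
    rw [hℓ, one_div, Real.log_inv]
    have := Real.log_lt_log hε (hεε.trans_le (min_le_right _ _))
    rw [Real.log_exp] at this
    linarith
  have hℓ0 : 0 < ℓ := lt_of_lt_of_le (by positivity) hℓ1
  have hx : (M : ℝ) / d ^ 2 ≤ C := by
    rw [div_le_iff₀ (by positivity)]
    exact hM
  have hx0 : 0 ≤ (M : ℝ) / d ^ 2 := by positivity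
  have h2 : cb * d * ℓ / (1 + C) ≤ T + d := by
    refine le_trans ?_ h1
    gcongr
  have h3 : (d : ℝ) ≤ cb * d * ℓ / (2 * (1 + C)) := by
    rw [div_le_iff₀ hcb] at hℓ1
    rw [le_div_iff₀ (by positivity)]
    nlinarith
  have h4 : cb * d * ℓ / (1 + C) = 2 * (cb * d * ℓ / (2 * (1 + C))) := by
    field_simp
  have h5 : cb / (2 * (1 + C)) * d * ℓ = cb * d * ℓ / (2 * (1 + C)) := by ring
  rw [h5]
  linarith

end P309
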