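import Vale.Agent.P309.Transfer
import Vale.Agent.P309.Entropy
open MeasureTheory ProbabilityTheory
open scoped RealInnerProductSpace ENNReal
namespace P309

variable {d m n : ℕ}

theorem ae_repl (p : Measure (E d)) [IsProbabilityMeasure p] (δ : ℝ) (j : Fin (n + 1))
    (P : (Fin m → E d) → E d → Prop) (h : ∀ᵐ q ∂((rows d m).prod p), P q.1 q.2) :
    ∀ᵐ ω ∂(repl m n p δ), P ω.1 (ω.2 j) := by
  have hmp := measurePreserving_repl (m := m) (n := n) p δ j
  have h1 := hmp.quasiMeasurePreserving.ae (p := fun q => P q.1 q.2) h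
  exact h1

theorem integrable_repl (p : Measure (E d)) [IsProbabilityMeasure p] (δ : ℝ) (j : Fin (n + 1))
    (f : (Fin m → E d) → E d → ℝ) (h : Integrable (fun q : (Fin m → E d) × E d => f q.1 q.2) ((rows d m).prod p)) :
    Integrable (fun ω : (Fin m → E d) × (Fin (n + 1) → E d) => f ω.1 (ω.2 j)) (repl m n p δ) ∧
      ∫ ω, f ω.1 (ω.2 j) ∂(repl m n p δ) = ∫ q, f q.1 q.2 ∂((rows d m).prod p) := by
  have hmp := measurePreserving_repl (m := m) (n := n) p δ j
  have h1 := hmp.integrable_comp_of_integrable h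
  refine ⟨h1, ?_⟩
  have h2 := integral_map hmp.measurable.aemeasurable
    (f := fun q : (Fin m → E d) × E d => f q.1 q.2) (by rw [hmp.map_eq]; exact h.aestronglyMeasurable)
  rw [hmp.map_eq] at h2
  exact h2.symm

attribute [local irreducible] mass lab sb

/-- basic almost sure facts and integrability under the replica law -/
theorem repl_facts {p : Measure (E d)} [IsProbabilityMeasure p] {S : Set (E d)} {R δ : ℝ}
    (hS : MeasurableSet S)
    (hpS : p Sᶜ = 0) (hdiam : ∀ x ∈ S, ∀ y ∈ S, dist x y ≤ R) (hδ : 0 < δ) (hδR : δ ≤ R) :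
    (∀ᵐ ω ∂(repl m n p δ), mass p δ ω.1 (ω.2 0) ≠ 0) ∧
    (∀ᵐ ω ∂(repl m n p δ), stdGaussian (E d) (Metric.closedBall 0 (δ / R)) ≤ sb n δ ω.2) ∧
    Integrable (fun ω : (Fin m → E d) × (Fin (n + 1) → E d) => Real.log (mass p δ ω.1 (ω.2 0)).toReal) (repl m n p δ) ∧
    -∫ ω, Real.log (mass p δ ω.1 (ω.2 0)).toReal ∂(repl m n p δ) ≤ m * (Real.log (R / δ) + 4) ∧
    Integrable (fun ω : (Fin m → E d) × (Fin (n + 1) → E d) => Real.log (sb n δ ω.2).toReal) (repl m n p δ) := by
  have hR : 0 < R := lt_of_lt_of_le hδ hδR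
  have hEB := entropy_bound (m := m) hpS hdiam hδ hδR
  have hMm : Measurable (fun q : (Fin m → E d) × E d => mass p δ q.1 q.2) := measurable_mass p δ
  have hne : ∀ᵐ q ∂((rows d m).prod p), mass p δ q.1 q.2 ≠ 0 := by
    have hs : MeasurableSet {q : (Fin m → E d) × E d | mass p δ q.1 q.2 ≠ 0} :=
      (measurableSet_eq_fun hMm measurable_const).compl
    rw [Measure.ae_prod_iff_ae_ae hs]
    exact Filter.Eventually.of_forall (fun X => mass_pos_ae p δ X)
  have hSae : ∀ᵐ q ∂((rows d m).prod p), q.2 ∈ S := by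
    have hs : MeasurableSet {q : (Fin m → E d) × E d | q.2 ∈ S} := measurable_snd hS
    rw [Measure.ae_prod_iff_ae_ae hs]
    refine Filter.Eventually.of_forall (fun X => ?_)
    rw [ae_iff]; exact hpS
  have h1 : ∀ᵐ ω ∂(repl m n p δ), mass p δ ω.1 (ω.2 0) ≠ 0 :=
    ae_repl p δ 0 (fun X v => mass p δ X v ≠ 0) hne
  have h2 : ∀ᵐ ω ∂(repl m n p δ), stdGaussian (E d) (Metric.closedBall 0 (δ / R)) ≤ sb n δ ω.2 := by
    have h3 : ∀ᵐ ω ∂(repl m n p δ), ∀ j : Fin (n + 1), ω.2 j ∈ S := by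
      rw [ae_all_iff]
      exact fun j => ae_repl (m := m) p δ j (fun _ v => v ∈ S) hSae
    filter_upwards [h3] with ω hω
    apply sb_ge hδ hR
    intro j
    rw [← dist_eq_norm]
    exact hdiam _ (hω j) _ (hω 0)
  have h4 := integrable_repl (n := n) p δ 0 (fun X v => Real.log (mass p δ X v).toReal) hEB.1
  refine ⟨h1, h2, h4.1, ?_, ?_⟩
  · rw [h4.2]; exact hEB.2
  · set κ := (stdGaussian (E d) (Metric.closedBall 0 (δ / R))).toReal with hκ
    have hκ0 : 0 < κ := ENNReal.toReal_pos (gauss_ball_pos d (by positivity)).ne' (measure_ne_top _ _)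
    have hm : Measurable (fun ω : (Fin m → E d) × (Fin (n + 1) → E d) => Real.log (sb n δ ω.2).toReal) :=
      Real.measurable_log.comp ((measurable_sb δ).comp measurable_snd).ennreal_toReal
    refine Integrable.mono' (integrable_const (-Real.log κ)) hm.aestronglyMeasurable ?_
    filter_upwards [h2] with ω hω
    have hle : (sb n δ ω.2).toReal ≤ 1 :=
      ENNReal.toReal_le_of_le_ofReal (by norm_num) (by simpa using sb_le_one δ ω.2)
    have hge : κ ≤ (sb n δ ω.2).toReal :=
      ENNReal.toReal_mono (ne_top_of_le_ne_top ENNReal.one_ne_top (sb_le_one δ ω.2)) hω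
    rw [Real.norm_eq_abs, abs_of_nonpos (Real.log_nonpos ENNReal.toReal_nonneg hle)]
    have := Real.log_le_log hκ0 hge
    linarith

/-- first Gibbs inequality -/
theorem gibbs_one {p : Measure (E d)} [IsProbabilityMeasure p] {S : Set (E d)} {R δ C : ℝ}
    (hS : MeasurableSet S)
    (hpS : p Sᶜ = 0) (hdiam : ∀ x ∈ S, ∀ y ∈ S, dist x y ≤ R) (hδ : 0 < δ) (hδR : δ ≤ R)
    (hC : 0 < C)
    (hnorm : ∫⁻ s, (sb n δ s * (ENNReal.ofReal (R / δ)) ^ n) ^ (2 * m)
      ∂(Measure.pi (fun _ : Fin (n + 1) => p)) ≤ (ENNReal.ofReal C) ^ n) :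
    m * ∫ ω, Real.log (sb n δ ω.2).toReal ∂(repl m n p δ) ≤
      n * Real.log C + n * (m * (Real.log (R / δ) + 4)) - 2 * m * n * Real.log (R / δ) := by
  have hR : 0 < R := lt_of_lt_of_le hδ hδR
  obtain ⟨h1, h2, h3, h4, h5⟩ := repl_facts (m := m) (n := n) hS hpS hdiam hδ hδR
  set P := repl m n p δ with hP
  have hκ := gauss_ball_pos d (r := δ / R) (by positivity)
  let ψ : (Fin m → E d) × (Fin (n + 1) → E d) → ℝ := fun ω =>
    2 * m * (Real.log (sb n δ ω.2).toReal + n * Real.log (R / δ)) - n * Real.log C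
      + n * Real.log (mass p δ ω.1 (ω.2 0)).toReal - m * Real.log (sb n δ ω.2).toReal
  have hψ : Integrable ψ P := by
    have := (((((h5.add (integrable_const (n * Real.log (R / δ)))).const_mul (2 * (m : ℝ))).sub
      (integrable_const (n * Real.log C))).add (h3.const_mul (n : ℝ))).sub (h5.const_mul (m : ℝ)))
    exact this
  let G : (Fin (n + 1) → E d) → ℝ≥0∞ := fun s =>
    (sb n δ s * (ENNReal.ofReal (R / δ)) ^ n) ^ (2 * m) / (ENNReal.ofReal C) ^ n
  have hGm : Measurable G := by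
    have := (((measurable_sb (d := d) (n := n) δ).mul_const ((ENNReal.ofReal (R / δ)) ^ n)).pow_const (2 * m)).div_const
      ((ENNReal.ofReal C) ^ n)
    exact this
  have hGi : ∫⁻ s, G s ∂(Measure.pi (fun _ : Fin (n + 1) => p)) ≤ 1 := by
    simp only [G, ENNReal.div_eq_inv_mul]
    rw [lintegral_const_mul' _ _ (by simp [hC])]
    calc ((ENNReal.ofReal C) ^ n)⁻¹ * ∫⁻ s, (sb n δ s * (ENNReal.ofReal (R / δ)) ^ n) ^ (2 * m)
      ∂(Measure.pi (fun _ : Fin (n + 1) => p)) ≤ ((ENNReal.ofReal C) ^ n)⁻¹ * (ENNReal.ofReal C) ^ n := by gcongr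
      _ ≤ 1 := ENNReal.inv_mul_le_one _
  have hle : ∫⁻ ω, ENNReal.ofReal (Real.exp (ψ ω)) ∂P ≤ 1 := by
    refine le_trans ?_ (le_trans (lintegral_transfer (m := m) p hδ G hGm) hGi)
    refine lintegral_mono_ae ?_
    filter_upwards [h1, h2] with ω hω1 hω2
    have hmt : mass p δ ω.1 (ω.2 0) ≠ ⊤ := ne_top_of_le_ne_top ENNReal.one_ne_top (mass_le_one p δ ω.1 (ω.2 0))
    have hst : sb n δ ω.2 ≠ ⊤ := ne_top_of_le_ne_top ENNReal.one_ne_top (sb_le_one δ ω.2)
    have hs0 : sb n δ ω.2 ≠ 0 := (lt_of_lt_of_le hκ hω2).ne'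
    set M := (mass p δ ω.1 (ω.2 0)).toReal with hM
    set B := (sb n δ ω.2).toReal with hB
    have hMpos : 0 < M := ENNReal.toReal_pos hω1 hmt
    have hBpos : 0 < B := ENNReal.toReal_pos hs0 hst
    have e1 : mass p δ ω.1 (ω.2 0) = ENNReal.ofReal M := (ENNReal.ofReal_toReal hmt).symm
    have e2 : sb n δ ω.2 = ENNReal.ofReal B := (ENNReal.ofReal_toReal hst).symm
    have hRδ : 0 < R / δ := by positivity
    have e3 : Real.exp (ψ ω) = M ^ n * ((B * (R / δ) ^ n) ^ (2 * m) / C ^ n / B ^ m) := by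
      rw [← Real.exp_log (x := M ^ n * ((B * (R / δ) ^ n) ^ (2 * m) / C ^ n / B ^ m)) (by positivity)]
      congr 1
      rw [Real.log_mul (by positivity) (by positivity), Real.log_div (by positivity) (by positivity),
        Real.log_div (by positivity) (by positivity), Real.log_pow, Real.log_pow, Real.log_pow, Real.log_pow,
        Real.log_mul (by positivity) (by positivity), Real.log_pow]
      simp only [ψ]
      rw [← hM, ← hB]
      push_cast
      ring
    rw [e3]
    simp only [G]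
    rw [e1, e2, ENNReal.ofReal_mul (by positivity), ENNReal.ofReal_pow hMpos.le,
      ENNReal.ofReal_div_of_pos (by positivity), ENNReal.ofReal_div_of_pos (by positivity),
      ENNReal.ofReal_pow hBpos.le, ENNReal.ofReal_pow hC.le,
      ENNReal.ofReal_pow (p := B * (R / δ) ^ n) (by positivity), ENNReal.ofReal_mul hBpos.le,
      ENNReal.ofReal_pow hRδ.le]
  have hfin := int_nonpos_of_exp (P := P) (ψ := ψ) (χ := fun ω => Real.exp (ψ ω)) hψ
    (Real.measurable_exp.comp_aemeasurable hψ.aestronglyMeasurable.aemeasurable)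
    (Filter.Eventually.of_forall (fun ω => by linarith [Real.add_one_le_exp (ψ ω)]))
    (Filter.Eventually.of_forall (fun ω => (Real.exp_pos _).le)) hle
  have hval : ∫ ω, ψ ω ∂P = 2 * m * (∫ ω, Real.log (sb n δ ω.2).toReal ∂P + n * Real.log (R / δ)) - n * Real.log C
      + n * ∫ ω, Real.log (mass p δ ω.1 (ω.2 0)).toReal ∂P - m * ∫ ω, Real.log (sb n δ ω.2).toReal ∂P := by
    have i1 : Integrable (fun ω : (Fin m → E d) × (Fin (n + 1) → E d) =>
      2 * m * (Real.log (sb n δ ω.2).toReal + n * Real.log (R / δ))) P :=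
      (h5.add (integrable_const (n * Real.log (R / δ)))).const_mul (2 * (m : ℝ))
    have i2 : Integrable (fun ω : (Fin m → E d) × (Fin (n + 1) → E d) =>
      2 * m * (Real.log (sb n δ ω.2).toReal + n * Real.log (R / δ)) - n * Real.log C) P :=
      i1.sub (integrable_const _)
    have i3 : Integrable (fun ω : (Fin m → E d) × (Fin (n + 1) → E d) =>
      2 * m * (Real.log (sb n δ ω.2).toReal + n * Real.log (R / δ)) - n * Real.log C
      + n * Real.log (mass p δ ω.1 (ω.2 0)).toReal) P := i2.add (h3.const_mul (n : ℝ))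
    simp only [ψ]
    have j1 := integral_const_mul (μ := P) (n : ℝ) (fun ω : (Fin m → E d) × (Fin (n + 1) → E d) => Real.log (mass p δ ω.1 (ω.2 0)).toReal)
    have j2 := integral_const_mul (μ := P) (m : ℝ) (fun ω : (Fin m → E d) × (Fin (n + 1) → E d) => Real.log (sb n δ ω.2).toReal)
    rw [integral_sub i3 (h5.const_mul (m : ℝ)), integral_add i2 (h3.const_mul (n : ℝ)),
      integral_sub i1 (integrable_const _), integral_const_mul, integral_add h5 (integrable_const _), j1, j2]
    simp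
  rw [hval] at hfin
  have h6 : (n : ℝ) * (-∫ ω, Real.log (mass p δ ω.1 (ω.2 0)).toReal ∂P) ≤ n * (m * (Real.log (R / δ) + 4)) := by
    gcongr
  nlinarith [h6, hfin]

end P309
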