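import Vale.Agent.P309.GibbsOne
open MeasureTheory ProbabilityTheory
open scoped RealInnerProductSpace ENNReal
namespace P309

variable {d m n : ℕ}

attribute [local irreducible] mass lab sb

theorem mul_log_le {x y : ℝ} (hx : 0 < x) (hy : 0 < y) (hy1 : y ≤ 1) : y * Real.log x ≤ x - y := by
  have h1 := Real.log_le_sub_one_of_pos (show 0 < x / y by positivity)
  rw [Real.log_div hx.ne' hy.ne'] at h1
  have h2 : Real.log y ≤ 0 := Real.log_nonpos hy.le hy1
  have h3 : y * (Real.log x - Real.log y) ≤ y * (x / y - 1) := by gcongr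
  have h4 : y * (x / y - 1) = x - y := by field_simp
  nlinarith [mul_nonpos_of_nonneg_of_nonpos hy.le h2]

/-- second Gibbs inequality -/
theorem gibbs_two {p : Measure (E d)} [IsProbabilityMeasure p] {S : Set (E d)} {R δ : ℝ}
    (hS : MeasurableSet S)
    (hpS : p Sᶜ = 0) (hdiam : ∀ x ∈ S, ∀ y ∈ S, dist x y ≤ R) (hδ : 0 < δ) (hδR : δ ≤ R)
    {A : Type} [Fintype A] [Nonempty A] (h : A → (Fin m → E d) → E d → ℝ)
    (hmeas : ∀ a, Measurable (fun q : (Fin m → E d) × E d => h a q.1 q.2))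
    (η : ℝ) (hη : 0 < η) (hpos : ∀ a X v, η ≤ h a X v)
    (hsum : ∀ X v, ∑ a, h a X v = 1)
    (hcell : ∀ a X v v', lab δ X v = lab δ X v' → h a X v = h a X v') :
    (n + 1) * info p (fun a v => ∫ X, h a X v ∂(rows d m)) ≤
      Real.log (Fintype.card A) + n * (m * (Real.log (R / δ) + 4))
        + m * ∫ ω, Real.log (sb n δ ω.2).toReal ∂(repl m n p δ) := by
  have hR : 0 < R := lt_of_lt_of_le hδ hδR
  obtain ⟨h1, h2, h3, h4, h5⟩ := repl_facts (m := m) (n := n) hS hpS hdiam hδ hδR
  set P := repl m n p δ with hP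
  have hκ := gauss_ball_pos d (r := δ / R) (by positivity)
  have h0 : ∀ a X v, 0 < h a X v := fun a X v => lt_of_lt_of_le hη (hpos a X v)
  have hle1 : ∀ a X v, h a X v ≤ 1 := by
    intro a X v
    rw [← hsum X v]
    exact Finset.single_le_sum (f := fun a => h a X v) (fun b _ => (h0 b X v).le) (Finset.mem_univ a)
  set g : A → E d → ℝ := fun a v => ∫ X, h a X v ∂(rows d m) with hg
  have hgm : ∀ a, Measurable (g a) := fun a =>
    ((hmeas a).stronglyMeasurable.integral_prod_left').measurable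
  have hsec : ∀ a v, Integrable (fun X => h a X v) (rows d m) := by
    intro a v
    have hm1 : Measurable (fun X : Fin m → E d => h a X v) :=
      (hmeas a).comp (measurable_id.prodMk measurable_const)
    refine Integrable.mono' (integrable_const (1 : ℝ)) hm1.aestronglyMeasurable ?_
    refine Filter.Eventually.of_forall (fun X => ?_)
    rw [Real.norm_eq_abs, abs_of_pos (h0 a X v)]; exact hle1 a X v
  have hgη : ∀ a v, η ≤ g a v := by
    intro a v
    have : ∫ _X : Fin m → E d, η ∂(rows d m) ≤ g a v := integral_mono (integrable_const η) (hsec a v) (fun X => hpos a X v)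
    simpa using this
  have hg1 : ∀ a v, g a v ≤ 1 := by
    intro a v
    have : g a v ≤ ∫ _X : Fin m → E d, (1 : ℝ) ∂(rows d m) := integral_mono (hsec a v) (integrable_const 1) (fun X => hle1 a X v)
    simpa using this
  have hg0 : ∀ a v, 0 < g a v := fun a v => lt_of_lt_of_le hη (hgη a v)
  have hgi : ∀ a, Integrable (g a) p := by
    intro a
    refine Integrable.mono' (integrable_const (1 : ℝ)) (hgm a).aestronglyMeasurable ?_
    refine Filter.Eventually.of_forall (fun v => ?_)
    rw [Real.norm_eq_abs, abs_of_pos (hg0 a v)]; exact hg1 a v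
  set w : A → ℝ := fun a => ∫ v, g a v ∂p with hw
  have hwη : ∀ a, η ≤ w a := by
    intro a
    have : ∫ _v : E d, η ∂p ≤ w a := integral_mono (integrable_const η) (hgi a) (fun v => hgη a v)
    simpa using this
  have hw0 : ∀ a, 0 < w a := fun a => lt_of_lt_of_le hη (hwη a)
  have hw1 : ∀ a, w a ≤ 1 := by
    intro a
    have : w a ≤ ∫ _v : E d, (1 : ℝ) ∂p := integral_mono (hgi a) (integrable_const 1) (fun v => hg1 a v)
    simpa using this
  set l : A → E d → ℝ := fun a v => Real.log (g a v / w a) with hl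
  have hlm : ∀ a, Measurable (l a) := fun a => Real.measurable_log.comp ((hgm a).div_const _)
  have hη1 : η ≤ 1 := le_trans (hgη (Classical.arbitrary A) 0) (hg1 _ _)
  have hlb : ∀ a v, |l a v| ≤ -Real.log η := by
    intro a v
    have e1 : η ≤ g a v / w a := by
      rw [le_div_iff₀ (hw0 a)]
      calc η * w a ≤ η * 1 := by gcongr; exact hw1 a
        _ ≤ g a v := by rw [mul_one]; exact hgη a v
    have e2 : g a v / w a ≤ η⁻¹ := by
      rw [div_le_iff₀ (hw0 a)]
      calc g a v ≤ 1 := hg1 a v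
        _ = η⁻¹ * η := by field_simp
        _ ≤ η⁻¹ * w a := by gcongr; exact hwη a
    rw [abs_le]
    constructor
    · rw [neg_neg]; exact Real.log_le_log hη e1
    · rw [← Real.log_inv]
      exact Real.log_le_log (div_pos (hg0 a v) (hw0 a)) e2
  have hlogη : 0 ≤ -Real.log η := by linarith [Real.log_nonpos hη.le hη1]
  -- the function h a X v * l a v on block x signal
  have hF : ∀ a, Integrable (fun q : (Fin m → E d) × E d => h a q.1 q.2 * l a q.2) ((rows d m).prod p) := by
    intro a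
    refine Integrable.mono' (integrable_const (-Real.log η)) ((hmeas a).mul ((hlm a).comp measurable_snd)).aestronglyMeasurable ?_
    refine Filter.Eventually.of_forall (fun q => ?_)
    rw [Real.norm_eq_abs, abs_mul, abs_of_pos (h0 a q.1 q.2)]
    calc h a q.1 q.2 * |l a q.2| ≤ 1 * (-Real.log η) := by
          gcongr
          · exact hle1 a q.1 q.2
          · exact hlb a q.2
      _ = _ := one_mul _
  have hFval : ∀ a, ∫ q : (Fin m → E d) × E d, h a q.1 q.2 * l a q.2 ∂((rows d m).prod p) = ∫ v, g a v * l a v ∂p := by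
    intro a
    rw [integral_prod_symm _ (hF a)]
    refine integral_congr_ae (Filter.Eventually.of_forall (fun v => ?_))
    simp only
    rw [integral_mul_const]
  have hFj : ∀ a (j : Fin (n + 1)), Integrable (fun ω : (Fin m → E d) × (Fin (n + 1) → E d) => h a ω.1 (ω.2 j) * l a (ω.2 j)) P ∧
      ∫ ω, h a ω.1 (ω.2 j) * l a (ω.2 j) ∂P = ∫ v, g a v * l a v ∂p := by
    intro a j
    have := integrable_repl p δ j (fun X v => h a X v * l a v) (hF a)
    exact ⟨this.1, this.2.trans (hFval a)⟩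
  have hN : (0 : ℝ) < Fintype.card A := by exact_mod_cast Fintype.card_pos
  let ψ : (Fin m → E d) × (Fin (n + 1) → E d) → ℝ := fun ω =>
    (∑ a, ∑ j : Fin (n + 1), h a ω.1 (ω.2 j) * l a (ω.2 j)) - Real.log (Fintype.card A)
      + n * Real.log (mass p δ ω.1 (ω.2 0)).toReal - m * Real.log (sb n δ ω.2).toReal
  have k0 : Integrable (fun ω : (Fin m → E d) × (Fin (n + 1) → E d) => ∑ a, ∑ j : Fin (n + 1), h a ω.1 (ω.2 j) * l a (ω.2 j)) P :=
    integrable_finsetSum _ (fun a _ => integrable_finsetSum _ (fun j _ => (hFj a j).1))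
  have k1 : Integrable (fun ω : (Fin m → E d) × (Fin (n + 1) → E d) => (∑ a, ∑ j : Fin (n + 1), h a ω.1 (ω.2 j) * l a (ω.2 j)) - Real.log (Fintype.card A)) P :=
    k0.sub (integrable_const _)
  have k2 : Integrable (fun ω : (Fin m → E d) × (Fin (n + 1) → E d) => (∑ a, ∑ j : Fin (n + 1), h a ω.1 (ω.2 j) * l a (ω.2 j)) - Real.log (Fintype.card A)
      + n * Real.log (mass p δ ω.1 (ω.2 0)).toReal) P := k1.add (h3.const_mul (n : ℝ))
  have hψ : Integrable ψ P := k2.sub (h5.const_mul (m : ℝ))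
  have hval : ∫ ω, ψ ω ∂P = (n + 1) * info p g - Real.log (Fintype.card A)
      + n * ∫ ω, Real.log (mass p δ ω.1 (ω.2 0)).toReal ∂P - m * ∫ ω, Real.log (sb n δ ω.2).toReal ∂P := by
    have j1 := integral_const_mul (μ := P) (n : ℝ) (fun ω : (Fin m → E d) × (Fin (n + 1) → E d) => Real.log (mass p δ ω.1 (ω.2 0)).toReal)
    have j2 := integral_const_mul (μ := P) (m : ℝ) (fun ω : (Fin m → E d) × (Fin (n + 1) → E d) => Real.log (sb n δ ω.2).toReal)
    have j3 : ∫ ω : (Fin m → E d) × (Fin (n + 1) → E d), (∑ a, ∑ j : Fin (n + 1), h a ω.1 (ω.2 j) * l a (ω.2 j)) ∂P = (n + 1) * info p g := by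
      rw [integral_finsetSum _ (fun a _ => integrable_finsetSum _ (fun j _ => (hFj a j).1))]
      rw [info, Finset.mul_sum]
      refine Finset.sum_congr rfl (fun a _ => ?_)
      rw [integral_finsetSum _ (fun j _ => (hFj a j).1)]
      rw [Finset.sum_congr rfl (fun j _ => (hFj a j).2)]
      simp [hl, hw]
    simp only [ψ]
    rw [integral_sub k2 (h5.const_mul (m : ℝ)), integral_add k1 (h3.const_mul (n : ℝ)),
      integral_sub k0 (integrable_const _), j1, j2, j3]
    simp
  -- comparison function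
  let T : A → (Fin (n + 1) → E d) → ℝ := fun a s => (Fintype.card A : ℝ)⁻¹ * ∏ j, (g a (s j) / w a)
  have hT0 : ∀ a s, 0 < T a s := by
    intro a s
    exact mul_pos (inv_pos.2 hN) (Finset.prod_pos (fun j _ => div_pos (hg0 a _) (hw0 a)))
  have hTm : ∀ a, Measurable (T a) := by
    intro a
    refine Measurable.const_mul ?_ _
    exact Finset.measurable_prod _ (fun j _ => ((hgm a).comp (measurable_pi_apply j)).div_const _)
  have hTi : ∀ a, Integrable (T a) (Measure.pi (fun _ : Fin (n + 1) => p)) ∧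
      ∫ s, T a s ∂(Measure.pi (fun _ : Fin (n + 1) => p)) = (Fintype.card A : ℝ)⁻¹ := by
    intro a
    have hgw : Integrable (fun v => g a v / w a) p := (hgi a).div_const _
    constructor
    · exact (Integrable.fintype_prod (f := fun _ : Fin (n + 1) => fun v => g a v / w a) (fun _ => hgw)).const_mul _
    · simp only [T]
      rw [integral_const_mul, integral_fintype_prod_eq_pow (fun v => g a v / w a)]
      have : ∫ v, g a v / w a ∂p = 1 := by
        rw [integral_div]; exact div_self (hw0 a).ne'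
      rw [this, one_pow, mul_one]
  let χ : (Fin m → E d) × (Fin (n + 1) → E d) → ℝ := fun ω =>
    (mass p δ ω.1 (ω.2 0)).toReal ^ n * ((∑ a, T a ω.2) / (sb n δ ω.2).toReal ^ m)
  have hTsm : Measurable (fun s : Fin (n + 1) → E d => ∑ a, T a s) := Finset.measurable_sum _ (fun a _ => hTm a)
  have hχm : Measurable χ := by
    have e1 : Measurable (fun ω : (Fin m → E d) × (Fin (n + 1) → E d) => (mass p δ ω.1 (ω.2 0)).toReal ^ n) :=
      ((measurable_mass' p δ measurable_fst ((measurable_pi_apply 0).comp measurable_snd)).ennreal_toReal).pow_const n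
    have e2 : Measurable (fun ω : (Fin m → E d) × (Fin (n + 1) → E d) => (∑ a, T a ω.2) / (sb n δ ω.2).toReal ^ m) :=
      (hTsm.comp measurable_snd).div (((measurable_sb δ).comp measurable_snd).ennreal_toReal.pow_const m)
    exact e1.mul e2
  have hχint : ∫⁻ ω, ENNReal.ofReal (χ ω) ∂P ≤ 1 := by
    have hG : Measurable (fun s : Fin (n + 1) → E d => ENNReal.ofReal (∑ a, T a s)) := hTsm.ennreal_ofReal
    have hlast : ∫⁻ s, ENNReal.ofReal (∑ a, T a s) ∂(Measure.pi (fun _ : Fin (n + 1) => p)) ≤ 1 := by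
      rw [← ofReal_integral_eq_lintegral_ofReal (integrable_finsetSum _ (fun a _ => (hTi a).1))
        (Filter.Eventually.of_forall (fun s => Finset.sum_nonneg (fun a _ => (hT0 a s).le)))]
      rw [integral_finsetSum _ (fun a _ => (hTi a).1), Finset.sum_congr rfl (fun a _ => (hTi a).2)]
      simp [hN.ne']
    refine le_trans ?_ (le_trans (lintegral_transfer (m := m) p hδ _ hG) hlast)
    refine lintegral_mono_ae ?_
    filter_upwards [h1, h2] with ω hω1 hω2
    have hmt : mass p δ ω.1 (ω.2 0) ≠ ⊤ := ne_top_of_le_ne_top ENNReal.one_ne_top (mass_le_one p δ ω.1 (ω.2 0))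
    have hst : sb n δ ω.2 ≠ ⊤ := ne_top_of_le_ne_top ENNReal.one_ne_top (sb_le_one δ ω.2)
    have hs0 : sb n δ ω.2 ≠ 0 := (lt_of_lt_of_le hκ hω2).ne'
    have hBpos : 0 < (sb n δ ω.2).toReal := ENNReal.toReal_pos hs0 hst
    have hMpos : 0 < (mass p δ ω.1 (ω.2 0)).toReal := ENNReal.toReal_pos hω1 hmt
    simp only [χ]
    rw [ENNReal.ofReal_mul (by positivity), ENNReal.ofReal_pow hMpos.le,
      ENNReal.ofReal_div_of_pos (by positivity), ENNReal.ofReal_pow hBpos.le,
      ENNReal.ofReal_toReal hmt, ENNReal.ofReal_toReal hst]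
  have hpt : ∀ᵐ ω ∂P, ψ ω ≤ χ ω - 1 := by
    filter_upwards [h1, h2, same_ae (m := m) (n := n) p δ] with ω hω1 hω2 hω3
    have hmt : mass p δ ω.1 (ω.2 0) ≠ ⊤ := ne_top_of_le_ne_top ENNReal.one_ne_top (mass_le_one p δ ω.1 (ω.2 0))
    have hst : sb n δ ω.2 ≠ ⊤ := ne_top_of_le_ne_top ENNReal.one_ne_top (sb_le_one δ ω.2)
    have hs0 : sb n δ ω.2 ≠ 0 := (lt_of_lt_of_le hκ hω2).ne'
    have hBpos : 0 < (sb n δ ω.2).toReal := ENNReal.toReal_pos hs0 hst
    have hMpos : 0 < (mass p δ ω.1 (ω.2 0)).toReal := ENNReal.toReal_pos hω1 hmt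
    set M := (mass p δ ω.1 (ω.2 0)).toReal with hM
    set B := (sb n δ ω.2).toReal with hB
    have hx : ∀ a, 0 < M ^ n * (T a ω.2 / B ^ m) := fun a =>
      mul_pos (pow_pos hMpos n) (div_pos (hT0 a _) (pow_pos hBpos m))
    have hlogx : ∀ a, Real.log (M ^ n * (T a ω.2 / B ^ m)) =
        -Real.log (Fintype.card A) + ∑ j, l a (ω.2 j) + n * Real.log M - m * Real.log B := by
      intro a
      rw [Real.log_mul (pow_pos hMpos n).ne' (div_pos (hT0 a _) (pow_pos hBpos m)).ne',
        Real.log_div (hT0 a _).ne' (pow_pos hBpos m).ne', Real.log_pow, Real.log_pow]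
      simp only [T]
      rw [Real.log_mul (inv_pos.2 hN).ne' (Finset.prod_pos (fun j _ => div_pos (hg0 a _) (hw0 a))).ne',
        Real.log_inv, Real.log_prod (fun j _ => (div_pos (hg0 a _) (hw0 a)).ne')]
      simp only [hl]
      ring
    have hcst : ∀ a j, h a ω.1 (ω.2 j) = h a ω.1 (ω.2 0) := fun a j => hcell a _ _ _ (hω3 j)
    have e1 : ψ ω = ∑ a, h a ω.1 (ω.2 0) * Real.log (M ^ n * (T a ω.2 / B ^ m)) := by
      simp only [ψ]
      simp_rw [hlogx, hcst]
      have e2 : ∀ a, h a ω.1 (ω.2 0) * (-Real.log (Fintype.card A) + ∑ j, l a (ω.2 j) + n * Real.log M - m * Real.log B)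
          = (∑ j : Fin (n + 1), h a ω.1 (ω.2 0) * l a (ω.2 j)) + h a ω.1 (ω.2 0) * (-Real.log (Fintype.card A) + n * Real.log M - m * Real.log B) := by
        intro a; rw [← Finset.mul_sum]; ring
      rw [Finset.sum_congr rfl (fun a _ => e2 a), Finset.sum_add_distrib, ← Finset.sum_mul, hsum]
      rw [← hM, ← hB]
      ring
    have e3 : χ ω - 1 = ∑ a, (M ^ n * (T a ω.2 / B ^ m) - h a ω.1 (ω.2 0)) := by
      rw [Finset.sum_sub_distrib, hsum]
      change M ^ n * ((∑ a, T a ω.2) / B ^ m) - 1 = _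
      rw [Finset.sum_div, Finset.mul_sum]
    rw [e1, e3]
    exact Finset.sum_le_sum (fun a _ => mul_log_le (hx a) (h0 a _ _) (hle1 a _ _))
  have hχ0 : 0 ≤ᵐ[P] χ := by
    refine Filter.Eventually.of_forall (fun ω => ?_)
    simp only [χ, Pi.zero_apply]
    refine mul_nonneg (by positivity) (div_nonneg (Finset.sum_nonneg (fun a _ => (hT0 a _).le)) (by positivity))
  have hfin := int_nonpos_of_exp (P := P) hψ hχm.aemeasurable hpt hχ0 hχint
  rw [hval] at hfin
  have h6 : (n : ℝ) * (-∫ ω, Real.log (mass p δ ω.1 (ω.2 0)).toReal ∂P) ≤ n * (m * (Real.log (R / δ) + 4)) := by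
    gcongr
  linarith

end P309
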