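import Vale.Agent.P309.Cells
open MeasureTheory ProbabilityTheory Filter
open scoped RealInnerProductSpace ENNReal Topology
namespace P309

/-- splitting of the information functional -/
theorem info_eq {d : ℕ} {p : Measure (E d)} [IsProbabilityMeasure p] {A : Type} [Fintype A]
    (g : A → E d → ℝ) (hgm : ∀ a, Measurable (g a)) (g0 : ∀ a v, 0 ≤ g a v) (g1 : ∀ a v, g a v ≤ 1) :
    info p g = ∑ a, (∫ v, g a v * Real.log (g a v) ∂p
      - (∫ v, g a v ∂p) * Real.log (∫ v, g a v ∂p)) := by
  unfold info
  refine Finset.sum_congr rfl (fun a _ => ?_)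
  have hgi : Integrable (g a) p := by
    refine Integrable.mono' (integrable_const (1 : ℝ)) (hgm a).aestronglyMeasurable ?_
    refine Eventually.of_forall (fun v => ?_)
    rw [Real.norm_eq_abs, abs_of_nonneg (g0 a v)]; exact g1 a v
  have hli : Integrable (fun v => g a v * Real.log (g a v)) p := by
    refine Integrable.mono' (integrable_const (1 : ℝ)) ((hgm a).mul (Real.measurable_log.comp (hgm a))).aestronglyMeasurable ?_
    refine Eventually.of_forall (fun v => ?_)
    rw [Real.norm_eq_abs, mul_comm]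
    rcases (g0 a v).eq_or_lt with h | h
    · rw [← h]; simp
    · exact (Real.abs_log_mul_self_lt _ h (g1 a v)).le
  set w := ∫ v, g a v ∂p with hw
  have hw0 : 0 ≤ w := integral_nonneg (g0 a)
  rcases hw0.eq_or_lt with h | h
  · have hz : g a =ᵐ[p] 0 := (integral_eq_zero_iff_of_nonneg (g0 a) hgi).1 h.symm
    have e1 : ∫ v, g a v * Real.log (g a v / w) ∂p = 0 := by
      rw [integral_eq_zero_of_ae]
      filter_upwards [hz] with v hv
      simp [hv]
    have e2 : ∫ v, g a v * Real.log (g a v) ∂p = 0 := by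
      rw [integral_eq_zero_of_ae]
      filter_upwards [hz] with v hv
      simp [hv]
    rw [e1, e2, ← h]; simp
  · have e1 : ∀ v, g a v * Real.log (g a v / w) = g a v * Real.log (g a v) - g a v * Real.log w := by
      intro v
      rcases (g0 a v).eq_or_lt with h' | h'
      · rw [← h']; simp
      · rw [Real.log_div h'.ne' h.ne']; ring
    simp_rw [e1]
    rw [integral_sub hli (hgi.mul_const _), integral_mul_const]

/-- convergence of the information functional -/
theorem info_tendsto {d : ℕ} {p : Measure (E d)} [IsProbabilityMeasure p] {A : Type} [Fintype A]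
    (g : A → E d → ℝ) (hgm : ∀ a, Measurable (g a)) (g0 : ∀ a v, 0 ≤ g a v) (g1 : ∀ a v, g a v ≤ 1)
    (G : ℕ → A → E d → ℝ) (hGm : ∀ n a, Measurable (G n a)) (G0 : ∀ n a v, 0 ≤ G n a v)
    (G1 : ∀ n a v, G n a v ≤ 1)
    (hlim : ∀ a, ∀ᵐ v ∂p, Tendsto (fun n => G n a v) atTop (𝓝 (g a v))) :
    Tendsto (fun n => info p (G n)) atTop (𝓝 (info p g)) := by
  have e1 : ∀ n, info p (G n) = ∑ a, (∫ v, G n a v * Real.log (G n a v) ∂p
      - (∫ v, G n a v ∂p) * Real.log (∫ v, G n a v ∂p)) := fun n => info_eq (G n) (hGm n) (G0 n) (G1 n)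
  rw [info_eq g hgm g0 g1]
  simp_rw [e1]
  refine tendsto_finsetSum _ (fun a _ => ?_)
  have t1 : Tendsto (fun n => ∫ v, G n a v ∂p) atTop (𝓝 (∫ v, g a v ∂p)) := by
    refine tendsto_integral_of_dominated_convergence (fun _ => (1 : ℝ)) (fun n => (hGm n a).aestronglyMeasurable)
      (integrable_const _) (fun n => Eventually.of_forall (fun v => ?_)) (hlim a)
    rw [Real.norm_eq_abs, abs_of_nonneg (G0 n a v)]; exact G1 n a v
  have t2 : Tendsto (fun n => ∫ v, G n a v * Real.log (G n a v) ∂p) atTop (𝓝 (∫ v, g a v * Real.log (g a v) ∂p)) := by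
    refine tendsto_integral_of_dominated_convergence (fun _ => (1 : ℝ))
      (fun n => ((hGm n a).mul (Real.measurable_log.comp (hGm n a))).aestronglyMeasurable)
      (integrable_const _) (fun n => Eventually.of_forall (fun v => ?_)) ?_
    · rw [Real.norm_eq_abs, mul_comm]
      rcases (G0 n a v).eq_or_lt with h | h
      · rw [← h]; simp
      · exact (Real.abs_log_mul_self_lt _ h (G1 n a v)).le
    · filter_upwards [hlim a] with v hv
      exact (Real.continuous_mul_log.tendsto _).comp hv
  exact t2.sub ((Real.continuous_mul_log.tendsto _).comp t1)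

end P309
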