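import Vale.Agent.P309.Defs
import Vale.Agent.P309.Unif

open MeasureTheory ProbabilityTheory Metric Module
open scoped RealInnerProductSpace ENNReal Pointwise

namespace P309

namespace UC

variable {d : ℕ}

/-- the box with center `c` and half side `r` -/
def box (c : Fin d → ℝ) (r : ℝ) : Set (E d) := {x | ∀ i, x i ∈ Set.Icc (c i - r) (c i + r)}

theorem volume_box (c : Fin d → ℝ) {r : ℝ} (hr : 0 ≤ r) :
    (volume : Measure (E d)) (box c r) = ENNReal.ofReal ((2 * r) ^ d) := by
  have hmp := PiLp.volume_preserving_ofLp (Fin d)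
  have hset : box c r = (fun x : E d => (WithLp.ofLp x : Fin d → ℝ)) ⁻¹'
      (Set.Icc (fun i => c i - r) (fun i => c i + r)) := by
    ext x
    simp only [box, Set.mem_ofPred_eq, Set.mem_preimage, Set.mem_Icc, Pi.le_def]
    constructor
    · intro h
      exact ⟨fun i => (h i).1, fun i => (h i).2⟩
    · intro h i
      exact ⟨h.1 i, h.2 i⟩
  rw [hset, hmp.measure_preimage measurableSet_Icc.nullMeasurableSet, Real.volume_Icc_pi]
  have : ∀ i : Fin d, c i + r - (c i - r) = 2 * r := fun i => by ring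
  simp only [this]
  rw [Finset.prod_const, Finset.card_univ, Fintype.card_fin, ENNReal.ofReal_pow (by positivity)]

theorem box_subset_ball (hd : 1 ≤ d) : box (d := d) (fun _ => 0) (1 / (2 * Real.sqrt d)) ⊆ ball 0 1 := by
  intro x hx
  have hdpos : (0 : ℝ) < d := by exact_mod_cast hd
  rw [mem_ball, dist_zero_right, EuclideanSpace.norm_eq, Real.sqrt_lt' one_pos, one_pow]
  have hcoord : ∀ i, ‖x i‖ ^ 2 ≤ 1 / (4 * d) := by
    intro i
    have h1 := hx i
    rw [Set.mem_Icc] at h1
    have h2 : ‖x i‖ ≤ 1 / (2 * Real.sqrt d) := by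
      rw [Real.norm_eq_abs, abs_le]
      constructor <;> linarith [h1.1, h1.2]
    calc ‖x i‖ ^ 2 ≤ (1 / (2 * Real.sqrt d)) ^ 2 := by gcongr
      _ = 1 / (4 * (d : ℝ)) := by
        rw [div_pow, mul_pow, Real.sq_sqrt hdpos.le]; norm_num
  calc ∑ i, ‖x i‖ ^ 2 ≤ ∑ _i : Fin d, 1 / (4 * (d : ℝ)) := Finset.sum_le_sum fun i _ => hcoord i
    _ = 1 / 4 := by
      rw [Finset.sum_const, Finset.card_univ, Fintype.card_fin, nsmul_eq_mul]
      field_simp
    _ < 1 := by norm_num

theorem cone_subset (hd : 1 ≤ d) {j : ℕ} (hj : j ≠ 0) (v : E d) {N : ℕ}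
    (hN : Real.sqrt d * 2 ^ j ≤ N) :
    Set.Ioo (0 : ℝ) 1 • ((↑) '' ((Subtype.val : sphere (0 : E d) 1 → E d) ⁻¹' (cell d j v)) : Set (E d)) ⊆
      ⋃ k ∈ Finset.range N, box (fun i => ((k : ℝ) / N) * ((cube d j v i : ℝ) * (Real.sqrt d * 2 ^ j)⁻¹))
        (2 * (Real.sqrt d * 2 ^ j)⁻¹) := by
  have hdpos : (0 : ℝ) < d := by exact_mod_cast hd
  set b : ℝ := Real.sqrt d * 2 ^ j with hb
  have hbpos : 0 < b := by positivity
  have hNpos : (0 : ℝ) < N := hbpos.trans_le hN
  rintro x ⟨r, ⟨hr0, hr1⟩, w, ⟨w', hw', rfl⟩, rfl⟩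
  have hwcell : cube d j (w' : E d) = cube d j v := hw'
  have hwn : ‖(w' : E d)‖ = 1 := by
    have := w'.2
    rwa [mem_sphere, dist_zero_right] at this
  set k := ⌊r * N⌋₊ with hk
  have hrN : 0 ≤ r * N := by positivity
  have hk1 : (k : ℝ) ≤ r * N := Nat.floor_le hrN
  have hk2 : r * N < k + 1 := Nat.lt_floor_add_one _
  have hkN : k < N := by
    have : (k : ℝ) < N := by nlinarith
    exact_mod_cast this
  refine Set.mem_iUnion₂.2 ⟨k, Finset.mem_range.2 hkN, ?_⟩
  intro i
  have hwi : |(w' : E d) i| ≤ 1 := by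
    have := EuclideanSpace.norm_eq (w' : E d)
    have h2 : ‖(w' : E d) i‖ ≤ ‖(w' : E d)‖ := PiLp.norm_apply_le _ i
    rw [hwn, Real.norm_eq_abs] at h2
    exact h2
  have hfl : (cube d j v i : ℤ) = ⌊b * (w' : E d) i⌋ := by
    rw [← hwcell]
    simp [cube, hj, hb]
  set n : ℤ := cube d j v i with hn
  have hn1 : (n : ℝ) ≤ b * (w' : E d) i := by rw [hfl]; exact Int.floor_le _
  have hn2 : b * (w' : E d) i < n + 1 := by rw [hfl]; exact Int.lt_floor_add_one _
  have hc1 : |(w' : E d) i - n * b⁻¹| ≤ b⁻¹ := by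
    have h1 : (w' : E d) i - n * b⁻¹ = (b * (w' : E d) i - n) * b⁻¹ := by field_simp
    rw [h1, abs_mul, abs_of_pos (inv_pos.2 hbpos)]
    have h2 : |b * (w' : E d) i - n| ≤ 1 := by
      rw [abs_le]; constructor <;> linarith
    calc |b * (w' : E d) i - n| * b⁻¹ ≤ 1 * b⁻¹ := by gcongr
      _ = b⁻¹ := one_mul _
  have hq0 : 0 ≤ (k : ℝ) / N := by positivity
  have hq1 : (k : ℝ) / N ≤ 1 := by
    rw [div_le_one hNpos]
    exact_mod_cast hkN.le
  have hrq : |r - k / N| ≤ b⁻¹ := by
    have h1 : r - k / N = (r * N - k) / N := by field_simp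
    rw [h1, abs_div, abs_of_pos hNpos]
    have h2 : |r * N - k| ≤ 1 := by
      rw [abs_le]; constructor <;> linarith
    calc |r * N - k| / N ≤ 1 / N := by gcongr
      _ ≤ 1 / b := by gcongr
      _ = b⁻¹ := one_div b
  have hmain : |r * (w' : E d) i - (k : ℝ) / N * (n * b⁻¹)| ≤ 2 * b⁻¹ := by
    have h1 : r * (w' : E d) i - (k : ℝ) / N * (n * b⁻¹) =
        (r - k / N) * (w' : E d) i + (k / N) * ((w' : E d) i - n * b⁻¹) := by ring
    rw [h1]
    calc |(r - k / N) * (w' : E d) i + (k / N) * ((w' : E d) i - n * b⁻¹)|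
        ≤ |(r - k / N) * (w' : E d) i| + |(k / N) * ((w' : E d) i - n * b⁻¹)| := abs_add_le _ _
      _ = |r - k / N| * |(w' : E d) i| + (k / N) * |(w' : E d) i - n * b⁻¹| := by
          rw [abs_mul, abs_mul, abs_of_nonneg hq0]
      _ ≤ b⁻¹ * 1 + 1 * b⁻¹ := by gcongr
      _ = 2 * b⁻¹ := by ring
  have hx : (r • (w' : E d)) i = r * (w' : E d) i := by simp
  show (r • (w' : E d)) i ∈ Set.Icc _ _
  rw [hx, Set.mem_Icc]
  rw [abs_le] at hmain
  constructor <;> linarith [hmain.1, hmain.2]

end UC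

theorem unif_cell {d : ℕ} (hd : 2 ≤ d) (j : ℕ) (v : E d) :
    (unif d).map Subtype.val (cell d j v) ≤ ENNReal.ofReal (16 ^ d / 2 ^ (j * (d - 1))) := by
  have hd1 : 1 ≤ d := by omega
  have hdpos : (0 : ℝ) < d := by exact_mod_cast hd1
  have hcm : MeasurableSet (cell d j v) := by
    have hc : Measurable (cube d j) := by
      unfold cube
      by_cases h : j = 0
      · simp only [h, if_true]; exact measurable_const
      · simp only [h, if_false]
        refine measurable_pi_lambda _ (fun i => ?_)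
        apply Int.measurable_floor.comp
        fun_prop
    exact hc (measurableSet_singleton _)
  rw [Measure.map_apply measurable_subtype_coe hcm, unif, Measure.smul_apply, smul_eq_mul]
  rcases Nat.eq_zero_or_pos j with rfl | hj
  · have h1 : ((volume : Measure (E d)).toSphere Set.univ)⁻¹ *
        (volume : Measure (E d)).toSphere (Subtype.val ⁻¹' cell d 0 v) ≤ 1 := by
      calc _ ≤ ((volume : Measure (E d)).toSphere Set.univ)⁻¹ *
            (volume : Measure (E d)).toSphere Set.univ := by gcongr; exact Set.subset_univ _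
        _ ≤ 1 := ENNReal.inv_mul_le_one _
    refine h1.trans ?_
    rw [Nat.zero_mul, pow_zero, div_one, ← ENNReal.ofReal_one]
    exact ENNReal.ofReal_le_ofReal (one_le_pow₀ (by norm_num))
  · have hjne : j ≠ 0 := hj.ne'
    set b : ℝ := Real.sqrt d * 2 ^ j with hb
    have hsq1 : 1 ≤ Real.sqrt d := Real.one_le_sqrt.2 (by exact_mod_cast hd1)
    have hb1 : 1 ≤ b := one_le_mul_of_one_le_of_one_le hsq1 (one_le_pow₀ (by norm_num))
    have hbpos : 0 < b := by positivity
    set N := ⌈b⌉₊ with hN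
    have hNb : b ≤ N := Nat.le_ceil b
    have hN2 : (N : ℝ) ≤ 2 * b := by
      have := Nat.ceil_lt_add_one hbpos.le
      linarith
    have hcone : volume (Set.Ioo (0 : ℝ) 1 •
        ((↑) '' ((Subtype.val : sphere (0 : E d) 1 → E d) ⁻¹' (cell d j v)) : Set (E d))) ≤
        ENNReal.ofReal (2 * b * (4 * b⁻¹) ^ d) := by
      calc _ ≤ volume (⋃ k ∈ Finset.range N, UC.box (d := d) (fun i => ((k : ℝ) / N) *
            ((cube d j v i : ℝ) * b⁻¹)) (2 * b⁻¹)) := measure_mono (UC.cone_subset hd1 hjne v hNb)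
        _ ≤ ∑ k ∈ Finset.range N, volume (UC.box (d := d) (fun i => ((k : ℝ) / N) *
            ((cube d j v i : ℝ) * b⁻¹)) (2 * b⁻¹)) := measure_biUnion_finset_le _ _
        _ = ∑ k ∈ Finset.range N, ENNReal.ofReal ((4 * b⁻¹) ^ d) := by
            refine Finset.sum_congr rfl fun k _ => ?_
            rw [UC.volume_box _ (by positivity)]
            congr 2
            ring
        _ = ENNReal.ofReal (N * (4 * b⁻¹) ^ d) := by
            rw [Finset.sum_const, Finset.card_range, nsmul_eq_mul,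
              ENNReal.ofReal_mul (by positivity), ENNReal.ofReal_natCast]
        _ ≤ _ := by
            apply ENNReal.ofReal_le_ofReal
            gcongr
    have hball : ENNReal.ofReal ((1 / Real.sqrt d) ^ d) ≤ volume (ball (0 : E d) 1) := by
      calc ENNReal.ofReal ((1 / Real.sqrt d) ^ d) =
            volume (UC.box (d := d) (fun _ => 0) (1 / (2 * Real.sqrt d))) := by
            rw [UC.volume_box _ (by positivity)]
            congr 2
            field_simp
        _ ≤ _ := measure_mono (UC.box_subset_ball hd1)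
    have hms : MeasurableSet ((Subtype.val : sphere (0 : E d) 1 → E d) ⁻¹' (cell d j v)) :=
      measurable_subtype_coe hcm
    rw [Measure.toSphere_apply_univ, Measure.toSphere_apply' _ hms, mul_comm, ← div_eq_mul_inv,
      ENNReal.mul_div_mul_left _ _ (by simp [finrank_euclideanSpace]; omega) (by simp)]
    calc _ ≤ ENNReal.ofReal (2 * b * (4 * b⁻¹) ^ d) / ENNReal.ofReal ((1 / Real.sqrt d) ^ d) := by
          gcongr
      _ = ENNReal.ofReal ((2 * b * (4 * b⁻¹) ^ d) / ((1 / Real.sqrt d) ^ d)) := by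
          rw [ENNReal.ofReal_div_of_pos (by positivity)]
      _ ≤ _ := by
          apply ENNReal.ofReal_le_ofReal
          obtain ⟨e, rfl⟩ : ∃ e, d = e + 1 := ⟨d - 1, by omega⟩
          rw [Nat.add_sub_cancel]
          set s := Real.sqrt ((e + 1 : ℕ) : ℝ) with hs
          have hspos : 0 < s := by positivity
          have h1 : (2 * b * (4 * b⁻¹) ^ (e + 1)) / ((1 / s) ^ (e + 1)) =
              2 * 4 ^ (e + 1) * s / 2 ^ (j * e) := by
            rw [hb, pow_mul, mul_pow 4, inv_pow, mul_pow s, one_div, inv_pow, pow_succ ((2 : ℝ) ^ j) e]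
            field_simp
          rw [h1]
          gcongr
          have h2 : 2 * s ≤ 4 ^ (e + 1) := by
            have h3 : s ≤ 2 ^ (e + 1) := by
              rw [hs]
              apply Real.sqrt_le_iff.2
              refine ⟨by positivity, ?_⟩
              have h4 : (((e + 1 : ℕ) : ℝ)) ≤ 2 ^ (e + 1) := by
                exact_mod_cast (Nat.lt_two_pow_self (n := e + 1)).le
              have h5 : (1 : ℝ) ≤ 2 ^ (e + 1) := one_le_pow₀ (by norm_num)
              nlinarith
            have h6 : (2 : ℝ) ≤ 2 ^ (e + 1) := by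
              rw [pow_succ]
              have : (1 : ℝ) ≤ 2 ^ e := one_le_pow₀ (by norm_num)
              linarith
            calc 2 * s ≤ 2 ^ (e + 1) * 2 ^ (e + 1) := by gcongr
              _ = 4 ^ (e + 1) := by rw [← mul_pow]; norm_num
          calc 2 * 4 ^ (e + 1) * s = 4 ^ (e + 1) * (2 * s) := by ring
            _ ≤ 4 ^ (e + 1) * 4 ^ (e + 1) := by gcongr
            _ = 16 ^ (e + 1) := by rw [← mul_pow]; norm_num

end P309
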