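import Vale.Agent.P309.Extend
import Vale.Agent.P309.ChainNum
import Vale.Agent.P309.UnifCell
import Vale.Agent.P309.FinalNum
open MeasureTheory ProbabilityTheory Filter
open scoped RealInnerProductSpace ENNReal Topology
namespace P309

theorem unifSphere_eq (d : ℕ) : unifSphere (E d) = unif d := rfl

theorem unif_prob {d : ℕ} (hd : 1 ≤ d) : IsProbabilityMeasure (unifSphere (E d)) := by
  have : Nonempty (Fin d) := ⟨⟨0, hd⟩⟩
  have : Nontrivial (E d) := inferInstance
  have h0 : (volume : Measure (E d)).toSphere ≠ 0 := Measure.toSphere_ne_zero _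
  constructor
  unfold unifSphere
  rw [Measure.smul_apply, smul_eq_mul]
  exact ENNReal.inv_mul_cancel (by rwa [Ne, Measure.measure_univ_eq_zero]) (measure_ne_top _ _)

section
variable {d N : ℕ}

theorem vf_mono {A : Type} [Fintype A] [DecidableEq A] (Sr : StepRule d A) (f g : A → E d → ℝ) (v : E d)
    (h : ∀ a, f a v ≤ g a v) : ∀ k t a, vf Sr f k t a v ≤ vf Sr g k t a v
  | 0, t, a => h a
  | k + 1, t, a => by
      rw [vf_succ, vf_succ]
      exact Finset.sum_le_sum (fun c _ => mul_le_mul_of_nonneg_left (vf_mono Sr f g v h k (t + 1) c) (av_nonneg Sr t a c v))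

/-- output laws of the extended chain, as measures on the whole space -/
noncomputable def outE (L : Learner (E d) N) (T : ℕ) (a : Ext T N) : Measure (E d) :=
  (L.out (min (a.1 : ℕ) T) a.2).map Subtype.val

theorem outE_prob (L : Learner (E d) N) (T : ℕ) (a : Ext T N) : IsProbabilityMeasure (outE L T a) := by
  have := L.out_prob (min (a.1 : ℕ) T) a.2
  exact Measure.isProbabilityMeasure_map measurable_subtype_coe.aemeasurable

theorem accept_le_acc (L : Learner (E d) N) (T J : ℕ) {ε : ℝ} (hJ : ε ≤ 2 / 2 ^ J) (a : Ext T N) (s : Sph (E d)) :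
    accept L T ε a s ≤ acc (outE L T) J a s := by
  have := L.out_prob (min (a.1 : ℕ) T) a.2
  unfold accept acc outE
  rw [Measure.real, Measure.real, Measure.map_apply measurable_subtype_coe Metric.isClosed_closedBall.measurableSet]
  refine ENNReal.toReal_mono (measure_ne_top _ _) (measure_mono ?_)
  intro s' hs'
  rw [Set.mem_preimage, Metric.mem_closedBall]
  have h1 : ‖(s' : E d)‖ = 1 := by simp
  have h2 : ‖(s : E d)‖ = 1 := by simp
  exact le_trans (dist_le_of_arccos (s' : E d) (s : E d) h1 h2 hs') hJ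

theorem learner_bound (hd : 16 ≤ d) (L : Learner (E d) N) (T M : ℕ) (hN : N ≤ 2 ^ M) {ε : ℝ}
    (hs : (2 / 3 : ℝ≥0∞) ≤ L.success T ε) (J n τ : ℕ) (hJ : ε ≤ 2 / 2 ^ J) (hn : T ≤ n * (d / 8))
    (hτ : T + 2 ≤ 2 ^ τ) :
    J * (d - 1) ≤ (M + τ + 1) + 20 * d + 1 ∧
      (J : ℝ) ≤ 400 + 700 * (n * (1 + ((M + τ + 1 : ℕ) : ℝ) / d ^ 2)) := by
  have hinit := L.init_prob
  have hNpos : 0 < N := by
    rcases Nat.eq_zero_or_pos N with h | h
    · subst h
      have h1 : L.init Set.univ = 1 := measure_univ
      rw [Set.univ_eq_empty_iff.2 (inferInstance : IsEmpty (Fin 0 × Bool)), measure_empty] at h1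
      exact absurd h1 zero_ne_one
    · exact h
  have : Nonempty (Fin N) := ⟨⟨0, hNpos⟩⟩
  have hup := unif_prob (d := d) (by omega)
  set μ : Measure (E d) := (unifSphere (E d)).map Subtype.val with hμdef
  have hμp : IsProbabilityMeasure μ := Measure.isProbabilityMeasure_map measurable_subtype_coe.aemeasurable
  have hμ : μ (Metric.closedBall 0 1)ᶜ = 0 := by
    rw [hμdef, Measure.map_apply measurable_subtype_coe Metric.isClosed_closedBall.measurableSet.compl]
    have : (Subtype.val : Sph (E d) → E d) ⁻¹' (Metric.closedBall 0 1)ᶜ = ∅ := by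
      ext s
      simp only [Set.mem_preimage, Set.mem_compl_iff, Metric.mem_closedBall, Set.mem_empty_iff_false, iff_false, not_not]
      exact le_of_eq s.2
    rw [this, measure_empty]
  have hμc : ∀ j v, μ (cell d j v) ≤ ENNReal.ofReal (16 ^ d / 2 ^ (j * (d - 1))) :=
    fun j v => unif_cell (by omega) j v
  have hop := outE_prob L T
  set m := d / 8 with hm
  set H := toBlock (rule L T) m n with hH
  have hcard : ((Fintype.card (Ext T N) : ℕ) : ℝ) + 1 ≤ 2 ^ (M + τ + 1) := by
    have h1 : Fintype.card (Ext T N) = (T + 2) * N := by simp [Ext]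
    rw [h1]
    have h2 : (T + 2) * N ≤ 2 ^ τ * 2 ^ M := Nat.mul_le_mul hτ hN
    have h3 : 1 ≤ 2 ^ τ * 2 ^ M := Nat.one_le_iff_ne_zero.2 (by positivity)
    have h4 : (T + 2) * N + 1 ≤ 2 ^ (M + τ + 1) := by
      have : 2 ^ (M + τ + 1) = 2 * (2 ^ τ * 2 ^ M) := by ring
      omega
    exact_mod_cast h4
  by_contra hcon
  have hlt : ∀ a : Ext T N, ∫ v, val H (acc (outE L T) J) n a v ∂μ < 2 / 3 := by
    intro a
    by_contra h
    exact hcon (chain_num (μ := μ) hd hm hμ hμc H (outE L T) J n (M + τ + 1) hcard a (not_lt.1 h))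
  obtain ⟨a₀, ha₀⟩ := Finite.exists_max (fun a : Ext T N => ∫ v, val H (acc (outE L T) J) n a v ∂μ)
  set q := ∫ v, val H (acc (outE L T) J) n a₀ v ∂μ with hq
  have hfm := acc_measurable (d := d) (outE L T) J
  have hvm := fun a => val_measurable H (acc (outE L T) J) hfm n a
  have hv0 := fun a v => val_nonneg H (acc (outE L T) J) (acc_nonneg (outE L T) J) n a v
  have hv1 := fun a v => val_le_one H (acc (outE L T) J) (acc_le_one (outE L T) J) n a v
  -- bound of the inner integrals
  have hinner : ∀ s : Sph (E d), ∫⁻ w, (if w.2 then L.out 0 w.1 (close ε s) else L.win ε s T 0 w.1) ∂L.init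
      ≤ ∑ w : Fin N × Bool, ENNReal.ofReal (val H (acc (outE L T) J) n (enc T 0 w) s) * L.init {w} := by
    intro s
    rw [lintegral_fintype]
    refine Finset.sum_le_sum (fun w _ => ?_)
    gcongr
    have e1 : (if w.2 then L.out 0 w.1 (close ε s) else L.win ε s T 0 w.1)
        = ENNReal.ofReal (vf (rule L T) (accept L T ε) (n * m) 0 (enc T 0 w) s) := by
      obtain ⟨z, b⟩ := w
      cases b
      · simp only [Bool.false_eq_true, if_false, enc]
        have := win_eq L T ε (s : E d) (n * m) 0 z (Nat.zero_le _) (by simpa using hn)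
        simpa using this
      · have e2' : (Fin.ofNat (T + 2) 0 : Fin (T + 2)) ≠ Fin.last (T + 1) := by
          intro h
          have := congrArg Fin.val h
          simp at this
        simp only [if_true, enc]
        rw [vf_absorbed L T _ _ (n * m) 0 _ (Or.inl e2')]
        have := L.out_prob 0 z
        have e3 : min ((Fin.ofNat (T + 2) 0 : Fin (T + 2)) : ℕ) T = 0 := by simp
        simp only [accept]
        rw [e3, Measure.real, ENNReal.ofReal_toReal (measure_ne_top _ _)]
    rw [e1]
    apply ENNReal.ofReal_le_ofReal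
    have e2 := val_eq_vf (rule L T) m n (acc (outE L T) J) (s : E d) n le_rfl (enc T 0 w)
    rw [Nat.sub_self, Nat.zero_mul] at e2
    rw [hH, e2]
    exact vf_mono (rule L T) _ _ (s : E d) (fun a => accept_le_acc L T J hJ a s) _ _ _
  have hfin : L.success T ε ≤ ENNReal.ofReal q := by
    unfold Learner.success
    calc ∫⁻ s : Sph (E d), ∫⁻ w, (if w.2 then L.out 0 w.1 (close ε s) else L.win ε s T 0 w.1) ∂L.init ∂(unifSphere (E d))
        ≤ ∫⁻ s : Sph (E d), ∑ w : Fin N × Bool, ENNReal.ofReal (val H (acc (outE L T) J) n (enc T 0 w) s) * L.init {w} ∂(unifSphere (E d)) :=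
          lintegral_mono hinner
      _ = ∑ w : Fin N × Bool, (∫⁻ s : Sph (E d), ENNReal.ofReal (val H (acc (outE L T) J) n (enc T 0 w) s) ∂(unifSphere (E d))) * L.init {w} := by
          rw [lintegral_finsetSum]
          · refine Finset.sum_congr rfl (fun w _ => ?_)
            exact lintegral_mul_const _ ((hvm _).comp measurable_subtype_coe).ennreal_ofReal
          · exact fun w _ => (((hvm _).comp measurable_subtype_coe).ennreal_ofReal).mul_const _
      _ ≤ ∑ w : Fin N × Bool, ENNReal.ofReal q * L.init {w} := by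
          refine Finset.sum_le_sum (fun w _ => ?_)
          gcongr
          have e1 : ∫⁻ s : Sph (E d), ENNReal.ofReal (val H (acc (outE L T) J) n (enc T 0 w) s) ∂(unifSphere (E d))
              = ∫⁻ v, ENNReal.ofReal (val H (acc (outE L T) J) n (enc T 0 w) v) ∂μ := by
            rw [hμdef, lintegral_map (hvm _).ennreal_ofReal measurable_subtype_coe]
          rw [e1, ← ofReal_integral_eq_lintegral_ofReal (int_of_bdd (hvm _) (hv0 _) (hv1 _))
            (Eventually.of_forall (fun v => hv0 _ v))]
          exact ENNReal.ofReal_le_ofReal (ha₀ _)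
      _ = ENNReal.ofReal q := by
          rw [← Finset.mul_sum]
          have h1 := lintegral_fintype (μ := L.init) (fun _ : Fin N × Bool => (1 : ℝ≥0∞))
          rw [lintegral_one, measure_univ] at h1
          have h2 : ∑ w : Fin N × Bool, L.init {w} = 1 := by
            rw [h1]; exact Finset.sum_congr rfl (fun w _ => (one_mul _).symm)
          rw [h2, mul_one]
  have h23 : ENNReal.ofReal q < 2 / 3 := by
    have e1 : (2 / 3 : ℝ≥0∞) = ENNReal.ofReal (2 / 3) := by
      rw [ENNReal.ofReal_div_of_pos (by norm_num)]; norm_num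
    rw [e1]
    exact (ENNReal.ofReal_lt_ofReal_iff (by norm_num)).2 (hlt a₀)
  exact absurd (lt_of_le_of_lt (le_trans hs hfin) h23) (lt_irrefl _)

end
end P309
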