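import Vale.Agent.P309.ObsFil
open MeasureTheory ProbabilityTheory Filter
open scoped RealInnerProductSpace ENNReal Topology
namespace P309

/-- renormalisation of a vector into a strictly positive probability vector -/
noncomputable def nrm {A : Type} [Fintype A] (η : ℝ) (e : A → ℝ) (a : A) : ℝ :=
  (1 - η) * (if 0 < ∑ b, max 0 (e b) then max 0 (e a) / ∑ b, max 0 (e b) else (Fintype.card A : ℝ)⁻¹)
    + η * (Fintype.card A : ℝ)⁻¹

theorem nrm_sum {A : Type} [Fintype A] [Nonempty A] (η : ℝ) (e : A → ℝ) : ∑ a, nrm η e a = 1 := by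
  unfold nrm
  rw [Finset.sum_add_distrib, ← Finset.mul_sum]
  have hN : (Fintype.card A : ℝ) ≠ 0 := by exact_mod_cast Fintype.card_ne_zero
  have h2 : ∑ _a : A, η * (Fintype.card A : ℝ)⁻¹ = η := by simp; field_simp
  rw [h2]
  by_cases h : 0 < ∑ b, max 0 (e b)
  · simp only [h, if_true]
    rw [← Finset.sum_div, div_self h.ne']; ring
  · simp only [h, if_false]
    simp [hN]

theorem nrm_ge {A : Type} [Fintype A] {η : ℝ} (h1 : η ≤ 1) (e : A → ℝ) (a : A) :
    η * (Fintype.card A : ℝ)⁻¹ ≤ nrm η e a := by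
  unfold nrm
  have : 0 ≤ (1 - η) * (if 0 < ∑ b, max 0 (e b) then max 0 (e a) / ∑ b, max 0 (e b) else (Fintype.card A : ℝ)⁻¹) := by
    refine mul_nonneg (by linarith) ?_
    split_ifs with h
    · exact div_nonneg (le_max_left _ _) h.le
    · positivity
  linarith

theorem measurable_nrm {α : Type*} [MeasurableSpace α] {A : Type} [Fintype A] (η : ℝ) (e : A → α → ℝ)
    (he : ∀ a, Measurable (e a)) (a : A) : Measurable (fun q => nrm η (fun b => e b q) a) := by
  unfold nrm
  have hS : Measurable (fun q => ∑ b, max 0 (e b q)) :=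
    Finset.measurable_sum _ (fun b _ => measurable_const.max (he b))
  refine (Measurable.const_mul ?_ _).add_const _
  refine Measurable.ite (measurableSet_lt measurable_const hS) ((measurable_const.max (he a)).div hS) measurable_const

theorem tendsto_nrm {A : Type} [Fintype A] [Nonempty A] (η : ℕ → ℝ) (hη : Tendsto η atTop (𝓝 0))
    (e : ℕ → A → ℝ) (e' : A → ℝ) (h : ∀ a, Tendsto (fun n => e n a) atTop (𝓝 (e' a)))
    (h0 : ∀ a, 0 ≤ e' a) (h1 : ∑ a, e' a = 1) (a : A) :
    Tendsto (fun n => nrm (η n) (e n) a) atTop (𝓝 (e' a)) := by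
  have hm : ∀ b, Tendsto (fun n => max 0 (e n b)) atTop (𝓝 (e' b)) := by
    intro b
    have := (tendsto_const_nhds (x := (0 : ℝ))).max (h b)
    rwa [max_eq_right (h0 b)] at this
  have hS : Tendsto (fun n => ∑ b, max 0 (e n b)) atTop (𝓝 1) := by
    rw [← h1]; exact tendsto_finsetSum _ (fun b _ => hm b)
  have hev : ∀ᶠ n in atTop, 0 < ∑ b, max 0 (e n b) := hS.eventually (lt_mem_nhds one_pos)
  have hmain : Tendsto (fun n => (1 - η n) * (max 0 (e n a) / ∑ b, max 0 (e n b)) + η n * (Fintype.card A : ℝ)⁻¹)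
      atTop (𝓝 ((1 - 0) * (e' a / 1) + 0 * (Fintype.card A : ℝ)⁻¹)) :=
    ((tendsto_const_nhds.sub hη).mul ((hm a).div hS one_ne_zero)).add (hη.mul_const _)
  have hval : (1 - 0) * (e' a / 1) + 0 * (Fintype.card A : ℝ)⁻¹ = e' a := by ring
  rw [hval] at hmain
  refine hmain.congr' ?_
  filter_upwards [hev] with n hn
  unfold nrm
  rw [if_pos hn]

theorem frostman_info {d : ℕ} {p : Measure (E d)} [IsProbabilityMeasure p] {S : Set (E d)}
    {R D : ℝ} {m : ℕ} (hm : 1 ≤ m) (hp : Frostman p S R D (4 * m))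
    {A : Type} [Fintype A] [Nonempty A] (h : A → (Fin m → E d) → (Fin m → ℝ) → ℝ)
    (hmeas : ∀ a, Measurable (fun q : (Fin m → E d) × (Fin m → ℝ) => h a q.1 q.2))
    (h0 : ∀ a X y, 0 ≤ h a X y) (h1 : ∀ X y, ∑ a, h a X y = 1) :
    info p (fun a => chan (h a)) ≤
      Real.log (Fintype.card A) / (2 * m) + 16 * m + Real.log D := by
  have hR := hp.Rpos
  set P := (rows d m).prod p with hP
  have hle1 : ∀ a X y, h a X y ≤ 1 := by
    intro a X y
    rw [← h1 X y]
    exact Finset.single_le_sum (f := fun a => h a X y) (fun b _ => h0 b X y) (Finset.mem_univ a)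
  let G : A → (Fin m → E d) × E d → ℝ := fun a q => h a q.1 (fun i => ⟪q.1 i, q.2⟫)
  have hGlim : ∀ a, Measurable[⨆ n, obsFil d m hR n] (G a) := by
    intro a
    exact (hmeas a).comp (measurable_limit hR)
  have hGm : ∀ a, Measurable (G a) := by
    intro a
    refine (hGlim a).mono ?_ le_rfl
    exact iSup_le (fun n => (obsFil d m hR).le n)
  have hGi : ∀ a, Integrable (G a) P := by
    intro a
    refine Integrable.mono' (integrable_const (1 : ℝ)) (hGm a).aestronglyMeasurable ?_
    refine Eventually.of_forall (fun q => ?_)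
    rw [Real.norm_eq_abs, abs_of_nonneg (h0 _ _ _)]; exact hle1 _ _ _
  have hGsm : ∀ a, StronglyMeasurable[⨆ n, obsFil d m hR n] (G a) := fun a => (hGlim a).stronglyMeasurable
  have hconv : ∀ᵐ q ∂P, ∀ a, Tendsto (fun n => (P[G a | obsFil d m hR n]) q) atTop (𝓝 (G a q)) := by
    rw [ae_all_iff]
    exact fun a => (hGi a).tendsto_ae_condExp (hGsm a)
  let η : ℕ → ℝ := fun n => 1 / ((n : ℝ) + 2)
  have hη0 : ∀ n, 0 < η n := fun n => by simp only [η]; positivity
  have hη1 : ∀ n, η n ≤ 1 := fun n => by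
    simp only [η]
    rw [div_le_one (by positivity)]
    have : (0 : ℝ) ≤ n := Nat.cast_nonneg n
    linarith
  have hηlim : Tendsto η atTop (𝓝 0) := by
    have := tendsto_one_div_add_atTop_nhds_zero_nat (𝕜 := ℝ)
    have h2 := (tendsto_add_atTop_iff_nat 1).2 this
    refine h2.congr (fun n => ?_)
    simp only [η]; push_cast; ring
  let H : ℕ → A → (Fin m → E d) → E d → ℝ := fun n a X v =>
    nrm (η n) (fun b => (P[G b | obsFil d m hR n]) (X, v)) a
  have hHfil : ∀ n a, Measurable[obsFil d m hR n] (fun q : (Fin m → E d) × E d => H n a q.1 q.2) := by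
    intro n a
    exact @measurable_nrm _ (obsFil d m hR n) A _ (η n) (fun b q => (P[G b | obsFil d m hR n]) q)
      (fun b => stronglyMeasurable_condExp.measurable) a
  have hHm : ∀ n a, Measurable (fun q : (Fin m → E d) × E d => H n a q.1 q.2) :=
    fun n a => (hHfil n a).mono ((obsFil d m hR).le n) le_rfl
  have hHcell : ∀ n a X v v', (∀ i, ⌊⟪X i, v⟫ / (R / 2 ^ n)⌋ = ⌊⟪X i, v'⟫ / (R / 2 ^ n)⌋) → H n a X v = H n a X v' := by
    intro n a X v v' hvv
    have hf : (fun q : (Fin m → E d) × E d => H n a q.1 q.2).FactorsThrough (obs R n) :=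
      Measurable.factorsThrough (mY := inferInstance) (hHfil n a)
    have hobs : obs R n (X, v) = obs R n (X, v') := by
      simp only [obs]
      refine Prod.ext rfl ?_
      funext i
      exact hvv i
    exact hf hobs
  have hN : (0 : ℝ) < Fintype.card A := by exact_mod_cast Fintype.card_pos
  have hcell : ∀ n, info p (fun a v => ∫ X, H n a X v ∂(rows d m)) ≤
      Real.log (Fintype.card A) / (2 * m) + 16 * m + Real.log D := by
    intro n
    refine cell_info hm hp (δ := R / 2 ^ n) (by positivity) ?_ (H n) (hHm n) (η n * (Fintype.card A : ℝ)⁻¹)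
      (mul_pos (hη0 n) (inv_pos.2 hN)) (fun a X v => nrm_ge (hη1 n) _ a) (fun X v => nrm_sum _ _) (hHcell n)
    exact div_le_self hR.le (one_le_pow₀ (by norm_num))
  have hHpos : ∀ n a X v, 0 ≤ H n a X v := fun n a X v =>
    le_trans (mul_pos (hη0 n) (inv_pos.2 hN)).le (nrm_ge (hη1 n) _ a)
  have hHle : ∀ n a X v, H n a X v ≤ 1 := by
    intro n a X v
    rw [← nrm_sum (A := A) (η n) (fun b => (P[G b | obsFil d m hR n]) (X, v))]
    exact Finset.single_le_sum (f := fun a => H n a X v) (fun b _ => hHpos n b X v) (Finset.mem_univ a)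
  have hlimq : ∀ᵐ q ∂P, ∀ a, Tendsto (fun n => H n a q.1 q.2) atTop (𝓝 (G a q)) := by
    filter_upwards [hconv] with q hq a
    exact tendsto_nrm η hηlim (fun n b => (P[G b | obsFil d m hR n]) q) (fun b => G b q) hq
      (fun b => h0 _ _ _) (h1 _ _) a
  have hswap : ∀ᵐ v ∂p, ∀ᵐ X ∂(rows d m), ∀ a, Tendsto (fun n => H n a X v) atTop (𝓝 (G a (X, v))) := by
    have e1 := (Measure.measurePreserving_swap (μ := p) (ν := rows d m)).quasiMeasurePreserving.ae hlimq
    exact Measure.ae_ae_of_ae_prod e1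
  have hsecH : ∀ n a v, AEStronglyMeasurable (fun X => H n a X v) (rows d m) := by
    intro n a v
    exact ((hHm n a).comp (measurable_id.prodMk measurable_const)).aestronglyMeasurable
  have hlimg : ∀ a, ∀ᵐ v ∂p, Tendsto (fun n => ∫ X, H n a X v ∂(rows d m)) atTop (𝓝 (chan (h a) v)) := by
    intro a
    filter_upwards [hswap] with v hv
    refine tendsto_integral_of_dominated_convergence (fun _ => (1 : ℝ)) (fun n => hsecH n a v)
      (integrable_const _) (fun n => Eventually.of_forall (fun X => ?_)) ?_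
    · rw [Real.norm_eq_abs, abs_of_nonneg (hHpos n a X v)]; exact hHle n a X v
    · filter_upwards [hv] with X hX
      exact hX a
  have hgm : ∀ a, Measurable (chan (d := d) (h a)) := fun a =>
    ((hGm a).stronglyMeasurable.integral_prod_left').measurable
  have hGnm : ∀ n a, Measurable (fun v => ∫ X, H n a X v ∂(rows d m)) := fun n a =>
    ((hHm n a).stronglyMeasurable.integral_prod_left').measurable
  have hb : ∀ (f : (Fin m → E d) → ℝ), (∀ X, f X ≤ 1) → (∀ X, 0 ≤ f X) → ∫ X, f X ∂(rows d m) ≤ 1 := by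
    intro f hf hf0
    by_cases hi : Integrable f (rows d m)
    · have : ∫ X, f X ∂(rows d m) ≤ ∫ _X : Fin m → E d, (1 : ℝ) ∂(rows d m) := integral_mono hi (integrable_const 1) hf
      simpa using this
    · rw [integral_undef hi]; norm_num
  have hfinal := info_tendsto (p := p) (fun a => chan (h a)) hgm
    (fun a v => integral_nonneg (fun X => h0 _ _ _)) (fun a v => hb _ (fun X => hle1 _ _ _) (fun X => h0 _ _ _))
    (fun n a v => ∫ X, H n a X v ∂(rows d m)) hGnm (fun n a v => integral_nonneg (fun X => hHpos n a X v))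
    (fun n a v => hb _ (fun X => hHle n a X v) (fun X => hHpos n a X v)) hlimg
  exact le_of_tendsto' hfinal hcell

end P309
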