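import Mathlib

/-!
The memory-bounded streaming model of P309, over a finite-dimensional Euclidean space `F`
(the statement uses `F = ℝ^d`).
-/

open MeasureTheory ProbabilityTheory
open scoped RealInnerProductSpace ENNReal

namespace P309

section
variable (F : Type) [NormedAddCommGroup F] [InnerProductSpace ℝ F] [FiniteDimensional ℝ F]
  [MeasurableSpace F] [BorelSpace F]

/-- The unit sphere of `F`. -/
abbrev Sph : Type := Metric.sphere (0 : F) 1

/-- The uniform probability measure on the unit sphere: normalized surface measure. -/
noncomputable def unifSphere : Measure (Sph F) :=
  ((volume : Measure F).toSphere Set.univ)⁻¹ • (volume : Measure F).toSphere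

/-- A randomized streaming learner whose persistent state ranges over the `N` elements of
`Fin N`. The component `Bool` of a pair `(z, b)` says whether the learner
stops (`b = true`) or goes on (`b = false`).
* `init` is the law of the initial state (and of the decision to stop before any sample);
* `step t z (x, y)` is the law of the new state and of the stopping decision when the learner,
  in state `z`, reads the pair number `t`, equal to `(x, y)`: an arbitrary Markov kernel;
* `out t z` is the law of the estimate when the final state is `z` and `t` samples were read. -/
structure Learner (N : ℕ) where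
  init : Measure (Fin N × Bool)
  init_prob : IsProbabilityMeasure init
  step : ℕ → Fin N → Kernel (F × ℝ) (Fin N × Bool)
  step_markov : ∀ t z, IsMarkovKernel (step t z)
  out : ℕ → Fin N → Measure (Sph F)
  out_prob : ∀ t z, IsProbabilityMeasure (out t z)

variable {F}

/-- The estimates at angle at most `ε` from the signal `v`. -/
def close (ε : ℝ) (v : F) : Set (Sph F) := {s | Real.arccos ⟪(s : F), v⟫ ≤ ε}

/-- `L.win ε v k t z` is the probability that the learner, running with state `z` after `t`
samples and with at most `k` further samples allowed, finally outputs an estimate at angle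
at most `ε` from `v`, when the signal is `v`: rows are standard Gaussian, labels are exact. -/
noncomputable def Learner.win {N : ℕ} (L : Learner F N) (ε : ℝ) (v : F) :
    ℕ → ℕ → Fin N → ℝ≥0∞
  | 0, t, z => L.out t z (close ε v)
  | k + 1, t, z => ∫⁻ x, ∫⁻ w,
      (if w.2 then L.out (t + 1) w.1 (close ε v) else L.win ε v k (t + 1) w.1)
      ∂(L.step (t + 1) z (x, ⟪x, v⟫)) ∂(stdGaussian F)

/-- Success probability at accuracy `ε` with horizon `T`, for a uniformly random signal. -/
noncomputable def Learner.success {N : ℕ} (L : Learner F N) (T : ℕ) (ε : ℝ) : ℝ≥0∞ :=
  ∫⁻ s : Sph F, ∫⁻ w,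
    (if w.2 then L.out 0 w.1 (close ε s) else L.win ε s T 0 w.1) ∂L.init ∂(unifSphere F)

end

end P309
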