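import Vale.Agent.P309.InfoLim
import Vale.Agent.P309.CellInfoFull
open MeasureTheory ProbabilityTheory Filter
open scoped RealInnerProductSpace ENNReal Topology
namespace P309

variable {d m : ℕ}

/-- observation at resolution `R / 2^n` -/
noncomputable def obs (R : ℝ) (n : ℕ) (q : (Fin m → E d) × E d) : (Fin m → E d) × (Fin m → ℤ) :=
  (q.1, lab (R / 2 ^ n) q.1 q.2)

theorem measurable_obs (R : ℝ) (n : ℕ) : Measurable (obs (d := d) (m := m) R n) :=
  measurable_fst.prodMk (measurable_lab _ measurable_fst measurable_snd)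

theorem obs_coarsen {R : ℝ} (hR : 0 < R) (n : ℕ) (q : (Fin m → E d) × E d) :
    obs R n q = (fun r : (Fin m → E d) × (Fin m → ℤ) => (r.1, fun i => r.2 i / 2)) (obs R (n + 1) q) := by
  simp only [obs]
  refine Prod.ext rfl ?_
  funext i
  simp only [lab]
  have h1 : ⟪q.1 i, q.2⟫ / (R / 2 ^ n) = (⟪q.1 i, q.2⟫ / (R / 2 ^ (n + 1))) / ((2 : ℕ) : ℝ) := by
    rw [pow_succ]; field_simp; push_cast; ring
  rw [h1, Int.floor_div_natCast]
  rfl

theorem comap_obs_mono {R : ℝ} (hR : 0 < R) :
    Monotone (fun n => MeasurableSpace.comap (obs (d := d) (m := m) R n) inferInstance) := by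
  refine monotone_nat_of_le_succ (fun n => ?_)
  have h1 : (obs (d := d) (m := m) R n) = (fun r : (Fin m → E d) × (Fin m → ℤ) => (r.1, fun i => r.2 i / 2)) ∘ (obs R (n + 1)) := by
    funext q; exact obs_coarsen hR n q
  have hm : Measurable (fun r : (Fin m → E d) × (Fin m → ℤ) => (r.1, fun i => r.2 i / 2)) := by
    refine measurable_fst.prodMk ?_
    exact (measurable_of_countable (fun c : Fin m → ℤ => fun i => c i / 2)).comp measurable_snd
  change MeasurableSpace.comap (obs (d := d) (m := m) R n) inferInstance ≤ _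
  rw [h1, ← MeasurableSpace.comap_comp]
  exact MeasurableSpace.comap_mono hm.comap_le

/-- the filtration of finer and finer observations -/
noncomputable def obsFil (d m : ℕ) {R : ℝ} (hR : 0 < R) :
    Filtration ℕ (inferInstance : MeasurableSpace ((Fin m → E d) × E d)) where
  seq n := MeasurableSpace.comap (obs (d := d) (m := m) R n) inferInstance
  mono' := comap_obs_mono hR
  le' n := (measurable_obs R n).comap_le

theorem measurable_limit_gen {α : Type*} [MeasurableSpace α] {R : ℝ}
    (F : ℕ → α → (Fin m → E d) × (Fin m → ℤ)) (hF : ∀ n, Measurable (F n)) (g : α → Fin m → ℝ)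
    (hb : ∀ n i q, |((F n q).2 i : ℝ) * (R / 2 ^ n) - g q i| ≤ R * (1 / 2) ^ n) :
    Measurable (fun q : α => ((F 0 q).1, g q)) := by
  have h1 : Measurable (fun q : α => (F 0 q).1) := measurable_fst.comp (hF 0)
  have h2 : ∀ i, Measurable (fun q : α => g q i) := by
    intro i
    have hn : ∀ n : ℕ, Measurable (fun q : α => ((F n q).2 i : ℝ) * (R / 2 ^ n)) := by
      intro n
      have e1 : Measurable (fun r : (Fin m → E d) × (Fin m → ℤ) => ((r.2 i : ℤ) : ℝ) * (R / 2 ^ n)) := by
        have : Measurable (fun c : Fin m → ℤ => ((c i : ℤ) : ℝ) * (R / 2 ^ n)) := measurable_of_countable _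
        exact this.comp measurable_snd
      exact e1.comp (hF n)
    refine measurable_of_tendsto_metrizable hn ?_
    rw [tendsto_pi_nhds]
    intro q
    have hz : Tendsto (fun n : ℕ => R * (1 / 2 : ℝ) ^ n) atTop (𝓝 0) := by
      have := (tendsto_pow_atTop_nhds_zero_of_lt_one (r := (1 / 2 : ℝ)) (by norm_num) (by norm_num)).const_mul R
      simpa using this
    rw [tendsto_iff_dist_tendsto_zero]
    refine squeeze_zero (fun n => dist_nonneg) (fun n => ?_) hz
    rw [Real.dist_eq]; exact hb n i q
  exact h1.prodMk (measurable_pi_lambda _ h2)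

theorem measurable_limit {R : ℝ} (hR : 0 < R) :
    Measurable[⨆ n, obsFil d m hR n] (fun q : (Fin m → E d) × E d => (q.1, fun i => ⟪q.1 i, q.2⟫)) := by
  have hobs : ∀ n, Measurable[⨆ n, obsFil d m hR n] (obs (d := d) (m := m) R n) := by
    intro n
    have h1 : Measurable[obsFil d m hR n] (obs (d := d) (m := m) R n) := comap_measurable _
    exact h1.mono (le_iSup (fun n => (obsFil d m hR n : MeasurableSpace _)) n) le_rfl
  refine @measurable_limit_gen d m _ (⨆ n, obsFil d m hR n) R (obs R) hobs (fun q i => ⟪q.1 i, q.2⟫) ?_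
  intro n i q
  have hpos : 0 < R / 2 ^ n := by positivity
  simp only [obs, lab]
  set x := ⟪q.1 i, q.2⟫ with hx
  have e1 := Int.floor_le (x / (R / 2 ^ n))
  have e2 := Int.lt_floor_add_one (x / (R / 2 ^ n))
  have e3 : x = x / (R / 2 ^ n) * (R / 2 ^ n) := by field_simp
  have e4 : R * (1 / 2) ^ n = R / 2 ^ n := by rw [one_div, inv_pow]; rfl
  rw [e4, abs_le]
  constructor
  · nlinarith
  · nlinarith

end P309
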