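import Vale.Agent.P309.Defs
open MeasureTheory ProbabilityTheory Filter
open scoped RealInnerProductSpace ENNReal Topology
namespace P309

theorem measurable_cube (d j : ℕ) : Measurable (cube d j) := by
  unfold cube
  by_cases h : j = 0
  · simp only [h, if_true]; exact measurable_const
  · simp only [h, if_false]
    refine measurable_pi_lambda _ (fun i => ?_)
    apply Int.measurable_floor.comp
    fun_prop

theorem measurableSet_cell (d j : ℕ) (v : E d) : MeasurableSet (cell d j v) :=
  measurableSet_eq_fun (measurable_cube d j) measurable_const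

/-- mass of the cell of level `j` around `v` -/
noncomputable def cmass {d : ℕ} (μ : Measure (E d)) (j : ℕ) (u : E d → ℝ) (v : E d) : ℝ :=
  ∫ v' in cell d j v, u v' ∂μ

theorem measurable_cmass {d : ℕ} (μ : Measure (E d)) (j : ℕ) (u : E d → ℝ) : Measurable (cmass μ j u) := by
  have h1 : cmass μ j u = (fun n : Fin d → ℤ => ∫ v' in {v' | cube d j v' = n}, u v' ∂μ) ∘ (cube d j) := by
    funext v; rfl
  rw [h1]
  exact (measurable_of_countable _).comp (measurable_cube d j)

section
set_option linter.unusedSectionVars false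
variable {d : ℕ} {μ : Measure (E d)} [IsProbabilityMeasure μ] {u : E d → ℝ}

theorem int_of_bdd (hu : Measurable u) (hu0 : ∀ v, 0 ≤ u v) (hu1 : ∀ v, u v ≤ 1) : Integrable u μ := by
  refine Integrable.mono' (integrable_const (1 : ℝ)) hu.aestronglyMeasurable ?_
  refine Eventually.of_forall (fun v => ?_)
  rw [Real.norm_eq_abs, abs_of_nonneg (hu0 v)]; exact hu1 v

theorem cmass_nonneg (hu0 : ∀ v, 0 ≤ u v) (j : ℕ) (v : E d) : 0 ≤ cmass μ j u v :=
  setIntegral_nonneg (measurableSet_cell d j v) (fun v' _ => hu0 v')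

theorem cmass_le (hu : Measurable u) (hu0 : ∀ v, 0 ≤ u v) (hu1 : ∀ v, u v ≤ 1) (j : ℕ) (v : E d) :
    cmass μ j u v ≤ ∫ v', u v' ∂μ :=
  setIntegral_le_integral (int_of_bdd hu hu0 hu1) (Eventually.of_forall hu0)

theorem cmass_zero (v : E d) : cmass μ 0 u v = ∫ v', u v' ∂μ := by
  unfold cmass
  have : cell d 0 v = Set.univ := by
    ext w; simp [cell, cube]
  rw [this, Measure.restrict_univ]

theorem msum_eq (K L : ℕ) (u : E d → ℝ) (v : E d) :
    msum μ K L u v = ∑ j ∈ Finset.range (L + 1), (2 : ℝ) ^ (K * j) * cmass μ j u v := rfl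

theorem measurable_msum (K L : ℕ) (u : E d → ℝ) : Measurable (msum μ K L u) := by
  have : msum μ K L u = fun v => ∑ j ∈ Finset.range (L + 1), (2 : ℝ) ^ (K * j) * cmass μ j u v := by
    funext v; rfl
  rw [this]
  exact Finset.measurable_sum _ (fun j _ => (measurable_cmass μ j u).const_mul _)

theorem le_msum (hu0 : ∀ v, 0 ≤ u v) (K L : ℕ) (v : E d) {j : ℕ} (hj : j ≤ L) :
    (2 : ℝ) ^ (K * j) * cmass μ j u v ≤ msum μ K L u v := by
  rw [msum_eq]
  exact Finset.single_le_sum (f := fun j => (2 : ℝ) ^ (K * j) * cmass μ j u v)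
    (fun i _ => mul_nonneg (by positivity) (cmass_nonneg hu0 i v)) (Finset.mem_range.2 (by omega))

theorem int_le_msum (hu0 : ∀ v, 0 ≤ u v) (K L : ℕ) (v : E d) :
    ∫ v', u v' ∂μ ≤ msum μ K L u v := by
  have := le_msum (μ := μ) hu0 K L v (Nat.zero_le L)
  rwa [mul_zero, pow_zero, one_mul, cmass_zero] at this

/-- crude upper bound constant -/
noncomputable def cK (K L : ℕ) : ℝ := ∑ j ∈ Finset.range (L + 1), (2 : ℝ) ^ (K * j)

theorem cK_ge_one (K L : ℕ) : 1 ≤ cK K L := by
  unfold cK
  have := Finset.single_le_sum (f := fun j => (2 : ℝ) ^ (K * j)) (s := Finset.range (L + 1))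
    (fun i _ => by positivity) (Finset.mem_range.2 (Nat.succ_pos L))
  simpa using this

theorem msum_le (hu : Measurable u) (hu0 : ∀ v, 0 ≤ u v) (hu1 : ∀ v, u v ≤ 1) (K L : ℕ) (v : E d) :
    msum μ K L u v ≤ cK K L * ∫ v', u v' ∂μ := by
  rw [msum_eq, cK, Finset.sum_mul]
  exact Finset.sum_le_sum (fun j _ => mul_le_mul_of_nonneg_left (cmass_le hu hu0 hu1 j v) (by positivity))

theorem ae_zero_of_int (hu : Measurable u) (hu0 : ∀ v, 0 ≤ u v) (hu1 : ∀ v, u v ≤ 1)
    (h : ∫ v, u v ∂μ = 0) : u =ᵐ[μ] 0 :=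
  (integral_eq_zero_iff_of_nonneg hu0 (int_of_bdd hu hu0 hu1)).1 h

theorem abs_mul_log_le {x : ℝ} (h0 : 0 ≤ x) (h1 : x ≤ 1) : |x * Real.log x| ≤ 1 := by
  rw [mul_comm]
  rcases h0.eq_or_lt with h | h
  · rw [← h]; simp
  · exact (Real.abs_log_mul_self_lt _ h h1).le

/-- for `0 ≤ w ≤ u` the function `w log (w / U)` (with `U` the multiscale sum of `u`) is integrable -/
theorem integrable_mul_log (hu : Measurable u) (hu0 : ∀ v, 0 ≤ u v) (hu1 : ∀ v, u v ≤ 1) (K L : ℕ)
    {w x : E d → ℝ} (hw : Measurable w) (hw0 : ∀ v, 0 ≤ w v) (hwx : ∀ v, w v ≤ x v)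
    (hx : Measurable x) (hx1 : ∀ v, x v ≤ 1) (hxu : ∀ v, x v ≤ u v) :
    Integrable (fun v => w v * Real.log (x v / msum μ K L u v)) μ := by
  have hUm := measurable_msum (μ := μ) K L u
  have hmeas : Measurable (fun v => w v * Real.log (x v / msum μ K L u v)) :=
    hw.mul (Real.measurable_log.comp (hx.div hUm))
  set W := ∫ v, u v ∂μ with hW
  have hW0 : 0 ≤ W := integral_nonneg hu0
  rcases hW0.eq_or_lt with h | h
  · have hz := ae_zero_of_int hu hu0 hu1 h.symm
    refine (integrable_zero _ _ _).congr ?_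
    filter_upwards [hz] with v hv
    have : w v = 0 := le_antisymm (by linarith [hwx v, hxu v, show u v = 0 from hv]) (hw0 v)
    simp [this]
  · set B := 1 + (|Real.log W| + |Real.log (cK K L * W)|) with hB
    refine Integrable.mono' (integrable_const B) hmeas.aestronglyMeasurable ?_
    refine Eventually.of_forall (fun v => ?_)
    rw [Real.norm_eq_abs]
    have hx0 : 0 ≤ x v := le_trans (hw0 v) (hwx v)
    rcases hx0.eq_or_lt with h' | h'
    · rw [← h', zero_div, Real.log_zero, mul_zero, abs_zero]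
      positivity
    · have hU1 : W ≤ msum μ K L u v := int_le_msum hu0 K L v
      have hU2 : msum μ K L u v ≤ cK K L * W := msum_le hu hu0 hu1 K L v
      have hU : 0 < msum μ K L u v := lt_of_lt_of_le h hU1
      rw [Real.log_div h'.ne' hU.ne', mul_sub]
      have e1 : |w v * Real.log (x v)| ≤ 1 := by
        rw [abs_mul, abs_of_nonneg (hw0 v)]
        calc w v * |Real.log (x v)| ≤ x v * |Real.log (x v)| := by gcongr; exact hwx v
          _ = |x v * Real.log (x v)| := by rw [abs_mul, abs_of_pos h']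
          _ ≤ 1 := abs_mul_log_le h'.le (hx1 v)
      have e2 : |Real.log (msum μ K L u v)| ≤ |Real.log W| + |Real.log (cK K L * W)| := by
        have l1 := Real.log_le_log h hU1
        have l2 := Real.log_le_log hU hU2
        rw [abs_le]
        constructor
        · have := neg_abs_le (Real.log W)
          have := abs_nonneg (Real.log (cK K L * W))
          linarith
        · have := le_abs_self (Real.log (cK K L * W))
          have := abs_nonneg (Real.log W)
          linarith
      have e3 : |w v * Real.log (msum μ K L u v)| ≤ |Real.log W| + |Real.log (cK K L * W)| := by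
        rw [abs_mul, abs_of_nonneg (hw0 v)]
        calc w v * |Real.log (msum μ K L u v)| ≤ 1 * |Real.log (msum μ K L u v)| := by
              gcongr; exact le_trans (hwx v) (hx1 v)
          _ ≤ _ := by rw [one_mul]; exact e2
      calc |w v * Real.log (x v) - w v * Real.log (msum μ K L u v)|
          ≤ |w v * Real.log (x v)| + |w v * Real.log (msum μ K L u v)| := abs_sub _ _
        _ ≤ B := by linarith

end

/-- ratio of cell masses integrates to at most the total mass -/
theorem lintegral_ratio {α β : Type*} [MeasurableSpace α] [MeasurableSpace β] [Countable β]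
    [MeasurableSingletonClass β] {c : α → β} (hc : Measurable c) (ν κ : Measure α)
    [IsFiniteMeasure κ] :
    ∫⁻ v, ν {v' | c v' = c v} / κ {v' | c v' = c v} ∂κ ≤ ν Set.univ := by
  have hν : ∀ v, ν {v' | c v' = c v} = (ν.map c) {c v} := fun v => by
    rw [Measure.map_apply hc (measurableSet_singleton _)]; rfl
  have hκ : ∀ v, κ {v' | c v' = c v} = (κ.map c) {c v} := fun v => by
    rw [Measure.map_apply hc (measurableSet_singleton _)]; rfl
  have h1 : ∫⁻ v, ν {v' | c v' = c v} / κ {v' | c v' = c v} ∂κ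
      = ∫⁻ n, (ν.map c) {n} / (κ.map c) {n} ∂(κ.map c) := by
    rw [lintegral_map (measurable_of_countable _) hc]
    simp_rw [hν, hκ]
  rw [h1, lintegral_countable']
  calc ∑' n, (ν.map c) {n} / (κ.map c) {n} * (κ.map c) {n} ≤ ∑' n, (ν.map c) {n} := by
        refine ENNReal.tsum_le_tsum (fun n => ?_)
        rw [ENNReal.div_eq_inv_mul, mul_comm _ ((ν.map c) {n}), mul_assoc]
        calc (ν.map c) {n} * (((κ.map c) {n})⁻¹ * (κ.map c) {n}) ≤ (ν.map c) {n} * 1 := by
              gcongr; exact ENNReal.inv_mul_le_one _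
          _ = (ν.map c) {n} := mul_one _
    _ = ∫⁻ _, 1 ∂(ν.map c) := by rw [lintegral_countable']; simp
    _ = ν Set.univ := by rw [lintegral_one, Measure.map_apply hc MeasurableSet.univ, Set.preimage_univ]

end P309
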