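import Vale.Agent.P309.Defs

open MeasureTheory ProbabilityTheory Metric
open scoped RealInnerProductSpace ENNReal

namespace P309.PS

variable {d : ℕ}

theorem measurable_cube (d j : ℕ) : Measurable (cube d j) := by
  by_cases hj : j = 0
  · have : cube d j = fun _ => 0 := by
      funext v; simp [cube, hj]
    rw [this]; exact measurable_const
  · have : cube d j = fun v : E d => fun i => ⌊Real.sqrt d * 2 ^ j * v i⌋ := by
      funext v; simp [cube, hj]
    rw [this]
    refine measurable_pi_lambda _ fun i => ?_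
    have h1 : Measurable (fun v : E d => v i) := by fun_prop
    exact (h1.const_mul _).floor

theorem measurableSet_cubeEq (d j : ℕ) (n : Fin d → ℤ) : MeasurableSet {v : E d | cube d j v = n} :=
  measurable_cube d j (measurableSet_singleton n)

theorem measurableSet_cell (j : ℕ) (v : E d) : MeasurableSet (cell d j v) :=
  measurableSet_cubeEq d j _

theorem cell_zero (v : E d) : cell d 0 v = Set.univ := by
  ext w; simp [cell, cube]

theorem mem_cell_self (j : ℕ) (v : E d) : v ∈ cell d j v := rfl

theorem measurable_cellint (μ : Measure (E d)) (f : E d → ℝ) (j : ℕ) :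
    Measurable (fun v => ∫ v' in cell d j v, f v' ∂μ) := by
  have : (fun v => ∫ v' in cell d j v, f v' ∂μ) =
      (fun n : Fin d → ℤ => ∫ v' in {v' : E d | cube d j v' = n}, f v' ∂μ) ∘ cube d j := rfl
  rw [this]
  exact (Measurable.of_discrete).comp (measurable_cube d j)

theorem measurable_msum (μ : Measure (E d)) (K L : ℕ) (f : E d → ℝ) :
    Measurable (msum μ K L f) := by
  unfold msum
  exact Finset.measurable_sum _ fun j _ => (measurable_cellint μ f j).const_mul _

section bounds

variable {μ : Measure (E d)} [IsProbabilityMeasure μ] {w : E d → ℝ}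

theorem integrable_of_01 (hw : Measurable w) (hw0 : ∀ v, 0 ≤ w v) (hw1 : ∀ v, w v ≤ 1) :
    Integrable w μ := by
  refine Integrable.of_bound hw.aestronglyMeasurable 1 ?_
  filter_upwards with v
  rw [Real.norm_of_nonneg (hw0 v)]
  exact hw1 v

theorem cellint_le (hw : Measurable w) (hw0 : ∀ v, 0 ≤ w v) (hw1 : ∀ v, w v ≤ 1) (s : Set (E d)) :
    ∫ v' in s, w v' ∂μ ≤ ∫ v', w v' ∂μ :=
  setIntegral_le_integral (integrable_of_01 hw hw0 hw1) (Filter.Eventually.of_forall hw0)

omit [IsProbabilityMeasure μ] in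
theorem cellint_nonneg (hw0 : ∀ v, 0 ≤ w v) (s : Set (E d)) : 0 ≤ ∫ v' in s, w v' ∂μ :=
  integral_nonneg hw0

omit [IsProbabilityMeasure μ] in
theorem term_le_msum (hw0 : ∀ v, 0 ≤ w v) (K : ℕ) {L j : ℕ} (hj : j ≤ L) (v : E d) :
    (2 : ℝ) ^ (K * j) * ∫ v' in cell d j v, w v' ∂μ ≤ msum μ K L w v := by
  unfold msum
  refine Finset.single_le_sum (f := fun j => (2 : ℝ) ^ (K * j) * ∫ v' in cell d j v, w v' ∂μ)
    (fun i _ => ?_) (Finset.mem_range.2 (Nat.lt_succ_of_le hj))
  have := cellint_nonneg (μ := μ) hw0 (cell d i v)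
  positivity

omit [IsProbabilityMeasure μ] in
theorem integral_le_msum (hw0 : ∀ v, 0 ≤ w v) (K L : ℕ) (v : E d) :
    ∫ v', w v' ∂μ ≤ msum μ K L w v := by
  have := term_le_msum (μ := μ) hw0 K (Nat.zero_le L) v
  rwa [Nat.mul_zero, pow_zero, one_mul, cell_zero, setIntegral_univ] at this

theorem msum_le (hw : Measurable w) (hw0 : ∀ v, 0 ≤ w v) (hw1 : ∀ v, w v ≤ 1) (K L : ℕ) (v : E d) :
    msum μ K L w v ≤ (∑ j ∈ Finset.range (L + 1), (2 : ℝ) ^ (K * j)) * ∫ v', w v' ∂μ := by
  unfold msum
  rw [Finset.sum_mul]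
  exact Finset.sum_le_sum fun j _ =>
    mul_le_mul_of_nonneg_left (cellint_le hw hw0 hw1 _) (by positivity)

theorem abs_mul_log_le {x : ℝ} (h0 : 0 ≤ x) (h1 : x ≤ 1) : |x * Real.log x| ≤ 1 := by
  rcases h0.eq_or_lt with rfl | hpos
  · simp
  · have := Real.abs_log_mul_self_lt x hpos h1
    rw [mul_comm]
    exact this.le

theorem integrable_pot (hw : Measurable w) (hw0 : ∀ v, 0 ≤ w v) (hw1 : ∀ v, w v ≤ 1) (K L : ℕ) :
    Integrable (fun v => w v * Real.log (w v / msum μ K L w v)) μ := by
  have hmeas : Measurable (fun v => w v * Real.log (w v / msum μ K L w v)) :=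
    hw.mul (hw.div (measurable_msum μ K L w)).log
  rcases (integral_nonneg (μ := μ) (f := w) hw0).eq_or_lt with h0 | hpos
  · have hz : w =ᵐ[μ] 0 := (integral_eq_zero_iff_of_nonneg hw0 (integrable_of_01 hw hw0 hw1)).1 h0.symm
    refine (integrable_zero _ _ _).congr (f := fun _ => (0 : ℝ)) ?_
    filter_upwards [hz] with v hv
    rw [hv]; simp
  · set W := ∫ v', w v' ∂μ with hW
    set T : ℝ := (∑ j ∈ Finset.range (L + 1), (2 : ℝ) ^ (K * j)) * W with hT
    have hTpos : 0 < T := by
      refine mul_pos (Finset.sum_pos (fun _ _ => by positivity) ⟨0, by simp⟩) hpos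
    refine Integrable.of_bound hmeas.aestronglyMeasurable (1 + (|Real.log W| + |Real.log T|)) ?_
    filter_upwards with v
    have hm1 : W ≤ msum μ K L w v := integral_le_msum hw0 K L v
    have hm2 : msum μ K L w v ≤ T := msum_le hw hw0 hw1 K L v
    have hmpos : 0 < msum μ K L w v := lt_of_lt_of_le hpos hm1
    rcases (hw0 v).eq_or_lt with h | h
    · rw [← h]; simp; positivity
    · rw [Real.log_div h.ne' hmpos.ne', mul_sub, Real.norm_eq_abs]
      have hl1 : Real.log W ≤ Real.log (msum μ K L w v) := Real.log_le_log hpos hm1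
      have hl2 : Real.log (msum μ K L w v) ≤ Real.log T := Real.log_le_log hmpos hm2
      have habs : |Real.log (msum μ K L w v)| ≤ |Real.log W| + |Real.log T| := by
        rw [abs_le]
        constructor
        · have := neg_abs_le (Real.log W); have := abs_nonneg (Real.log T); linarith
        · have := le_abs_self (Real.log T); have := abs_nonneg (Real.log W); linarith
      calc |w v * Real.log (w v) - w v * Real.log (msum μ K L w v)|
          ≤ |w v * Real.log (w v)| + |w v * Real.log (msum μ K L w v)| := abs_sub _ _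
        _ ≤ 1 + 1 * (|Real.log W| + |Real.log T|) := by
            gcongr
            · exact abs_mul_log_le (hw0 v) (hw1 v)
            · rw [abs_mul, abs_of_nonneg (hw0 v)]
              gcongr
              exact hw1 v
        _ = _ := by ring

end bounds

end P309.PS
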