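import Vale.Agent.P309.PotBase
open MeasureTheory ProbabilityTheory Filter
open scoped RealInnerProductSpace ENNReal Topology
namespace P309

/-- the density measure of a weight -/
noncomputable def wm {d : ℕ} (μ : Measure (E d)) (u : E d → ℝ) : Measure (E d) :=
  μ.withDensity (fun v => ENNReal.ofReal (u v))

section
variable {d : ℕ} {μ : Measure (E d)} [IsProbabilityMeasure μ] {u : E d → ℝ}

theorem wm_apply (hu : Measurable u) (hu0 : ∀ v, 0 ≤ u v) (hu1 : ∀ v, u v ≤ 1) {s : Set (E d)} (hs : MeasurableSet s) :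
    wm μ u s = ENNReal.ofReal (∫ v in s, u v ∂μ) := by
  rw [wm, withDensity_apply _ hs,
    ofReal_integral_eq_lintegral_ofReal (int_of_bdd hu hu0 hu1).restrict (Eventually.of_forall hu0)]

theorem wm_univ (hu : Measurable u) (hu0 : ∀ v, 0 ≤ u v) (hu1 : ∀ v, u v ≤ 1) :
    wm μ u Set.univ = ENNReal.ofReal (∫ v, u v ∂μ) := by
  rw [wm_apply hu hu0 hu1 MeasurableSet.univ, Measure.restrict_univ]

theorem wm_finite (hu : Measurable u) (hu0 : ∀ v, 0 ≤ u v) (hu1 : ∀ v, u v ≤ 1) : IsFiniteMeasure (wm μ u) :=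
  ⟨by rw [wm_univ hu hu0 hu1]; exact ENNReal.ofReal_lt_top⟩

/-- integral of the ratio of multiscale sums -/
theorem ratio_int (hu : Measurable u) (hu0 : ∀ v, 0 ≤ u v) (hu1 : ∀ v, u v ≤ 1) (K L : ℕ)
    {w : E d → ℝ} (hw : Measurable w) (hw0 : ∀ v, 0 ≤ w v) (hw1 : ∀ v, w v ≤ 1)
    (hW : 0 < ∫ v, w v ∂μ) :
    Integrable (fun v => w v * (msum μ K L u v / msum μ K L w v)) μ ∧
      ∫ v, w v * (msum μ K L u v / msum μ K L w v) ∂μ ≤ (L + 1) * ∫ v, u v ∂μ := by
  have hmeas : Measurable (fun v => w v * (msum μ K L u v / msum μ K L w v)) :=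
    hw.mul ((measurable_msum K L u).div (measurable_msum K L w))
  have hU : ∀ v, 0 < msum μ K L w v := fun v => lt_of_lt_of_le hW (int_le_msum hw0 K L v)
  have hUu : ∀ v, 0 ≤ msum μ K L u v := fun v => le_trans (integral_nonneg hu0) (int_le_msum hu0 K L v)
  have hnn : ∀ v, 0 ≤ w v * (msum μ K L u v / msum μ K L w v) := fun v =>
    mul_nonneg (hw0 v) (div_nonneg (hUu v) (hU v).le)
  have := wm_finite (μ := μ) hw hw0 hw1
  have hkey : ∫⁻ v, ENNReal.ofReal (w v * (msum μ K L u v / msum μ K L w v)) ∂μ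
      ≤ ENNReal.ofReal ((L + 1) * ∫ v, u v ∂μ) := by
    have hptw : ∀ v, ENNReal.ofReal (msum μ K L u v / msum μ K L w v)
        ≤ ∑ j ∈ Finset.range (L + 1), wm μ u (cell d j v) / wm μ w (cell d j v) := by
      intro v
      rw [msum_eq K L u v, Finset.sum_div, ENNReal.ofReal_sum_of_nonneg (fun j _ =>
        div_nonneg (mul_nonneg (by positivity) (cmass_nonneg hu0 j v)) (hU v).le)]
      refine Finset.sum_le_sum (fun j hj => ?_)
      have hjL : j ≤ L := by have := Finset.mem_range.1 hj; omega
      rw [wm_apply hu hu0 hu1 (measurableSet_cell d j v), wm_apply hw hw0 hw1 (measurableSet_cell d j v)]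
      change _ ≤ ENNReal.ofReal (cmass μ j u v) / ENNReal.ofReal (cmass μ j w v)
      have c0 : 0 ≤ cmass μ j u v := cmass_nonneg hu0 j v
      have c1 : 0 ≤ cmass μ j w v := cmass_nonneg hw0 j v
      have hle := le_msum (μ := μ) hw0 K L v hjL
      rcases c1.eq_or_lt with h | h
      · rw [← h, ENNReal.ofReal_zero]
        rcases c0.eq_or_lt with h' | h'
        · rw [← h']; simp
        · rw [ENNReal.div_zero (by simpa using h')]; exact le_top
      · rw [← ENNReal.ofReal_div_of_pos h]
        apply ENNReal.ofReal_le_ofReal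
        have hpow : (0 : ℝ) < 2 ^ (K * j) := by positivity
        calc (2 : ℝ) ^ (K * j) * cmass μ j u v / msum μ K L w v
            ≤ (2 : ℝ) ^ (K * j) * cmass μ j u v / ((2 : ℝ) ^ (K * j) * cmass μ j w v) := by
              gcongr
          _ = cmass μ j u v / cmass μ j w v := by field_simp
    have hm1 : Measurable (fun v => ENNReal.ofReal (msum μ K L u v / msum μ K L w v)) :=
      ((measurable_msum K L u).div (measurable_msum K L w)).ennreal_ofReal
    calc ∫⁻ v, ENNReal.ofReal (w v * (msum μ K L u v / msum μ K L w v)) ∂μ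
        = ∫⁻ v, ENNReal.ofReal (msum μ K L u v / msum μ K L w v) ∂(wm μ w) := by
          rw [wm, lintegral_withDensity_eq_lintegral_mul _ hw.ennreal_ofReal hm1]
          refine lintegral_congr (fun v => ?_)
          rw [ENNReal.ofReal_mul (hw0 v)]; rfl
      _ ≤ ∫⁻ v, ∑ j ∈ Finset.range (L + 1), wm μ u (cell d j v) / wm μ w (cell d j v) ∂(wm μ w) :=
          lintegral_mono hptw
      _ = ∑ j ∈ Finset.range (L + 1), ∫⁻ v, wm μ u (cell d j v) / wm μ w (cell d j v) ∂(wm μ w) := by
          refine lintegral_finsetSum _ (fun j _ => ?_)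
          have e1 : ∀ (x : E d → ℝ), Measurable (fun v => wm μ x (cell d j v)) := by
            intro x
            have : (fun v => wm μ x (cell d j v)) = (fun n : Fin d → ℤ => wm μ x {v' | cube d j v' = n}) ∘ (cube d j) := by
              funext v; rfl
            rw [this]
            exact (measurable_of_countable _).comp (measurable_cube d j)
          exact (e1 u).div (e1 w)
      _ ≤ ∑ j ∈ Finset.range (L + 1), wm μ u Set.univ :=
          Finset.sum_le_sum (fun j _ => lintegral_ratio (measurable_cube d j) (wm μ u) (wm μ w))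
      _ = ENNReal.ofReal ((L + 1) * ∫ v, u v ∂μ) := by
          rw [Finset.sum_const, Finset.card_range, wm_univ hu hu0 hu1, nsmul_eq_mul,
            ENNReal.ofReal_mul (by positivity)]
          congr 1
          rw [← Nat.cast_succ, ENNReal.ofReal_natCast]
  have hnn' : 0 ≤ᵐ[μ] (fun v => w v * (msum μ K L u v / msum μ K L w v)) := Eventually.of_forall hnn
  constructor
  · refine ⟨hmeas.aestronglyMeasurable, ?_⟩
    rw [hasFiniteIntegral_iff_ofReal hnn']
    exact lt_of_le_of_lt hkey ENNReal.ofReal_lt_top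
  · rw [integral_eq_lintegral_of_nonneg_ae hnn' hmeas.aestronglyMeasurable]
    exact ENNReal.toReal_le_of_le_ofReal (mul_nonneg (by positivity) (integral_nonneg hu0)) hkey

theorem pot_part (hu : Measurable u) (hu0 : ∀ v, 0 ≤ u v) (hu1 : ∀ v, u v ≤ 1) (K L : ℕ)
    {g : E d → ℝ} (hg : Measurable g) (g0 : ∀ v, 0 ≤ g v) (g1 : ∀ v, g v ≤ 1) :
    pot μ K L (fun v => u v * g v) ≤ ∫ v, (u v * g v) * Real.log (u v / msum μ K L u v) ∂μ
      + (∫ v, u v * g v ∂μ) * Real.log (((L : ℝ) + 1) * (∫ v, u v ∂μ) / ∫ v, u v * g v ∂μ) := by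
  set w : E d → ℝ := fun v => u v * g v with hw
  have hwm : Measurable w := hu.mul hg
  have hw0 : ∀ v, 0 ≤ w v := fun v => mul_nonneg (hu0 v) (g0 v)
  have hwu : ∀ v, w v ≤ u v := fun v => mul_le_of_le_one_right (hu0 v) (g1 v)
  have hw1 : ∀ v, w v ≤ 1 := fun v => le_trans (hwu v) (hu1 v)
  set Wa := ∫ v, w v ∂μ with hWa
  have hWa0 : 0 ≤ Wa := integral_nonneg hw0
  have hpotdef : pot μ K L w = ∫ v, w v * Real.log (w v / msum μ K L w v) ∂μ := rfl
  rcases hWa0.eq_or_lt with h | h
  · have hz := ae_zero_of_int hwm hw0 hw1 h.symm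
    have e1 : pot μ K L w = 0 := by
      rw [hpotdef]
      refine integral_eq_zero_of_ae ?_
      filter_upwards [hz] with v hv
      have : w v = 0 := hv
      simp [this]
    have e2 : ∫ v, w v * Real.log (u v / msum μ K L u v) ∂μ = 0 := by
      refine integral_eq_zero_of_ae ?_
      filter_upwards [hz] with v hv
      have : w v = 0 := hv
      simp [this]
    rw [e1, e2, ← h]; simp
  · set W := ∫ v, u v ∂μ with hW
    have hWW : Wa ≤ W := integral_mono (int_of_bdd hwm hw0 hw1) (int_of_bdd hu hu0 hu1) hwu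
    have hWpos : 0 < W := lt_of_lt_of_le h hWW
    set c := ((L : ℝ) + 1) * W / Wa with hc
    have hcpos : 0 < c := by positivity
    obtain ⟨ri, rle⟩ := ratio_int (μ := μ) hu hu0 hu1 K L hwm hw0 hw1 h
    have i1 := integrable_mul_log (μ := μ) hu hu0 hu1 K L hwm hw0 hwu hu hu1 (fun v => le_rfl)
    have i2 := integrable_mul_log (μ := μ) hwm hw0 hw1 K L hwm hw0 (fun v => le_rfl) hwm hw1 (fun v => le_rfl)
    have hwi := int_of_bdd (μ := μ) hwm hw0 hw1
    have hpt : ∀ v, w v * Real.log (w v / msum μ K L w v) ≤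
        w v * Real.log (u v / msum μ K L u v) + (w v * (msum μ K L u v / msum μ K L w v) * c⁻¹ + w v * (Real.log c - 1)) := by
      intro v
      rcases (hw0 v).eq_or_lt with h' | h'
      · rw [← h']; simp
      · have hUw : 0 < msum μ K L w v := lt_of_lt_of_le h (int_le_msum hw0 K L v)
        have hUu : 0 < msum μ K L u v := lt_of_lt_of_le hWpos (int_le_msum hu0 K L v)
        have hup : 0 < u v := lt_of_lt_of_le h' (hwu v)
        have e1 : Real.log (w v / msum μ K L w v) ≤ Real.log (u v / msum μ K L u v) + Real.log (msum μ K L u v / msum μ K L w v) := by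
          rw [← Real.log_mul (div_pos hup hUu).ne' (div_pos hUu hUw).ne']
          apply Real.log_le_log (div_pos h' hUw)
          have : u v / msum μ K L u v * (msum μ K L u v / msum μ K L w v) = u v / msum μ K L w v := by field_simp
          rw [this]
          gcongr
          exact hwu v
        set r := msum μ K L u v / msum μ K L w v with hr
        have hrpos : 0 < r := div_pos hUu hUw
        have e2 : Real.log r ≤ r * c⁻¹ - 1 + Real.log c := by
          have := Real.log_le_sub_one_of_pos (show 0 < r / c by positivity)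
          rw [Real.log_div hrpos.ne' hcpos.ne'] at this
          rw [← div_eq_mul_inv]; linarith
        calc w v * Real.log (w v / msum μ K L w v) ≤ w v * (Real.log (u v / msum μ K L u v) + (r * c⁻¹ - 1 + Real.log c)) := by
              gcongr; linarith
          _ = _ := by ring
    have hrhs : ∫ v, (w v * Real.log (u v / msum μ K L u v) + (w v * (msum μ K L u v / msum μ K L w v) * c⁻¹ + w v * (Real.log c - 1))) ∂μ
        = ∫ v, w v * Real.log (u v / msum μ K L u v) ∂μ + ((∫ v, w v * (msum μ K L u v / msum μ K L w v) ∂μ) * c⁻¹ + Wa * (Real.log c - 1)) := by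
      have j1 : Integrable (fun v => w v * (msum μ K L u v / msum μ K L w v) * c⁻¹) μ := ri.mul_const _
      have j2 : Integrable (fun v => w v * (Real.log c - 1)) μ := hwi.mul_const _
      have j3 : Integrable (fun v => w v * (msum μ K L u v / msum μ K L w v) * c⁻¹ + w v * (Real.log c - 1)) μ := j1.add j2
      rw [integral_add i1 j3, integral_add j1 j2, integral_mul_const, integral_mul_const]
    calc pot μ K L w = ∫ v, w v * Real.log (w v / msum μ K L w v) ∂μ := rfl
      _ ≤ ∫ v, (w v * Real.log (u v / msum μ K L u v) + (w v * (msum μ K L u v / msum μ K L w v) * c⁻¹ + w v * (Real.log c - 1))) ∂μ := by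
          refine integral_mono i2 (i1.add ((ri.mul_const _).add (hwi.mul_const _))) hpt
      _ ≤ ∫ v, w v * Real.log (u v / msum μ K L u v) ∂μ + Wa * Real.log c := by
          rw [hrhs]
          have e3 : (∫ v, w v * (msum μ K L u v / msum μ K L w v) ∂μ) * c⁻¹ ≤ ((L + 1) * W) * c⁻¹ := by
            gcongr
          have e4 : (((L : ℝ) + 1) * W) * c⁻¹ = Wa := by rw [hc]; field_simp
          have e5 : Wa * (Real.log c - 1) = Wa * Real.log c - Wa := by ring
          linarith

/-- crude step bound -/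
theorem pot_step_crude {K L : ℕ} (hu : Measurable u) (hu0 : ∀ v, 0 ≤ u v) (hu1 : ∀ v, u v ≤ 1)
    {A : Type} [Fintype A] [Nonempty A] (g : A → E d → ℝ) (hg : ∀ a, Measurable (g a))
    (g0 : ∀ a v, 0 ≤ g a v) (g1 : ∀ v, ∑ a, g a v = 1) :
    ∑ a, pot μ K L (fun v => u v * g a v) ≤ pot μ K L u +
      (∫ v, u v ∂μ) * (Real.log (Fintype.card A) + Real.log (L + 1)) := by
  have gle : ∀ a v, g a v ≤ 1 := by
    intro a v
    rw [← g1 v]
    exact Finset.single_le_sum (f := fun a => g a v) (fun b _ => g0 b v) (Finset.mem_univ a)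
  set W := ∫ v, u v ∂μ with hW
  have hW0 : 0 ≤ W := integral_nonneg hu0
  have hN : (0 : ℝ) < Fintype.card A := by exact_mod_cast Fintype.card_pos
  have hpart := fun a => pot_part (μ := μ) hu hu0 hu1 K L (hg a) (g0 a) (gle a)
  have hsum1 : ∑ a, ∫ v, (u v * g a v) * Real.log (u v / msum μ K L u v) ∂μ = pot μ K L u := by
    have hii : ∀ a ∈ Finset.univ, Integrable (fun v => (u v * g a v) * Real.log (u v / msum μ K L u v)) μ :=
      fun a _ => integrable_mul_log (μ := μ) hu hu0 hu1 K L (hu.mul (hg a))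
      (fun v => mul_nonneg (hu0 v) (g0 a v)) (fun v => mul_le_of_le_one_right (hu0 v) (gle a v)) hu hu1 (fun v => le_rfl)
    rw [← integral_finsetSum _ hii]
    refine integral_congr_ae (Eventually.of_forall (fun v => ?_))
    simp only
    rw [← Finset.sum_mul, ← Finset.mul_sum, g1 v, mul_one]
  have hsumW : ∑ a, ∫ v, u v * g a v ∂μ = W := by
    have hii : ∀ a ∈ Finset.univ, Integrable (fun v => u v * g a v) μ :=
      fun a _ => int_of_bdd (hu.mul (hg a)) (fun v => mul_nonneg (hu0 v) (g0 a v))
      (fun v => le_trans (mul_le_of_le_one_right (hu0 v) (gle a v)) (hu1 v))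
    rw [← integral_finsetSum _ hii]
    refine integral_congr_ae (Eventually.of_forall (fun v => ?_))
    simp only
    rw [← Finset.mul_sum, g1 v, mul_one]
  have hterm : ∀ a, (∫ v, u v * g a v ∂μ) * Real.log (((L : ℝ) + 1) * W / ∫ v, u v * g a v ∂μ) ≤
      (∫ v, u v * g a v ∂μ) * (Real.log (Fintype.card A) + Real.log (L + 1)) + (W / Fintype.card A - ∫ v, u v * g a v ∂μ) := by
    intro a
    set x := ∫ v, u v * g a v ∂μ with hx
    have hx0 : 0 ≤ x := integral_nonneg (fun v => mul_nonneg (hu0 v) (g0 a v))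
    rcases hx0.eq_or_lt with h | h
    · rw [← h]; simp; positivity
    · have hxW : x ≤ W := integral_mono
        (int_of_bdd (hu.mul (hg a)) (fun v => mul_nonneg (hu0 v) (g0 a v))
          (fun v => le_trans (mul_le_of_le_one_right (hu0 v) (gle a v)) (hu1 v)))
        (int_of_bdd hu hu0 hu1) (fun v => mul_le_of_le_one_right (hu0 v) (gle a v))
      have hWpos : 0 < W := lt_of_lt_of_le h hxW
      have e1 : ((L : ℝ) + 1) * W / x = (W / (Fintype.card A * x)) * Fintype.card A * ((L : ℝ) + 1) := by
        field_simp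
      rw [e1, Real.log_mul (by positivity) (by positivity), Real.log_mul (by positivity) (by positivity)]
      have e2 := Real.log_le_sub_one_of_pos (show 0 < W / (Fintype.card A * x) by positivity)
      have e3 : x * Real.log (W / (Fintype.card A * x)) ≤ x * (W / (Fintype.card A * x) - 1) := by gcongr
      have e4 : x * (W / (Fintype.card A * x) - 1) = W / Fintype.card A - x := by field_simp
      nlinarith
  calc ∑ a, pot μ K L (fun v => u v * g a v)
      ≤ ∑ a, (∫ v, (u v * g a v) * Real.log (u v / msum μ K L u v) ∂μ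
        + (∫ v, u v * g a v ∂μ) * Real.log (((L : ℝ) + 1) * W / ∫ v, u v * g a v ∂μ)) :=
        Finset.sum_le_sum (fun a _ => hpart a)
    _ ≤ ∑ a, (∫ v, (u v * g a v) * Real.log (u v / msum μ K L u v) ∂μ
        + ((∫ v, u v * g a v ∂μ) * (Real.log (Fintype.card A) + Real.log (L + 1)) + (W / Fintype.card A - ∫ v, u v * g a v ∂μ))) := by
        refine Finset.sum_le_sum (fun a _ => ?_)
        linarith [hterm a]
    _ = pot μ K L u + W * (Real.log (Fintype.card A) + Real.log (L + 1)) := by
        rw [Finset.sum_add_distrib, hsum1, Finset.sum_add_distrib, Finset.sum_sub_distrib, ← Finset.sum_mul, hsumW]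
        simp
        field_simp
        ring

end

end P309
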