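import Vale.Agent.P309.PotPiece

open MeasureTheory ProbabilityTheory Metric
open scoped RealInnerProductSpace ENNReal

namespace P309.PS

variable {d : ℕ}

theorem abs_mul_log_div_le {x c : ℝ} (h0 : 0 ≤ x) (h1 : x ≤ 1) (hc : 0 ≤ c) :
    |x * Real.log (x / c)| ≤ 1 + |Real.log c| := by
  rcases h0.eq_or_lt with rfl | hx
  · simp; positivity
  rcases hc.eq_or_lt with rfl | hc
  · simp
  · rw [Real.log_div hx.ne' hc.ne', mul_sub]
    calc |x * Real.log x - x * Real.log c| ≤ |x * Real.log x| + |x * Real.log c| := abs_sub _ _
      _ ≤ 1 + 1 * |Real.log c| := by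
          gcongr
          · exact abs_mul_log_le h0 h1
          · rw [abs_mul, abs_of_nonneg h0]
            gcongr
      _ = _ := by ring

/-- The increment of the potential density. -/
noncomputable def Finc (μ : Measure (E d)) (K L : ℕ) (u : E d → ℝ) {A : Type} [Fintype A]
    (g : A → E d → ℝ) (v : E d) : ℝ :=
  (∑ a, (u v * g a v) * Real.log ((u v * g a v) / msum μ K L (fun w => u w * g a w) v)) -
    u v * Real.log (u v / msum μ K L u v)

section

variable {K L : ℕ} {μ : Measure (E d)} [IsProbabilityMeasure μ] {u : E d → ℝ}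
  {A : Type} [Fintype A] {g : A → E d → ℝ}

theorem integrable_Finc (hu : Measurable u) (hu0 : ∀ v, 0 ≤ u v) (hu1 : ∀ v, u v ≤ 1)
    (hg : ∀ a, Measurable (g a)) (g0 : ∀ a v, 0 ≤ g a v) (gle : ∀ a v, g a v ≤ 1) :
    Integrable (Finc μ K L u g) μ := by
  unfold Finc
  refine Integrable.sub (integrable_finsetSum _ fun a _ => ?_) (integrable_pot hu hu0 hu1 K L)
  exact integrable_pot (hu.mul (hg a)) (fun v => mul_nonneg (hu0 v) (g0 a v))
    (fun v => mul_le_one₀ (hu1 v) (g0 a v) (gle a v)) K L

theorem integral_Finc (hu : Measurable u) (hu0 : ∀ v, 0 ≤ u v) (hu1 : ∀ v, u v ≤ 1)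
    (hg : ∀ a, Measurable (g a)) (g0 : ∀ a v, 0 ≤ g a v) (gle : ∀ a v, g a v ≤ 1) :
    ∫ v, Finc μ K L u g v ∂μ = ∑ a, pot μ K L (fun v => u v * g a v) - pot μ K L u := by
  unfold Finc pot
  rw [integral_sub, integral_finsetSum]
  · intro a _
    exact integrable_pot (hu.mul (hg a)) (fun v => mul_nonneg (hu0 v) (g0 a v))
      (fun v => mul_le_one₀ (hu1 v) (g0 a v) (gle a v)) K L
  · refine integrable_finsetSum _ fun a _ => ?_
    exact integrable_pot (hu.mul (hg a)) (fun v => mul_nonneg (hu0 v) (g0 a v))
      (fun v => mul_le_one₀ (hu1 v) (g0 a v) (gle a v)) K L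
  · exact integrable_pot hu hu0 hu1 K L

/-- on a piece, the increment is at most the information of the conditioned law -/
theorem piece_le_info (hu : Measurable u) (hu0 : ∀ v, 0 ≤ u v) (hu1 : ∀ v, u v ≤ 1)
    (hg : ∀ a, Measurable (g a)) (g0 : ∀ a v, 0 ≤ g a v) (g1 : ∀ v, ∑ a, g a v = 1)
    (α : Fin (L + 1) × (Fin d → ℤ)) (hpos : 0 < (nu μ u).real (pc μ K L u α)) :
    ∫ v in pc μ K L u α, Finc μ K L u g v ∂μ ≤ (nu μ u).real (pc μ K L u α) *
      (info (cond (nu μ u) (pc μ K L u α)) g + Real.log (L + 1) +
        Real.log ((nu μ u).real {v | cube d α.1 v = α.2} / (nu μ u).real (pc μ K L u α))) := by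
  have gle : ∀ a v, g a v ≤ 1 := fun a v => by
    rw [← g1 v]
    exact Finset.single_le_sum (f := fun a => g a v) (fun b _ => g0 b v) (Finset.mem_univ a)
  have hfin := nu_finite (μ := μ) hu hu0 hu1
  set P := pc μ K L u α with hP
  set Q : Set (E d) := {v | cube d α.1 v = α.2} with hQ
  have hPm : MeasurableSet P := measurableSet_pc μ K L u α
  have hQm : MeasurableSet Q := measurableSet_cubeEq d _ _
  have hPQ : P ⊆ Q := Set.inter_subset_right
  have hPQr : (nu μ u).real P ≤ (nu μ u).real Q := measureReal_mono hPQ
  have hQpos : 0 < (nu μ u).real Q := hpos.trans_le hPQr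
  have hνP : nu μ u P ≠ 0 := by
    intro h
    rw [Measure.real, h] at hpos
    simp at hpos
  have hprob : IsProbabilityMeasure (cond (nu μ u) P) := cond_isProbabilityMeasure hνP
  set p := cond (nu μ u) P with hp
  set ρ := (nu μ u).real Q / (nu μ u).real P with hρ
  have hρpos : 0 < ρ := by positivity
  -- integrals against p
  have hcond : ∀ f : E d → ℝ, (nu μ u).real P * ∫ v, f v ∂p = ∫ v in P, u v * f v ∂μ := by
    intro f
    rw [hp, ProbabilityTheory.cond, integral_smul_measure, setIntegral_nu hu hu0 hPm, smul_eq_mul,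
      ENNReal.toReal_inv, ← mul_assoc]
    rw [show (nu μ u).real P * ((nu μ u) P).toReal⁻¹ = 1 from mul_inv_cancel₀ hpos.ne', one_mul]
  set gb : A → ℝ := fun a => ∫ v, g a v ∂p with hgb
  have hgb0 : ∀ a, 0 ≤ gb a := fun a => integral_nonneg (g0 a)
  have hgbP : ∀ a, ∫ v in P, u v * g a v ∂μ = (nu μ u).real P * gb a := fun a => (hcond (g a)).symm
  have hint_ug : ∀ a, Integrable (fun v => u v * g a v) μ := fun a =>
    integrable_of_01 (hu.mul (hg a)) (fun v => mul_nonneg (hu0 v) (g0 a v))
      (fun v => mul_le_one₀ (hu1 v) (g0 a v) (gle a v))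
  -- dichotomy
  have hdich : ∀ᵐ v ∂(μ.restrict P), ∀ a, u v * g a v ≠ 0 → 0 < gb a := by
    rw [ae_all_iff]
    intro a
    rcases (hgb0 a).eq_or_lt with h0 | hpos'
    · have hz : ∫ v in P, u v * g a v ∂μ = 0 := by rw [hgbP, ← h0, mul_zero]
      have hae := (integral_eq_zero_iff_of_nonneg (μ := μ.restrict P)
        (fun v => mul_nonneg (hu0 v) (g0 a v)) (hint_ug a).integrableOn).1 hz
      filter_upwards [hae] with v hv hne
      exact absurd hv hne
    · exact Filter.Eventually.of_forall fun v _ => hpos'
  set G : E d → ℝ := fun v => (∑ a, g a v * Real.log (g a v / gb a)) + Real.log (L + 1) + Real.log ρ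
    with hG
  have hGm : Measurable G := by
    refine ((Finset.measurable_sum _ fun a _ => ?_).add_const _).add_const _
    exact (hg a).mul ((hg a).div_const _).log
  have hGb : ∀ v, ‖G v‖ ≤ (∑ a, (1 + |Real.log (gb a)|)) + |Real.log (L + 1)| + |Real.log ρ| := by
    intro v
    rw [Real.norm_eq_abs]
    calc |G v| ≤ |∑ a, g a v * Real.log (g a v / gb a)| + |Real.log (L + 1)| + |Real.log ρ| := by
          refine (abs_add_le _ _).trans ?_
          gcongr
          exact abs_add_le _ _
      _ ≤ _ := by
          gcongr
          refine (Finset.abs_sum_le_sum_abs _ _).trans ?_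
          exact Finset.sum_le_sum fun a _ => abs_mul_log_div_le (g0 a v) (gle a v) (hgb0 a)
  have hpoint : ∀ᵐ v ∂(μ.restrict P), Finc μ K L u g v ≤ u v * G v := by
    filter_upwards [hdich, ae_restrict_mem hPm] with v hv hvP
    have hcellv : Q = cell d α.1 v := by
      have h1 : cube d α.1 v = α.2 := hvP.2
      simp only [cell, h1, hQ]
    have hlL : (α.1 : ℕ) ≤ L := Nat.lt_succ_iff.1 α.1.2
    -- upper bound for msum u
    have hup : msum μ K L u v ≤ (L + 1) * (2 ^ (K * (α.1 : ℕ)) * (nu μ u).real Q) := by
      have h1 : ∀ j ∈ Finset.range (L + 1), (2 : ℝ) ^ (K * j) * ∫ v' in cell d j v, u v' ∂μ ≤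
          2 ^ (K * (α.1 : ℕ)) * (nu μ u).real Q := by
        intro j hj
        have := hvP.1.1 j hj
        unfold bw at this
        rw [hcellv, nu_real hu hu0 hu1 (measurableSet_cell _ _)]
        exact this
      calc msum μ K L u v ≤ ∑ _j ∈ Finset.range (L + 1), 2 ^ (K * (α.1 : ℕ)) * (nu μ u).real Q :=
            Finset.sum_le_sum h1
        _ = _ := by rw [Finset.sum_const, Finset.card_range, nsmul_eq_mul]; push_cast; ring
    have hmu : 0 < msum μ K L u v := by
      have h1 := term_le_msum (μ := μ) hu0 K hlL v
      rw [← hcellv, ← nu_real hu hu0 hu1 hQm] at h1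
      have : (0 : ℝ) < 2 ^ (K * (α.1 : ℕ)) * (nu μ u).real Q := by positivity
      linarith
    -- per symbol bound
    have hterm : ∀ a, (u v * g a v) * Real.log ((u v * g a v) / msum μ K L (fun w => u w * g a w) v) -
        (u v * g a v) * Real.log (u v / msum μ K L u v) ≤
        u v * (g a v * Real.log (g a v / gb a) + g a v * (Real.log (L + 1) + Real.log ρ)) := by
      intro a
      by_cases hz : u v * g a v = 0
      · rw [hz]
        simp only [zero_mul, sub_zero]
        rcases mul_eq_zero.1 hz with h | h <;> simp [h]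
      · have hgbpos := hv a hz
        have hu' : 0 < u v := lt_of_le_of_ne (hu0 v) (fun h => hz (by rw [← h, zero_mul]))
        have hg' : 0 < g a v := lt_of_le_of_ne (g0 a v) (fun h => hz (by rw [← h, mul_zero]))
        have hlow : 2 ^ (K * (α.1 : ℕ)) * ((nu μ u).real P * gb a) ≤
            msum μ K L (fun w => u w * g a w) v := by
          refine le_trans ?_ (term_le_msum (μ := μ) (w := fun w => u w * g a w)
            (fun w => mul_nonneg (hu0 w) (g0 a w)) K hlL v)
          rw [← hgbP a, ← hcellv]
          refine mul_le_mul_of_nonneg_left ?_ (by positivity)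
          exact setIntegral_mono_set (hint_ug a).integrableOn
            (Filter.Eventually.of_forall fun w => mul_nonneg (hu0 w) (g0 a w)) hPQ.eventuallyLE
        have hlowpos : (0 : ℝ) < 2 ^ (K * (α.1 : ℕ)) * ((nu μ u).real P * gb a) := by positivity
        have hma : 0 < msum μ K L (fun w => u w * g a w) v := hlowpos.trans_le hlow
        have hlog1 : Real.log (msum μ K L u v) ≤ Real.log (L + 1) +
            (Real.log (2 ^ (K * (α.1 : ℕ))) + Real.log ((nu μ u).real Q)) := by
          rw [← Real.log_mul (by positivity) hQpos.ne', ← Real.log_mul (by positivity) (by positivity)]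
          exact Real.log_le_log hmu hup
        have hlog2 : Real.log (2 ^ (K * (α.1 : ℕ))) + (Real.log ((nu μ u).real P) + Real.log (gb a)) ≤
            Real.log (msum μ K L (fun w => u w * g a w) v) := by
          rw [← Real.log_mul hpos.ne' hgbpos.ne', ← Real.log_mul (by positivity) (by positivity)]
          exact Real.log_le_log hlowpos hlow
        have hρlog : Real.log ρ = Real.log ((nu μ u).real Q) - Real.log ((nu μ u).real P) := by
          rw [hρ, Real.log_div hQpos.ne' hpos.ne']
        have e1 : Real.log ((u v * g a v) / msum μ K L (fun w => u w * g a w) v) =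
            Real.log (u v) + Real.log (g a v) - Real.log (msum μ K L (fun w => u w * g a w) v) := by
          rw [Real.log_div hz hma.ne', Real.log_mul hu'.ne' hg'.ne']
        have e2 : Real.log (u v / msum μ K L u v) = Real.log (u v) - Real.log (msum μ K L u v) :=
          Real.log_div hu'.ne' hmu.ne'
        have e3 : Real.log (g a v / gb a) = Real.log (g a v) - Real.log (gb a) :=
          Real.log_div hg'.ne' hgbpos.ne'
        rw [e1, e2, e3]
        have hfin2 : Real.log (u v) + Real.log (g a v) -
            Real.log (msum μ K L (fun w => u w * g a w) v) -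
            (Real.log (u v) - Real.log (msum μ K L u v)) ≤
            Real.log (g a v) - Real.log (gb a) + (Real.log (L + 1) + Real.log ρ) := by
          rw [hρlog]; linarith
        have hug : 0 < u v * g a v := mul_pos hu' hg'
        calc _ = (u v * g a v) * (Real.log (u v) + Real.log (g a v) -
            Real.log (msum μ K L (fun w => u w * g a w) v) -
            (Real.log (u v) - Real.log (msum μ K L u v))) := by ring
          _ ≤ (u v * g a v) * (Real.log (g a v) - Real.log (gb a) +
              (Real.log (L + 1) + Real.log ρ)) := by gcongr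
          _ = _ := by ring
    have hsplit : u v * Real.log (u v / msum μ K L u v) =
        ∑ a, (u v * g a v) * Real.log (u v / msum μ K L u v) := by
      rw [← Finset.sum_mul, ← Finset.mul_sum, g1 v, mul_one]
    unfold Finc
    rw [hsplit, ← Finset.sum_sub_distrib]
    calc _ ≤ ∑ a, u v * (g a v * Real.log (g a v / gb a) + g a v * (Real.log (L + 1) + Real.log ρ)) :=
          Finset.sum_le_sum fun a _ => hterm a
      _ = u v * G v := by
          rw [← Finset.mul_sum, Finset.sum_add_distrib, ← Finset.sum_mul, g1 v, hG]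
          ring
  have hGint : Integrable (fun v => u v * G v) (μ.restrict P) := by
    refine Integrable.of_bound (hu.mul hGm).aestronglyMeasurable
      ((∑ a, (1 + |Real.log (gb a)|)) + |Real.log (L + 1)| + |Real.log ρ|) ?_
    filter_upwards with v
    rw [norm_mul, Real.norm_of_nonneg (hu0 v)]
    calc u v * ‖G v‖ ≤ 1 * ((∑ a, (1 + |Real.log (gb a)|)) + |Real.log (L + 1)| + |Real.log ρ|) := by
          gcongr
          · exact hu1 v
          · exact hGb v
      _ = _ := one_mul _
  calc ∫ v in P, Finc μ K L u g v ∂μ ≤ ∫ v in P, u v * G v ∂μ :=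
        integral_mono_ae (integrable_Finc hu hu0 hu1 hg g0 gle).integrableOn hGint hpoint
    _ = (nu μ u).real P * ∫ v, G v ∂p := (hcond G).symm
    _ = _ := by
        congr 1
        have hi : ∀ a, Integrable (fun v => g a v * Real.log (g a v / gb a)) p := by
          intro a
          refine Integrable.of_bound ((hg a).mul ((hg a).div_const _).log).aestronglyMeasurable
            (1 + |Real.log (gb a)|) ?_
          filter_upwards with v
          exact abs_mul_log_div_le (g0 a v) (gle a v) (hgb0 a)
        have hS : Integrable (fun v => ∑ a, g a v * Real.log (g a v / gb a)) p :=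
          integrable_finsetSum _ fun a _ => hi a
        have hGeq : (fun v => G v) = fun v => (∑ a, g a v * Real.log (g a v / gb a)) +
            (Real.log (L + 1) + Real.log ρ) := by
          funext v; simp only [hG]; ring
        rw [hGeq, integral_add hS (integrable_const _), integral_finsetSum _ fun a _ => hi a]
        simp only [integral_const, probReal_univ, smul_eq_mul, one_mul]
        rw [← add_assoc]
        rfl

end

end P309.PS
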