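import Vale.Agent.P309.PotStep

open MeasureTheory ProbabilityTheory Metric
open scoped RealInnerProductSpace ENNReal

namespace P309.PS

variable {d : ℕ}

/-- the measure with density `u` -/
noncomputable def nu (μ : Measure (E d)) (u : E d → ℝ) : Measure (E d) :=
  μ.withDensity (fun v => ENNReal.ofReal (u v))

theorem nu_apply {μ : Measure (E d)} [IsProbabilityMeasure μ] {u : E d → ℝ} (hu : Measurable u)
    (hu0 : ∀ v, 0 ≤ u v) (hu1 : ∀ v, u v ≤ 1) {s : Set (E d)} (hs : MeasurableSet s) :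
    nu μ u s = ENNReal.ofReal (∫ v in s, u v ∂μ) := by
  rw [nu, withDensity_apply _ hs, ofReal_integral_eq_lintegral_ofReal]
  · exact (integrable_of_01 hu hu0 hu1).integrableOn
  · exact Filter.Eventually.of_forall hu0

theorem nu_real {μ : Measure (E d)} [IsProbabilityMeasure μ] {u : E d → ℝ} (hu : Measurable u)
    (hu0 : ∀ v, 0 ≤ u v) (hu1 : ∀ v, u v ≤ 1) {s : Set (E d)} (hs : MeasurableSet s) :
    (nu μ u).real s = ∫ v in s, u v ∂μ := by
  rw [Measure.real, nu_apply hu hu0 hu1 hs, ENNReal.toReal_ofReal (integral_nonneg hu0)]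

theorem nu_finite {μ : Measure (E d)} [IsProbabilityMeasure μ] {u : E d → ℝ} (hu : Measurable u)
    (hu0 : ∀ v, 0 ≤ u v) (hu1 : ∀ v, u v ≤ 1) : IsFiniteMeasure (nu μ u) :=
  ⟨by rw [nu_apply hu hu0 hu1 MeasurableSet.univ]; exact ENNReal.ofReal_lt_top⟩

theorem setIntegral_nu {μ : Measure (E d)} [IsProbabilityMeasure μ] {u : E d → ℝ} (hu : Measurable u)
    (hu0 : ∀ v, 0 ≤ u v) {s : Set (E d)} (hs : MeasurableSet s) (f : E d → ℝ) :
    ∫ v in s, f v ∂(nu μ u) = ∫ v in s, u v * f v ∂μ := by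
  rw [nu, setIntegral_withDensity_eq_setIntegral_toReal_smul hu.ennreal_ofReal
    (Filter.Eventually.of_forall fun _ => ENNReal.ofReal_lt_top) f hs]
  congr 1
  funext v
  rw [ENNReal.toReal_ofReal (hu0 v), smul_eq_mul]

theorem dist_le_of_cube (hd : 1 ≤ d) {l : ℕ} (hl : l ≠ 0) {x y : E d}
    (h : cube d l x = cube d l y) : dist x y ≤ 2 / 2 ^ l := by
  have hdpos : (0 : ℝ) < d := by exact_mod_cast hd
  have hsq : 0 < Real.sqrt d := Real.sqrt_pos.2 hdpos
  have key : ∀ a b : ℝ, |Real.sqrt d * 2 ^ l * a - Real.sqrt d * 2 ^ l * b| < 1 →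
      dist a b ^ 2 ≤ 1 / ((d : ℝ) * (2 ^ l) ^ 2) := by
    intro a b h1
    rw [← mul_sub, abs_mul, abs_of_nonneg (by positivity : (0 : ℝ) ≤ Real.sqrt d * 2 ^ l)] at h1
    rw [Real.dist_eq]
    have h2 : |a - b| ≤ 1 / (Real.sqrt d * 2 ^ l) := by
      rw [le_div_iff₀ (by positivity)]
      linarith
    calc |a - b| ^ 2 ≤ (1 / (Real.sqrt d * 2 ^ l)) ^ 2 := by gcongr
      _ = 1 / ((d : ℝ) * (2 ^ l) ^ 2) := by
        rw [div_pow, mul_pow, Real.sq_sqrt hdpos.le, one_pow]
  have hcoord : ∀ i, dist (x i) (y i) ^ 2 ≤ 1 / (d * (2 ^ l) ^ 2) := by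
    intro i
    have hi := congrFun h i
    simp only [cube, hl, if_false] at hi
    exact key _ _ (Int.abs_sub_lt_one_of_floor_eq_floor hi)
  rw [EuclideanSpace.dist_eq]
  calc Real.sqrt (∑ i, dist (x i) (y i) ^ 2) ≤ Real.sqrt (∑ _i : Fin d, 1 / (d * (2 ^ l) ^ 2)) := by
        apply Real.sqrt_le_sqrt
        exact Finset.sum_le_sum fun i _ => hcoord i
    _ = Real.sqrt ((1 / 2 ^ l) ^ 2) := by
        congr 1
        rw [Finset.sum_const, Finset.card_univ, Fintype.card_fin, nsmul_eq_mul]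
        field_simp
    _ = 1 / 2 ^ l := Real.sqrt_sq (by positivity)
    _ ≤ 2 / 2 ^ l := by gcongr; norm_num

theorem frostman_piece (hd : 1 ≤ d) {K L : ℕ} {μ : Measure (E d)} [IsProbabilityMeasure μ]
    (hμ : μ (Metric.closedBall 0 1)ᶜ = 0) {u : E d → ℝ} (hu : Measurable u)
    (hu0 : ∀ v, 0 ≤ u v) (hu1 : ∀ v, u v ≤ 1)
    (hL : ∀ j, L ≤ j → ∀ v, (2 : ℝ) ^ (K * j) * ∫ v' in cell d j v, u v' ∂μ ≤ ∫ v', u v' ∂μ)
    (α : Fin (L + 1) × (Fin d → ℤ)) (hpos : 0 < (nu μ u).real (pc μ K L u α)) :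
    Frostman (cond (nu μ u) (pc μ K L u α)) (pc μ K L u α ∩ closedBall 0 1) (2 / 2 ^ (α.1 : ℕ))
      ((2 ^ 16) ^ d * ((nu μ u).real {v | cube d α.1 v = α.2} / (nu μ u).real (pc μ K L u α))) K := by
  have hfin := nu_finite (μ := μ) hu hu0 hu1
  set P := pc μ K L u α with hP
  set Q : Set (E d) := {v | cube d α.1 v = α.2} with hQ
  have hPm : MeasurableSet P := measurableSet_pc μ K L u α
  have hQm : MeasurableSet Q := measurableSet_cubeEq d _ _
  have hPQ : P ⊆ Q := Set.inter_subset_right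
  have hPQr : (nu μ u).real P ≤ (nu μ u).real Q := measureReal_mono hPQ
  have hρ : 1 ≤ (nu μ u).real Q / (nu μ u).real P := by rwa [one_le_div hpos]
  have hνP : nu μ u P ≠ 0 := by
    intro h
    rw [Measure.real, h] at hpos
    simp at hpos
  refine ⟨hPm.inter measurableSet_closedBall, ?_, by positivity, ?_, ?_, ?_⟩
  · rw [cond_apply hPm]
    have h1 : nu μ u (P ∩ (P ∩ closedBall 0 1)ᶜ) = 0 := by
      have h2 : P ∩ (P ∩ closedBall 0 1)ᶜ ⊆ (closedBall 0 1)ᶜ := by
        rintro v ⟨hv1, hv2⟩ hv3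
        exact hv2 ⟨hv1, hv3⟩
      have h3 : nu μ u (closedBall 0 1)ᶜ = 0 := withDensity_absolutelyContinuous μ _ hμ
      exact measure_mono_null h2 h3
    rw [h1, mul_zero]
  · rintro x ⟨hx, hxb⟩ y ⟨hy, hyb⟩
    by_cases hl : (α.1 : ℕ) = 0
    · rw [hl, pow_zero, div_one]
      calc dist x y ≤ dist x 0 + dist 0 y := dist_triangle _ _ _
        _ ≤ 1 + 1 := by
          rw [dist_comm 0 y]
          exact add_le_add hxb hyb
        _ = 2 := by norm_num
    · apply dist_le_of_cube hd hl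
      have h1 : cube d α.1 x = α.2 := hx.2
      have h2 : cube d α.1 y = α.2 := hy.2
      rw [h1, h2]
  · have h1 : (1 : ℝ) ≤ (2 ^ 16) ^ d := one_le_pow₀ (by norm_num)
    exact one_le_mul_of_one_le_of_one_le h1 hρ
  · intro x i
    have hcellb : ∀ v, cond (nu μ u) P (cell d (α.1 + i) v) ≤
        ENNReal.ofReal ((nu μ u).real Q / (nu μ u).real P / 2 ^ (K * i)) := by
      intro v
      rw [cond_apply hPm]
      rcases Set.eq_empty_or_nonempty (P ∩ cell d (α.1 + i) v) with hem | ⟨v', hv'P, hv'c⟩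
      · rw [hem, measure_empty, mul_zero]; exact zero_le
      · have hcell : cell d (α.1 + i) v = cell d (α.1 + i) v' := by
          have h1 : cube d (α.1 + i) v' = cube d (α.1 + i) v := hv'c
          simp only [cell, h1]
        have hcm : MeasurableSet (cell d (α.1 + i) v') := measurableSet_cell _ _
        have hQcell : Q = cell d α.1 v' := by
          have h1 : cube d α.1 v' = α.2 := hv'P.2
          simp only [cell, h1, hQ]
        have hb : (2 : ℝ) ^ (K * (α.1 + i)) * (nu μ u).real (cell d (α.1 + i) v') ≤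
            (2 : ℝ) ^ (K * α.1) * (nu μ u).real Q := by
          rw [hQcell, nu_real hu hu0 hu1 hcm, nu_real hu hu0 hu1 (measurableSet_cell _ _)]
          rcases le_or_gt ((α.1 : ℕ) + i) L with hle | hgt
          · exact hv'P.1.1 _ (Finset.mem_range.2 (Nat.lt_succ_of_le hle))
          · have h1 := hL _ hgt.le v'
            have h2 := hv'P.1.1 0 (Finset.mem_range.2 (Nat.succ_pos L))
            simp only [bw, Nat.mul_zero, pow_zero, one_mul, cell_zero, setIntegral_univ] at h2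
            exact h1.trans h2
        have hb' : (nu μ u).real (cell d (α.1 + i) v') ≤ (nu μ u).real Q / 2 ^ (K * i) := by
          rw [le_div_iff₀ (by positivity)]
          rw [Nat.mul_add, pow_add] at hb
          have h2 : (0 : ℝ) < 2 ^ (K * (α.1 : ℕ)) := by positivity
          have h3 : (2 : ℝ) ^ (K * (α.1 : ℕ)) * ((nu μ u).real (cell d (α.1 + i) v') * 2 ^ (K * i)) ≤
              2 ^ (K * (α.1 : ℕ)) * (nu μ u).real Q := by
            calc _ = (2 : ℝ) ^ (K * (α.1 : ℕ)) * 2 ^ (K * i) * (nu μ u).real (cell d (α.1 + i) v') := by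
                  ring
              _ ≤ _ := hb
          exact le_of_mul_le_mul_left h3 h2
        calc (nu μ u P)⁻¹ * nu μ u (P ∩ cell d (α.1 + i) v)
            ≤ (nu μ u P)⁻¹ * nu μ u (cell d (α.1 + i) v') := by
              rw [hcell]
              gcongr
              exact Set.inter_subset_right
          _ = ENNReal.ofReal ((nu μ u).real (cell d (α.1 + i) v') / (nu μ u).real P) := by
              rw [ENNReal.ofReal_div_of_pos hpos, ofReal_measureReal, ofReal_measureReal,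
                mul_comm, div_eq_mul_inv]
          _ ≤ _ := by
              apply ENNReal.ofReal_le_ofReal
              rw [div_right_comm]
              gcongr
    have hb := ball_le_cell hd (α.1 + i) (cond (nu μ u) P) _ hcellb x
    have hrad : (2 : ℝ) / 2 ^ (α.1 : ℕ) / 2 ^ i = 2 / 2 ^ ((α.1 : ℕ) + i) := by
      rw [pow_add]; field_simp
    rw [hrad]
    refine hb.trans (le_of_eq ?_)
    have h16 : ((2 : ℝ≥0∞) ^ 16) ^ d = ENNReal.ofReal ((2 ^ 16) ^ d) := by
      rw [ENNReal.ofReal_pow (by positivity), ENNReal.ofReal_pow (by positivity)]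
      simp
    rw [h16, ← ENNReal.ofReal_mul (by positivity)]
    congr 1
    ring

end P309.PS
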