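import Vale.Agent.P309.PotBasic
import Vale.Agent.P309.BallCell

open MeasureTheory ProbabilityTheory Metric
open scoped RealInnerProductSpace ENNReal

namespace P309.PS

variable {d : ℕ}

/-- The scale weight of level `j` around `v`. -/
noncomputable def bw (μ : Measure (E d)) (K : ℕ) (u : E d → ℝ) (j : ℕ) (v : E d) : ℝ :=
  (2 : ℝ) ^ (K * j) * ∫ v' in cell d j v, u v' ∂μ

theorem measurable_bw (μ : Measure (E d)) (K : ℕ) (u : E d → ℝ) (j : ℕ) :
    Measurable (bw μ K u j) := (measurable_cellint μ u j).const_mul _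

/-- `l` is the first maximiser of the scale weights. -/
def lev (μ : Measure (E d)) (K L : ℕ) (u : E d → ℝ) (l : ℕ) : Set (E d) :=
  {v | (∀ j ∈ Finset.range (L + 1), bw μ K u j v ≤ bw μ K u l v) ∧
    ∀ j ∈ Finset.range l, bw μ K u j v < bw μ K u l v}

theorem measurableSet_lev (μ : Measure (E d)) (K L : ℕ) (u : E d → ℝ) (l : ℕ) :
    MeasurableSet (lev μ K L u l) := by
  have : lev μ K L u l = (⋂ j ∈ Finset.range (L + 1), {v | bw μ K u j v ≤ bw μ K u l v}) ∩
      (⋂ j ∈ Finset.range l, {v | bw μ K u j v < bw μ K u l v}) := by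
    ext v
    simp [lev]
  rw [this]
  refine MeasurableSet.inter ?_ ?_
  · exact Finset.measurableSet_biInter _ fun j _ =>
      measurableSet_le (measurable_bw μ K u j) (measurable_bw μ K u l)
  · exact Finset.measurableSet_biInter _ fun j _ =>
      measurableSet_lt (measurable_bw μ K u j) (measurable_bw μ K u l)

theorem exists_lev (μ : Measure (E d)) (K L : ℕ) (u : E d → ℝ) (v : E d) :
    ∃ l : Fin (L + 1), v ∈ lev μ K L u l := by
  classical
  let Pr : ℕ → Prop := fun l => l ≤ L ∧ ∀ j ∈ Finset.range (L + 1), bw μ K u j v ≤ bw μ K u l v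
  have hex : ∃ l, Pr l := by
    obtain ⟨l, hl, hmax⟩ := Finset.exists_max_image (Finset.range (L + 1)) (fun j => bw μ K u j v)
      ⟨0, by simp⟩
    exact ⟨l, Nat.lt_succ_iff.1 (Finset.mem_range.1 hl), hmax⟩
  refine ⟨⟨Nat.find hex, Nat.lt_succ_of_le (Nat.find_spec hex).1⟩, (Nat.find_spec hex).2, ?_⟩
  intro j hj
  rw [Finset.mem_range] at hj
  have hj' : j < Nat.find hex := hj
  have hmin := Nat.find_min hex hj'
  have hjL : j ≤ L := hj'.le.trans (Nat.find_spec hex).1
  have hlt : ∃ i ∈ Finset.range (L + 1), bw μ K u j v < bw μ K u i v := by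
    by_contra hcon
    push Not at hcon
    exact hmin ⟨hjL, hcon⟩
  obtain ⟨i, hi, hlt⟩ := hlt
  exact hlt.trans_le ((Nat.find_spec hex).2 i hi)

theorem lev_disjoint {μ : Measure (E d)} {K L : ℕ} {u : E d → ℝ} {l l' : Fin (L + 1)} {v : E d}
    (h : v ∈ lev μ K L u l) (h' : v ∈ lev μ K L u l') : l = l' := by
  have key : ∀ {a b : Fin (L + 1)}, v ∈ lev μ K L u a → v ∈ lev μ K L u b → ¬ (a < b) := by
    intro a b ha hb hab
    have h1 := ha.1 b (Finset.mem_range.2 b.2)
    have h2 := hb.2 a (Finset.mem_range.2 hab)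
    linarith
  rcases lt_trichotomy l l' with hlt | heq | hgt
  · exact absurd hlt (key h h')
  · exact heq
  · exact absurd hgt (key h' h)

/-- The pieces of the partition. -/
def pc (μ : Measure (E d)) (K L : ℕ) (u : E d → ℝ) (α : Fin (L + 1) × (Fin d → ℤ)) : Set (E d) :=
  lev μ K L u α.1 ∩ {v | cube d α.1 v = α.2}

theorem measurableSet_pc (μ : Measure (E d)) (K L : ℕ) (u : E d → ℝ)
    (α : Fin (L + 1) × (Fin d → ℤ)) : MeasurableSet (pc μ K L u α) :=
  (measurableSet_lev μ K L u α.1).inter (measurableSet_cubeEq d _ _)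

open scoped Function in
theorem pairwise_pc (μ : Measure (E d)) (K L : ℕ) (u : E d → ℝ) :
    Pairwise (Disjoint on (pc μ K L u)) := by
  intro α β hαβ
  rw [Function.onFun, Set.disjoint_left]
  rintro v ⟨h1, h2⟩ ⟨h3, h4⟩
  apply hαβ
  have hl := lev_disjoint h1 h3
  refine Prod.ext hl ?_
  have h2' : cube d α.1 v = α.2 := h2
  have h4' : cube d β.1 v = β.2 := h4
  rw [← h2', ← h4', hl]

theorem iUnion_pc (μ : Measure (E d)) (K L : ℕ) (u : E d → ℝ) : ⋃ α, pc μ K L u α = Set.univ := by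
  ext v
  simp only [Set.mem_iUnion, Set.mem_univ, iff_true]
  obtain ⟨l, hl⟩ := exists_lev μ K L u v
  exact ⟨(l, cube d l v), hl, rfl⟩

end P309.PS
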