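import Vale.Agent.P309.PotStepMain
import Vale.Agent.P309.Limit

open MeasureTheory ProbabilityTheory Metric
open scoped RealInnerProductSpace ENNReal

namespace P309

theorem pot_step {d m L : ℕ} (hm : 1 ≤ m) (hd : 8 * m ≤ d) {μ : Measure (E d)} [IsProbabilityMeasure μ]
    (hμ : μ (Metric.closedBall 0 1)ᶜ = 0) (u : E d → ℝ) (hu : Measurable u)
    (hu0 : ∀ v, 0 ≤ u v) (hu1 : ∀ v, u v ≤ 1)
    (hL : ∀ j, L ≤ j → ∀ v, (2 : ℝ) ^ (4 * m * j) * ∫ v' in cell d j v, u v' ∂μ ≤ ∫ v', u v' ∂μ)
    {A : Type} [Fintype A] [Nonempty A] (h : A → (Fin m → E d) → (Fin m → ℝ) → ℝ)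
    (hmeas : ∀ a, Measurable (fun q : (Fin m → E d) × (Fin m → ℝ) => h a q.1 q.2))
    (h0 : ∀ a X y, 0 ≤ h a X y) (h1 : ∀ X y, ∑ a, h a X y = 1) :
    ∑ a, pot μ (4 * m) L (fun v => u v * chan (h a) v) ≤ pot μ (4 * m) L u +
      (∫ v, u v ∂μ) * (Real.log (Fintype.card A) / (2 * m) + 30 * d + 3 * Real.log (L + 1)) := by
  have hd1 : 1 ≤ d := by omega
  have hle1 : ∀ a X y, h a X y ≤ 1 := by
    intro a X y
    rw [← h1 X y]
    exact Finset.single_le_sum (f := fun a => h a X y) (fun b _ => h0 b X y) (Finset.mem_univ a)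
  have hjoint : Measurable (fun q : E d × (Fin m → E d) => (q.2, fun i => ⟪q.2 i, q.1⟫)) := by
    refine Measurable.prodMk measurable_snd (measurable_pi_lambda _ fun i => ?_)
    have h2 : Measurable (fun q : E d × (Fin m → E d) => q.2 i) :=
      (measurable_pi_apply i).comp measurable_snd
    exact h2.inner measurable_fst
  have hG : ∀ a, Measurable (fun q : E d × (Fin m → E d) => h a q.2 (fun i => ⟪q.2 i, q.1⟫)) :=
    fun a => (hmeas a).comp hjoint
  have hg : ∀ a, Measurable (chan (d := d) (h a)) := by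
    intro a
    exact ((hG a).stronglyMeasurable.integral_prod_right (ν := rows d m)).measurable
  have hint : ∀ a v, Integrable (fun X => h a X (fun i => ⟪X i, v⟫)) (rows d m) := by
    intro a v
    refine Integrable.of_bound ((hG a).comp measurable_prodMk_left).aestronglyMeasurable 1 ?_
    filter_upwards with X
    rw [Real.norm_of_nonneg (h0 _ _ _)]
    exact hle1 _ _ _
  have g0 : ∀ a v, 0 ≤ chan (d := d) (h a) v := fun a v => integral_nonneg fun X => h0 _ _ _
  have g1 : ∀ v, ∑ a, chan (d := d) (h a) v = 1 := by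
    intro v
    unfold chan
    rw [← integral_finsetSum _ fun a _ => hint a v]
    simp only [h1]
    simp
  have hmain := PS.pot_step_general (K := 4 * m) (L := L) (g := fun a => chan (d := d) (h a)) hd1 hμ hu
    hu0 hu1 hL hg g0 g1 (Real.log (Fintype.card A) / (2 * m) + 16 * m)
    (fun p hp S R D hF => frostman_info hm hF h hmeas h0 h1)
  refine hmain.trans ?_
  have hW : 0 ≤ ∫ v, u v ∂μ := integral_nonneg hu0
  have hl2 := Real.log_two_lt_d9
  have hmd : 8 * (m : ℝ) ≤ d := by exact_mod_cast hd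
  have hd0 : (0 : ℝ) ≤ d := Nat.cast_nonneg d
  have hkey : Real.log (Fintype.card A) / (2 * m) + 16 * m + 16 * d * Real.log 2 +
      3 * Real.log (L + 1) ≤
      Real.log (Fintype.card A) / (2 * m) + 30 * d + 3 * Real.log (L + 1) := by
    have : 16 * (d : ℝ) * Real.log 2 ≤ 16 * d * 0.6931471808 := by gcongr
    nlinarith
  have := mul_le_mul_of_nonneg_left hkey hW
  linarith

end P309
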