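import Vale.Agent.P309.PotEst

open MeasureTheory ProbabilityTheory Metric
open scoped RealInnerProductSpace ENNReal

namespace P309.PS

variable {d : ℕ}

section

variable {K L : ℕ} {μ : Measure (E d)} [IsProbabilityMeasure μ] {u : E d → ℝ}
  {A : Type} [Fintype A] {g : A → E d → ℝ}

theorem piece_bound (hd : 1 ≤ d) (hμ : μ (Metric.closedBall 0 1)ᶜ = 0)
    (hu : Measurable u) (hu0 : ∀ v, 0 ≤ u v) (hu1 : ∀ v, u v ≤ 1)
    (hL : ∀ j, L ≤ j → ∀ v, (2 : ℝ) ^ (K * j) * ∫ v' in cell d j v, u v' ∂μ ≤ ∫ v', u v' ∂μ)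
    (hg : ∀ a, Measurable (g a)) (g0 : ∀ a v, 0 ≤ g a v) (g1 : ∀ v, ∑ a, g a v = 1)
    (C0 : ℝ) (hinfo : ∀ (p : Measure (E d)), IsProbabilityMeasure p → ∀ (S : Set (E d)) (R D : ℝ),
      Frostman p S R D K → info p g ≤ C0 + Real.log D)
    (α : Fin (L + 1) × (Fin d → ℤ)) :
    ∫ v in pc μ K L u α, Finc μ K L u g v ∂μ ≤
      (∫ v in pc μ K L u α, u v ∂μ) * (C0 + 16 * d * Real.log 2 + 3 * Real.log (L + 1) - 2) +
      2 / (L + 1) * ∫ v in {v | cube d α.1 v = α.2}, u v ∂μ := by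
  have hfin := nu_finite (μ := μ) hu hu0 hu1
  set P := pc μ K L u α with hP
  set Q : Set (E d) := {v | cube d α.1 v = α.2} with hQ
  have hPm : MeasurableSet P := measurableSet_pc μ K L u α
  have hQm : MeasurableSet Q := measurableSet_cubeEq d _ _
  have hPQ : P ⊆ Q := Set.inter_subset_right
  have hL1 : (0 : ℝ) < L + 1 := by positivity
  rw [← nu_real hu hu0 hu1 hPm, ← nu_real hu hu0 hu1 hQm]
  rcases (measureReal_nonneg (μ := nu μ u) (s := P)).eq_or_lt with h0 | hpos
  · have hz : ∫ v in P, u v ∂μ = 0 := by rw [← nu_real hu hu0 hu1 hPm, ← h0]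
    have hae := (integral_eq_zero_iff_of_nonneg (μ := μ.restrict P) hu0
      (integrable_of_01 hu hu0 hu1).integrableOn).1 hz
    have hF : ∫ v in P, Finc μ K L u g v ∂μ = 0 := by
      apply integral_eq_zero_of_ae
      filter_upwards [hae] with v hv
      have hv' : u v = 0 := hv
      simp [Finc, hv']
    rw [hF, ← h0, zero_mul, zero_add]
    positivity
  · have hPQr : (nu μ u).real P ≤ (nu μ u).real Q := measureReal_mono hPQ
    have hQpos : 0 < (nu μ u).real Q := hpos.trans_le hPQr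
    have hνP : nu μ u P ≠ 0 := by
      intro h
      rw [Measure.real, h] at hpos
      simp at hpos
    have hprob : IsProbabilityMeasure (cond (nu μ u) P) := cond_isProbabilityMeasure hνP
    have h1 := piece_le_info (K := K) (L := L) hu hu0 hu1 hg g0 g1 α hpos
    have h2 := hinfo _ hprob _ _ _ (frostman_piece hd hμ hu hu0 hu1 hL α hpos)
    simp only [← hP, ← hQ] at h1 h2
    set ρ := (nu μ u).real Q / (nu μ u).real P with hρ
    have hρpos : 0 < ρ := by positivity
    have h3 : Real.log ((2 ^ 16) ^ d * ρ) = 16 * d * Real.log 2 + Real.log ρ := by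
      rw [Real.log_mul (by positivity) hρpos.ne', Real.log_pow, Real.log_pow]
      push_cast; ring
    rw [h3] at h2
    have h4 : Real.log ρ ≤ ρ / (L + 1) - 1 + Real.log (L + 1) := by
      have h5 := Real.log_le_sub_one_of_pos (x := ρ / (L + 1)) (by positivity)
      rw [Real.log_div hρpos.ne' hL1.ne'] at h5
      linarith
    have h6 : (nu μ u).real P * ρ = (nu μ u).real Q := by rw [hρ]; field_simp
    calc ∫ v in P, Finc μ K L u g v ∂μ
        ≤ (nu μ u).real P * (info (cond (nu μ u) P) g + Real.log (L + 1) + Real.log ρ) := h1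
      _ ≤ (nu μ u).real P * (C0 + 16 * d * Real.log 2 + Real.log (L + 1) +
            2 * (ρ / (L + 1) - 1 + Real.log (L + 1))) :=
          mul_le_mul_of_nonneg_left (by linarith) hpos.le
      _ = (nu μ u).real P * (C0 + 16 * d * Real.log 2 + 3 * Real.log (L + 1) - 2) +
            2 / (L + 1) * ((nu μ u).real P * ρ) := by ring
      _ = _ := by rw [h6]

open scoped Function in
theorem hasSum_cubes (hu : Measurable u) (hu0 : ∀ v, 0 ≤ u v) (hu1 : ∀ v, u v ≤ 1) :
    HasSum (fun α : Fin (L + 1) × (Fin d → ℤ) => ∫ v in {v : E d | cube d α.1 v = α.2}, u v ∂μ)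
      ((L + 1) * ∫ v, u v ∂μ) := by
  have hl : ∀ l : Fin (L + 1), HasSum (fun n : Fin d → ℤ => ∫ v in {v : E d | cube d l v = n}, u v ∂μ)
      (∫ v, u v ∂μ) := by
    intro l
    have hdisj : Pairwise (Disjoint on (fun n : Fin d → ℤ => {v : E d | cube d l v = n})) := by
      intro n n' hnn
      rw [Function.onFun, Set.disjoint_left]
      intro v h1 h2
      exact hnn ((show cube d l v = n from h1).symm.trans h2)
    have hU : ⋃ n : Fin d → ℤ, {v : E d | cube d l v = n} = Set.univ := by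
      ext v; simp
    have := hasSum_integral_iUnion (μ := μ) (f := u) (fun n => measurableSet_cubeEq d l n) hdisj
      (integrable_of_01 hu hu0 hu1).integrableOn
    rwa [hU, setIntegral_univ] at this
  have hnn : ∀ α : Fin (L + 1) × (Fin d → ℤ), 0 ≤ ∫ v in {v : E d | cube d α.1 v = α.2}, u v ∂μ :=
    fun α => integral_nonneg hu0
  have hsummable : Summable (fun α : Fin (L + 1) × (Fin d → ℤ) =>
      ∫ v in {v : E d | cube d α.1 v = α.2}, u v ∂μ) := by
    rw [summable_prod_of_nonneg hnn]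
    exact ⟨fun l => (hl l).summable, (hasSum_fintype _).summable⟩
  have h1 := hsummable.hasSum.prod_fiberwise hl
  have h2 := hasSum_fintype (fun _ : Fin (L + 1) => ∫ v, u v ∂μ)
  have h3 := h1.unique h2
  rw [Finset.sum_const, Finset.card_univ, Fintype.card_fin, nsmul_eq_mul] at h3
  push_cast at h3
  rw [← h3]
  exact hsummable.hasSum

theorem pot_step_general (hd : 1 ≤ d) (hμ : μ (Metric.closedBall 0 1)ᶜ = 0)
    (hu : Measurable u) (hu0 : ∀ v, 0 ≤ u v) (hu1 : ∀ v, u v ≤ 1)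
    (hL : ∀ j, L ≤ j → ∀ v, (2 : ℝ) ^ (K * j) * ∫ v' in cell d j v, u v' ∂μ ≤ ∫ v', u v' ∂μ)
    (hg : ∀ a, Measurable (g a)) (g0 : ∀ a v, 0 ≤ g a v) (g1 : ∀ v, ∑ a, g a v = 1)
    (C0 : ℝ) (hinfo : ∀ (p : Measure (E d)), IsProbabilityMeasure p → ∀ (S : Set (E d)) (R D : ℝ),
      Frostman p S R D K → info p g ≤ C0 + Real.log D) :
    ∑ a, pot μ K L (fun v => u v * g a v) ≤ pot μ K L u +
      (∫ v, u v ∂μ) * (C0 + 16 * d * Real.log 2 + 3 * Real.log (L + 1)) := by
  have gle : ∀ a v, g a v ≤ 1 := fun a v => by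
    rw [← g1 v]
    exact Finset.single_le_sum (f := fun a => g a v) (fun b _ => g0 b v) (Finset.mem_univ a)
  have hF := integrable_Finc (K := K) (L := L) (μ := μ) hu hu0 hu1 hg g0 gle
  have h1 := hasSum_integral_iUnion (μ := μ) (f := Finc μ K L u g)
    (fun α => measurableSet_pc μ K L u α) (pairwise_pc μ K L u) hF.integrableOn
  rw [iUnion_pc, setIntegral_univ, integral_Finc hu hu0 hu1 hg g0 gle] at h1
  have h2 := hasSum_integral_iUnion (μ := μ) (f := u)
    (fun α => measurableSet_pc μ K L u α) (pairwise_pc μ K L u)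
    (integrable_of_01 hu hu0 hu1).integrableOn
  rw [iUnion_pc, setIntegral_univ] at h2
  have h3 := (h2.mul_right (C0 + 16 * d * Real.log 2 + 3 * Real.log (L + 1) - 2)).add
    ((hasSum_cubes (L := L) (μ := μ) hu hu0 hu1).mul_left (2 / ((L : ℝ) + 1)))
  have h4 := hasSum_le (fun α => piece_bound (K := K) (L := L) hd hμ hu hu0 hu1 hL hg g0 g1 C0 hinfo α)
    h1 h3
  have hL1 : (0 : ℝ) < L + 1 := by positivity
  have h5 : 2 / ((L : ℝ) + 1) * ((L + 1) * ∫ v, u v ∂μ) = 2 * ∫ v, u v ∂μ := by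
    field_simp
  rw [h5] at h4
  linarith

end

end P309.PS
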