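import Vale.Agent.P309.Cells
open MeasureTheory ProbabilityTheory
open scoped RealInnerProductSpace ENNReal
namespace P309

variable {d m n : ℕ}

/-- all replicas are in the same cell -/
def same (d m n : ℕ) (δ : ℝ) : Set ((Fin m → E d) × (Fin (n + 1) → E d)) :=
  {ω | ∀ i, lab δ ω.1 (ω.2 i) = lab δ ω.1 (ω.2 0)}

theorem measurableSet_same (δ : ℝ) : MeasurableSet (same d m n δ) := by
  have : same d m n δ = ⋂ i, {ω : (Fin m → E d) × (Fin (n + 1) → E d) | lab δ ω.1 (ω.2 i) = lab δ ω.1 (ω.2 0)} := by
    ext ω; simp [same]
  rw [this]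
  refine MeasurableSet.iInter (fun i => ?_)
  have h1 : Measurable (fun ω : (Fin m → E d) × (Fin (n + 1) → E d) => lab δ ω.1 (ω.2 i)) :=
    measurable_lab δ measurable_fst ((measurable_pi_apply i).comp measurable_snd)
  have h2 : Measurable (fun ω : (Fin m → E d) × (Fin (n + 1) → E d) => lab δ ω.1 (ω.2 0)) :=
    measurable_lab δ measurable_fst ((measurable_pi_apply 0).comp measurable_snd)
  exact measurableSet_eq_fun h1 h2

/-- replica density -/
noncomputable def dens (n : ℕ) (p : Measure (E d)) (δ : ℝ) (ω : (Fin m → E d) × (Fin (n + 1) → E d)) : ℝ≥0∞ :=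
  (same d m n δ).indicator (fun ω => ((mass p δ ω.1 (ω.2 0))⁻¹) ^ n) ω

theorem measurable_mass' {α : Type*} [MeasurableSpace α] (p : Measure (E d)) [IsProbabilityMeasure p]
    (δ : ℝ) {f : α → Fin m → E d} {g : α → E d} (hf : Measurable f) (hg : Measurable g) :
    Measurable (fun a => mass p δ (f a) (g a)) := by
  have h1 : Measurable (fun a => (f a, g a)) := hf.prodMk hg
  have h2 := Measurable.comp (g := fun q : (Fin m → E d) × E d => mass p δ q.1 q.2) (measurable_mass p δ) h1
  exact h2

theorem measurable_dens (p : Measure (E d)) [IsProbabilityMeasure p] (δ : ℝ) :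
    Measurable (dens (m := m) n p δ) := by
  unfold dens
  refine Measurable.indicator ?_ (measurableSet_same δ)
  exact ((measurable_mass' p δ measurable_fst ((measurable_pi_apply 0).comp measurable_snd)).inv).pow_const n

/-- base law of block and replicas -/
noncomputable abbrev base (m n : ℕ) (p : Measure (E d)) : Measure ((Fin m → E d) × (Fin (n + 1) → E d)) :=
  (rows d m).prod (Measure.pi (fun _ : Fin (n + 1) => p))

/-- replica law -/
noncomputable def repl (m n : ℕ) (p : Measure (E d)) (δ : ℝ) : Measure ((Fin m → E d) × (Fin (n + 1) → E d)) :=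
  (base m n p).withDensity (dens n p δ)

theorem lintegral_slice (p : Measure (E d)) [IsProbabilityMeasure p] (δ : ℝ) (X : Fin m → E d)
    (F : E d → ℝ≥0∞) (hF : Measurable F) (j : Fin (n + 1)) :
    ∫⁻ s, dens n p δ (X, s) * F (s j) ∂(Measure.pi (fun _ : Fin (n + 1) => p)) = ∫⁻ v, F v ∂p := by
  have hmp := (measurePreserving_piFinSuccAbove (fun _ : Fin (n + 1) => p) j)
  let G : E d × (Fin n → E d) → ℝ≥0∞ := fun r =>
    ((mass p δ X r.1)⁻¹ ^ n * F r.1) * ({r : E d × (Fin n → E d) | ∀ i, lab δ X (r.2 i) = lab δ X r.1}.indicator (fun _ => 1) r)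
  have hset : MeasurableSet {r : E d × (Fin n → E d) | ∀ i, lab δ X (r.2 i) = lab δ X r.1} := by
    have : {r : E d × (Fin n → E d) | ∀ i, lab δ X (r.2 i) = lab δ X r.1} =
        ⋂ i, {r : E d × (Fin n → E d) | lab δ X (r.2 i) = lab δ X r.1} := by
      ext r; simp
    rw [this]
    refine MeasurableSet.iInter (fun i => ?_)
    have h1 : Measurable (fun r : E d × (Fin n → E d) => lab δ X (r.2 i)) :=
      (measurable_lab' δ X).comp ((measurable_pi_apply i).comp measurable_snd)
    have h2 : Measurable (fun r : E d × (Fin n → E d) => lab δ X r.1) :=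
      (measurable_lab' δ X).comp measurable_fst
    exact measurableSet_eq_fun h1 h2
  have hmX : Measurable (fun v => mass p δ X v) := measurable_mass' p δ measurable_const measurable_id
  have hG : Measurable G := by
    refine Measurable.mul (Measurable.mul ?_ (hF.comp measurable_fst)) ?_
    · exact ((hmX.comp measurable_fst).inv).pow_const n
    · exact Measurable.indicator measurable_const hset
  have hrew : ∀ s : Fin (n + 1) → E d, dens n p δ (X, s) * F (s j) =
      G (MeasurableEquiv.piFinSuccAbove (fun _ => E d) j s) := by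
    intro s
    have e1 : (MeasurableEquiv.piFinSuccAbove (fun _ => E d) j s) = (s j, fun i => s (j.succAbove i)) := rfl
    rw [e1]
    have hiff : ((X, s) ∈ same d m n δ) ↔ (∀ i, lab δ X (s (j.succAbove i)) = lab δ X (s j)) := by
      constructor
      · intro h i
        have h1 := h (j.succAbove i)
        have h2 := h j
        simp only at h1 h2
        rw [h1, h2]
      · intro h i
        have key : ∀ i, lab δ X (s i) = lab δ X (s j) := by
          intro i
          by_cases hij : i = j
          · rw [hij]
          · obtain ⟨k, hk⟩ := Fin.exists_succAbove_eq hij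
            rw [← hk]; exact h k
        simp only
        rw [key i, key 0]
    by_cases hs : (X, s) ∈ same d m n δ
    · have h2 := hs j
      simp only at h2
      have h3 : mass p δ X (s j) = mass p δ X (s 0) := mass_congr p h2
      simp only [dens, G]
      rw [Set.indicator_of_mem hs, Set.indicator_of_mem (by exact hiff.1 hs)]
      rw [h3, mul_one]
    · simp only [dens, G]
      rw [Set.indicator_of_notMem hs, Set.indicator_of_notMem (by exact fun h => hs (hiff.2 h))]
      simp
  calc ∫⁻ s, dens n p δ (X, s) * F (s j) ∂(Measure.pi (fun _ : Fin (n + 1) => p))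
      = ∫⁻ s, G (MeasurableEquiv.piFinSuccAbove (fun _ => E d) j s) ∂(Measure.pi (fun _ : Fin (n + 1) => p)) := by
        simp_rw [hrew]
    _ = ∫⁻ r, G r ∂(p.prod (Measure.pi (fun _ : Fin n => p))) := hmp.lintegral_comp hG
    _ = ∫⁻ v, ∫⁻ s', G (v, s') ∂(Measure.pi (fun _ : Fin n => p)) ∂p := lintegral_prod _ hG.aemeasurable
    _ = ∫⁻ v, F v ∂p := by
        apply lintegral_congr_ae
        filter_upwards [mass_pos_ae p δ X] with v hv
        have h1 : ∀ s' : Fin n → E d, G (v, s') = ((mass p δ X v)⁻¹ ^ n * F v) *
            ((Set.pi Set.univ (fun _ : Fin n => {v' | lab δ X v' = lab δ X v})).indicator (fun _ => 1) s') := by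
          intro s'
          simp only [G]
          congr 1
          simp only [Set.indicator, Set.mem_ofPred_eq, Set.mem_pi, Set.mem_univ, true_imp_iff]
        simp_rw [h1]
        rw [lintegral_const_mul]
        · rw [lintegral_indicator_const]
          · rw [Measure.pi_pi, Finset.prod_const, Finset.card_univ, Fintype.card_fin]
            change mass p δ X v ≠ 0 at hv
            have h2 : p {v' | lab δ X v' = lab δ X v} = mass p δ X v := rfl
            rw [h2, one_mul]
            have hfin : mass p δ X v ≠ ⊤ := ne_top_of_le_ne_top ENNReal.one_ne_top (mass_le_one p δ X v)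
            have h4 : (mass p δ X v)⁻¹ ^ n * (mass p δ X v) ^ n = 1 := by
              rw [← mul_pow, ENNReal.inv_mul_cancel hv hfin, one_pow]
            calc (mass p δ X v)⁻¹ ^ n * F v * mass p δ X v ^ n
                = ((mass p δ X v)⁻¹ ^ n * mass p δ X v ^ n) * F v := by ring
              _ = F v := by rw [h4, one_mul]
          · exact MeasurableSet.univ_pi (fun _ => measurableSet_eq_fun (measurable_lab' δ X) measurable_const)
        · exact Measurable.indicator measurable_const
            (MeasurableSet.univ_pi (fun _ => measurableSet_eq_fun (measurable_lab' δ X) measurable_const))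

theorem lintegral_repl (p : Measure (E d)) [IsProbabilityMeasure p] (δ : ℝ)
    (F : (Fin m → E d) × E d → ℝ≥0∞) (hF : Measurable F) (j : Fin (n + 1)) :
    ∫⁻ ω, F (ω.1, ω.2 j) ∂(repl m n p δ) = ∫⁻ q, F q ∂((rows d m).prod p) := by
  unfold repl
  have hFj : Measurable (fun ω : (Fin m → E d) × (Fin (n + 1) → E d) => F (ω.1, ω.2 j)) :=
    hF.comp (measurable_fst.prodMk ((measurable_pi_apply j).comp measurable_snd))
  rw [lintegral_withDensity_eq_lintegral_mul _ (measurable_dens p δ) hFj]
  rw [base, lintegral_prod _ ((measurable_dens p δ).mul hFj).aemeasurable, lintegral_prod _ hF.aemeasurable]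
  refine lintegral_congr (fun X => ?_)
  exact lintegral_slice p δ X (fun v => F (X, v)) (hF.comp (measurable_const.prodMk measurable_id)) j

instance (p : Measure (E d)) [IsProbabilityMeasure p] (δ : ℝ) : IsProbabilityMeasure (repl m n p δ) := by
  constructor
  have := lintegral_repl (m := m) (n := n) p δ (fun _ => 1) measurable_const 0
  simpa using this

theorem measurePreserving_repl (p : Measure (E d)) [IsProbabilityMeasure p] (δ : ℝ) (j : Fin (n + 1)) :
    MeasurePreserving (fun ω : (Fin m → E d) × (Fin (n + 1) → E d) => (ω.1, ω.2 j))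
      (repl m n p δ) ((rows d m).prod p) := by
  have hm : Measurable (fun ω : (Fin m → E d) × (Fin (n + 1) → E d) => (ω.1, ω.2 j)) :=
    measurable_fst.prodMk ((measurable_pi_apply j).comp measurable_snd)
  refine ⟨hm, ?_⟩
  refine Measure.ext (fun s hs => ?_)
  rw [Measure.map_apply hm hs, ← lintegral_indicator_one (hm hs), ← lintegral_indicator_one hs]
  have := lintegral_repl (m := m) (n := n) p δ (s.indicator 1) (measurable_one.indicator hs) j
  rw [← this]
  rfl

theorem same_ae (p : Measure (E d)) [IsProbabilityMeasure p] (δ : ℝ) :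
    ∀ᵐ ω ∂(repl m n p δ), ω ∈ same d m n δ := by
  unfold repl
  rw [ae_withDensity_iff (measurable_dens p δ)]
  refine Filter.Eventually.of_forall (fun ω hω => ?_)
  by_contra h
  exact hω (by simp [dens, h])

end P309
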