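import Vale.Agent.P309.Replica
open MeasureTheory ProbabilityTheory
open scoped RealInnerProductSpace ENNReal
namespace P309

/-- the Gaussian measure charges balls around the origin -/
theorem gauss_ball_pos (d : ℕ) {r : ℝ} (hr : 0 < r) :
    0 < stdGaussian (E d) (Metric.closedBall 0 r) := by
  have hg : ∀ a : ℝ, 0 < a → 0 < gaussianReal 0 1 (Set.Icc (-a) a) := by
    intro a ha
    rw [pos_iff_ne_zero]
    intro h0
    have := gaussianReal_absolutelyContinuous' 0 (one_ne_zero) h0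
    rw [Real.volume_Icc] at this
    rw [ENNReal.ofReal_eq_zero] at this
    linarith
  rw [← map_pi_eq_stdGaussian, Measure.map_apply (by fun_prop) measurableSet_closedBall]
  set a : ℝ := r / (d + 1) with ha
  have ha0 : 0 < a := by positivity
  have hsub : Set.pi Set.univ (fun _ : Fin d => Set.Icc (-a) a) ⊆ (WithLp.toLp 2) ⁻¹' (Metric.closedBall (0 : E d) r) := by
    intro x hx
    rw [Set.mem_preimage, mem_closedBall_zero_iff]
    have h1 : ‖(WithLp.toLp 2 x : E d)‖ ^ 2 ≤ r ^ 2 := by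
      rw [EuclideanSpace.real_norm_sq_eq]
      have h2 : ∀ i : Fin d, (WithLp.toLp 2 x : E d) i ^ 2 ≤ a ^ 2 := by
        intro i
        have h3 := hx i (Set.mem_univ i)
        have h4 : (WithLp.toLp 2 x : E d) i = x i := rfl
        rw [h4]
        exact sq_le_sq' (by linarith [h3.1]) h3.2
      calc ∑ i, (WithLp.toLp 2 x : E d) i ^ 2 ≤ ∑ _i : Fin d, a ^ 2 := Finset.sum_le_sum (fun i _ => h2 i)
        _ = d * a ^ 2 := by simp
        _ ≤ r ^ 2 := by
            rw [ha, div_pow, mul_div_assoc']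
            rw [div_le_iff₀ (by positivity)]
            have : (d : ℝ) ≤ (d + 1) ^ 2 := by nlinarith [Nat.cast_nonneg (α := ℝ) d]
            nlinarith [sq_nonneg r]
    exact le_of_sq_le_sq h1 hr.le
  refine lt_of_lt_of_le ?_ (measure_mono hsub)
  rw [Measure.pi_pi]
  exact pos_iff_ne_zero.2 (Finset.prod_ne_zero_iff.2 (fun i _ => (hg a ha0).ne'))

variable {d m n : ℕ}

/-- small ball probability of the differences -/
noncomputable def sb (n : ℕ) (δ : ℝ) (s : Fin (n + 1) → E d) : ℝ≥0∞ :=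
  stdGaussian (E d) {y | ∀ j, |⟪y, s j - s 0⟫| ≤ δ}

theorem measurableSet_sb (δ : ℝ) (s : Fin (n + 1) → E d) :
    MeasurableSet {y : E d | ∀ j, |⟪y, s j - s 0⟫| ≤ δ} := by
  have : {y : E d | ∀ j, |⟪y, s j - s 0⟫| ≤ δ} = ⋂ j, {y : E d | |⟪y, s j - s 0⟫| ≤ δ} := by
    ext y; simp
  rw [this]
  refine MeasurableSet.iInter (fun j => ?_)
  exact measurableSet_le (by fun_prop) measurable_const

theorem measurable_sb (δ : ℝ) : Measurable (sb (d := d) n δ) := by
  unfold sb
  have hs : MeasurableSet {r : (Fin (n + 1) → E d) × E d | ∀ j, |⟪r.2, r.1 j - r.1 0⟫| ≤ δ} := by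
    have : {r : (Fin (n + 1) → E d) × E d | ∀ j, |⟪r.2, r.1 j - r.1 0⟫| ≤ δ} =
        ⋂ j, {r : (Fin (n + 1) → E d) × E d | |⟪r.2, r.1 j - r.1 0⟫| ≤ δ} := by
      ext r; simp
    rw [this]
    refine MeasurableSet.iInter (fun j => ?_)
    have h1 : Measurable (fun r : (Fin (n + 1) → E d) × E d => r.1 j - r.1 0) :=
      ((measurable_pi_apply j).comp measurable_fst).sub ((measurable_pi_apply 0).comp measurable_fst)
    have h2 : Measurable (fun r : (Fin (n + 1) → E d) × E d => ⟪r.2, r.1 j - r.1 0⟫) :=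
      Measurable.inner measurable_snd h1
    exact measurableSet_le (h2.abs) measurable_const
  exact measurable_measure_prodMk_left hs

theorem sb_le_one (δ : ℝ) (s : Fin (n + 1) → E d) : sb n δ s ≤ 1 := prob_le_one

theorem sb_ge {δ R : ℝ} (hδ : 0 < δ) (hR : 0 < R) (s : Fin (n + 1) → E d) (hs : ∀ j, ‖s j - s 0‖ ≤ R) :
    stdGaussian (E d) (Metric.closedBall 0 (δ / R)) ≤ sb n δ s := by
  refine measure_mono (fun y hy j => ?_)
  rw [mem_closedBall_zero_iff] at hy
  calc |⟪y, s j - s 0⟫| ≤ ‖y‖ * ‖s j - s 0‖ := abs_real_inner_le_norm _ _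
    _ ≤ (δ / R) * R := by gcongr; exact hs j
    _ = δ := by field_simp

theorem near_measure (δ : ℝ) (s : Fin (n + 1) → E d) :
    rows d m {X | ∀ i j, |⟪X i, s j - s 0⟫| ≤ δ} = sb n δ s ^ m := by
  have : {X : Fin m → E d | ∀ i j, |⟪X i, s j - s 0⟫| ≤ δ} =
      Set.pi Set.univ (fun _ : Fin m => {y : E d | ∀ j, |⟪y, s j - s 0⟫| ≤ δ}) := by
    ext X; simp [Set.mem_pi]
  rw [this, rows, Measure.pi_pi]
  simp [sb]

theorem same_near {δ : ℝ} (hδ : 0 < δ) {X : Fin m → E d} {s : Fin (n + 1) → E d}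
    (h : (X, s) ∈ same d m n δ) : ∀ i j, |⟪X i, s j - s 0⟫| ≤ δ := by
  intro i j
  have h1 := congrFun (h j) i
  simp only [lab] at h1
  rw [inner_sub_right]
  have h2 := Int.abs_sub_lt_one_of_floor_eq_floor h1
  have h3 : ⟪X i, s j⟫ / δ - ⟪X i, s 0⟫ / δ = (⟪X i, s j⟫ - ⟪X i, s 0⟫) / δ := by ring
  rw [h3, abs_div, abs_of_pos hδ, div_lt_one hδ] at h2
  exact h2.le

/-- key transfer inequality -/
theorem lintegral_transfer (p : Measure (E d)) [IsProbabilityMeasure p] {δ : ℝ} (hδ : 0 < δ)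
    (G : (Fin (n + 1) → E d) → ℝ≥0∞) (hG : Measurable G) :
    ∫⁻ ω, mass p δ ω.1 (ω.2 0) ^ n * (G ω.2 / sb n δ ω.2 ^ m) ∂(repl m n p δ) ≤
      ∫⁻ s, G s ∂(Measure.pi (fun _ : Fin (n + 1) => p)) := by
  have hmm : Measurable (fun ω : (Fin m → E d) × (Fin (n + 1) → E d) => mass p δ ω.1 (ω.2 0)) :=
    measurable_mass' p δ measurable_fst ((measurable_pi_apply 0).comp measurable_snd)
  have hGs : Measurable (fun s : Fin (n + 1) → E d => G s / sb n δ s ^ m) :=
    hG.div ((measurable_sb δ).pow_const m)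
  have hF : Measurable (fun ω : (Fin m → E d) × (Fin (n + 1) → E d) =>
      mass p δ ω.1 (ω.2 0) ^ n * (G ω.2 / sb n δ ω.2 ^ m)) :=
    (hmm.pow_const n).mul (hGs.comp measurable_snd)
  let N : Set ((Fin m → E d) × (Fin (n + 1) → E d)) := {ω | ∀ i j, |⟪ω.1 i, ω.2 j - ω.2 0⟫| ≤ δ}
  have hN : MeasurableSet N := by
    have : N = ⋂ i, ⋂ j, {ω : (Fin m → E d) × (Fin (n + 1) → E d) | |⟪ω.1 i, ω.2 j - ω.2 0⟫| ≤ δ} := by
      ext ω; simp [N]
    rw [this]
    refine MeasurableSet.iInter (fun i => MeasurableSet.iInter (fun j => ?_))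
    have h1 : Measurable (fun ω : (Fin m → E d) × (Fin (n + 1) → E d) => ω.2 j - ω.2 0) :=
      ((measurable_pi_apply j).comp measurable_snd).sub ((measurable_pi_apply 0).comp measurable_snd)
    have h0 : Measurable (fun ω : (Fin m → E d) × (Fin (n + 1) → E d) => ω.1 i) :=
      (measurable_pi_apply i).comp measurable_fst
    exact measurableSet_le (Measurable.inner h0 h1).abs measurable_const
  have hNG : Measurable (fun ω : (Fin m → E d) × (Fin (n + 1) → E d) =>
      N.indicator (fun _ => (1 : ℝ≥0∞)) ω * (G ω.2 / sb n δ ω.2 ^ m)) :=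
    (measurable_const.indicator hN).mul (hGs.comp measurable_snd)
  unfold repl
  have h0 : ∫⁻ ω, mass p δ ω.1 (ω.2 0) ^ n * (G ω.2 / sb n δ ω.2 ^ m) ∂((base m n p).withDensity (dens n p δ))
      = ∫⁻ ω, dens n p δ ω * (mass p δ ω.1 (ω.2 0) ^ n * (G ω.2 / sb n δ ω.2 ^ m)) ∂(base m n p) :=
    lintegral_withDensity_eq_lintegral_mul _ (measurable_dens p δ) hF
  rw [h0]
  calc ∫⁻ ω, dens n p δ ω * (mass p δ ω.1 (ω.2 0) ^ n * (G ω.2 / sb n δ ω.2 ^ m)) ∂(base m n p)
      ≤ ∫⁻ ω, N.indicator (fun _ => (1 : ℝ≥0∞)) ω * (G ω.2 / sb n δ ω.2 ^ m) ∂(base m n p) := by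
        refine lintegral_mono (fun ω => ?_)
        rw [← mul_assoc]
        gcongr
        by_cases h : ω ∈ same d m n δ
        · have hn : ω ∈ N := same_near hδ h
          rw [Set.indicator_of_mem hn, dens, Set.indicator_of_mem h]
          rw [← mul_pow]
          exact pow_le_one₀ (by positivity) (ENNReal.inv_mul_le_one _)
        · rw [dens, Set.indicator_of_notMem h, zero_mul]
          positivity
    _ = ∫⁻ s, ∫⁻ X, N.indicator (fun _ => (1 : ℝ≥0∞)) (X, s) * (G s / sb n δ s ^ m) ∂(rows d m)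
          ∂(Measure.pi (fun _ : Fin (n + 1) => p)) := by
        rw [base, lintegral_prod_symm _ hNG.aemeasurable]
    _ ≤ ∫⁻ s, G s ∂(Measure.pi (fun _ : Fin (n + 1) => p)) := by
        refine lintegral_mono (fun s => ?_)
        have hsec : ∀ X : Fin m → E d, N.indicator (fun _ => (1 : ℝ≥0∞)) (X, s) =
            ({X : Fin m → E d | ∀ i j, |⟪X i, s j - s 0⟫| ≤ δ}).indicator (fun _ => 1) X := by
          intro X; simp only [Set.indicator, N, Set.mem_ofPred_eq]
        have hNs : MeasurableSet {X : Fin m → E d | ∀ i j, |⟪X i, s j - s 0⟫| ≤ δ} :=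
          measurable_prodMk_right hN
        simp_rw [hsec]
        rw [lintegral_mul_const _ (measurable_const.indicator hNs), lintegral_indicator_const hNs,
          near_measure, one_mul]
        rw [ENNReal.div_eq_inv_mul, ← mul_assoc]
        calc sb n δ s ^ m * (sb n δ s ^ m)⁻¹ * G s ≤ 1 * G s := by
              gcongr; exact ENNReal.mul_inv_le_one _
          _ = G s := one_mul _

end P309
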